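import Crest.Agent.R118.CoreDefs_324

/-!
# Row 118 (S0158), section A0 of `CoreStmts_324`: general facts on kernel norms

All statements are those of `CoreStmts_324` (task 143), in the namespace
`Crest.Agent.R118.A0_785`.
-/

namespace Crest.Agent.R118.A0_785

open Finset Base324 KNorm324 Core324

/-- the map to a point is measure preserving -/
lemma MP_unit {A : Type} [Fintype A] [Nonempty A] : MP (fun _ : A => ()) := by
  intro g
  rw [avg_const]
  simp [avg]

/-- the map to a one element type is measure preserving -/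
lemma MP_unique {A B : Type} [Fintype A] [Nonempty A] [Fintype B] [Unique B] (φ : A → B) :
    MP φ := by
  intro g
  have h1 : ∀ a, g (φ a) = g default := fun a => by rw [Subsingleton.elim (φ a) default]
  simp only [h1]
  rw [avg_const]
  simp [avg]

section General

variable {β a as : ℝ} {L M : ℕ} (K : KNorm β a as L M)
variable {A B A' B' : Type} [Fintype A] [Fintype B] [Fintype A'] [Fintype B']

include K in
theorem β_nonneg : 0 ≤ β := (K.nonneg _).trans K.walsh

/-- a constant kernel `1` has norm `≤ 1` -/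
theorem ν_one [Nonempty A] [Nonempty B] : K.ν (fun (_ : A) (_ : B) => (1 : ℝ)) ≤ 1 :=
  (K.pull (MP_unit (A := A)) (MP_unit (A := B)) (fun _ _ => (1 : ℝ))).trans K.one

/-- products over `Fin n` rows -/
theorem ν_prod_fin {P Q : Type} [Fintype P] [Fintype Q] : ∀ (n : ℕ) (κ : Fin n → P → Q → ℝ),
    K.ν (fun (x : Fin n → P) (y : Fin n → Q) => ∏ l, κ l (x l) (y l)) ≤ ∏ l, K.ν (κ l) := by
  intro n
  induction n with
  | zero =>
    intro κ
    simp only [Finset.univ_eq_empty, Finset.prod_empty]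
    exact ν_one K
  | succ n ih =>
    intro κ
    have h1 := K.pull (MP.equiv (Fin.consEquiv (fun _ : Fin (n + 1) => P)).symm)
      (MP.equiv (Fin.consEquiv (fun _ : Fin (n + 1) => Q)).symm)
      (fun (x : P × (Fin n → P)) (y : Q × (Fin n → Q)) =>
        κ 0 x.1 y.1 * ∏ l, κ l.succ (x.2 l) (y.2 l))
    have h2 := K.tensor (κ 0) (fun (x : Fin n → P) (y : Fin n → Q) => ∏ l, κ l.succ (x l) (y l))
    have h3 := ih (fun l => κ l.succ)
    have h4 : (fun (x : Fin (n + 1) → P) (y : Fin (n + 1) → Q) => ∏ l, κ l (x l) (y l)) =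
        fun x y => (fun (x : P × (Fin n → P)) (y : Q × (Fin n → Q)) =>
          κ 0 x.1 y.1 * ∏ l, κ l.succ (x.2 l) (y.2 l))
          ((Fin.consEquiv (fun _ : Fin (n + 1) => P)).symm x)
          ((Fin.consEquiv (fun _ : Fin (n + 1) => Q)).symm y) := by
      funext x y
      simp only [Fin.prod_univ_succ, Fin.consEquiv_symm_apply]
      rfl
    rw [h4]
    refine h1.trans (h2.trans ?_)
    rw [Fin.prod_univ_succ]
    exact mul_le_mul_of_nonneg_left h3 (K.nonneg _)

/-- A0.1 products over rows -/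
theorem ν_prod_pi {P Q : Type} [Fintype P] [Fintype Q] (ι : Type) [Fintype ι] [DecidableEq ι]
    (κ : ι → P → Q → ℝ) :
    K.ν (fun (x : ι → P) (y : ι → Q) => ∏ l, κ l (x l) (y l)) ≤ ∏ l, K.ν (κ l) := by
  let e : ι ≃ Fin (Fintype.card ι) := Fintype.equivFin ι
  have h1 := ν_prod_fin K (Fintype.card ι) (fun l => κ (e.symm l))
  have h2 := K.pull (MP.equiv (Equiv.arrowCongr e (Equiv.refl P)))
      (MP.equiv (Equiv.arrowCongr e (Equiv.refl Q)))
      (fun (x : Fin (Fintype.card ι) → P) (y : Fin (Fintype.card ι) → Q) =>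
        ∏ l, κ (e.symm l) (x l) (y l))
  have h3 : (fun (x : ι → P) (y : ι → Q) => ∏ l, κ l (x l) (y l)) =
      fun x y => (fun (x : Fin (Fintype.card ι) → P) (y : Fin (Fintype.card ι) → Q) =>
        ∏ l, κ (e.symm l) (x l) (y l))
        (Equiv.arrowCongr e (Equiv.refl P) x) (Equiv.arrowCongr e (Equiv.refl Q) y) := by
    funext x y
    simp only [Equiv.arrowCongr_apply, Equiv.coe_refl, Function.comp_apply, id_eq]
    exact (Equiv.prod_comp e.symm (fun l => κ l (x l) (y l))).symm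
  rw [h3]
  refine h2.trans (h1.trans (le_of_eq ?_))
  exact Equiv.prod_comp e.symm (fun l => K.ν (κ l))

/-- A0.1' uniform version -/
theorem ν_prod_pi_le {P Q : Type} [Fintype P] [Fintype Q] (ι : Type) [Fintype ι] [DecidableEq ι]
    (κ : ι → P → Q → ℝ) (c : ℝ) (h : ∀ l, K.ν (κ l) ≤ c) :
    K.ν (fun (x : ι → P) (y : ι → Q) => ∏ l, κ l (x l) (y l)) ≤ c ^ Fintype.card ι := by
  refine (ν_prod_pi K ι κ).trans ?_
  calc ∏ l, K.ν (κ l) ≤ ∏ _l : ι, c :=
        Finset.prod_le_prod (fun l _ => K.nonneg _) (fun l _ => h l)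
    _ = c ^ Fintype.card ι := by simp

/-- A0.2 -/
theorem ν_chi_pi (ι : Type) [Fintype ι] [DecidableEq ι] :
    K.ν (fun x y : ι → ZMod 2 => χ x y) ≤ β ^ Fintype.card ι :=
  ν_prod_pi_le K ι (fun _ x y => χ x y) β (fun _ => K.walsh)

/-- A0.3 -/
theorem ν_chi_Ro (I : ℕ) : K.ν (fun x y : Ro L I => χ x y) ≤ β ^ (L + I) := by
  have h1 := K.tensor (fun x y : Fin L → ZMod 2 => χ x y) (fun x y : Fin I → ZMod 2 => χ x y)
  have h2 := ν_chi_pi K (Fin L)
  have h3 := ν_chi_pi K (Fin I)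
  rw [Fintype.card_fin] at h2 h3
  refine h1.trans ?_
  rw [pow_add]
  exact mul_le_mul h2 h3 (K.nonneg _) (pow_nonneg (β_nonneg K) _)

/-- A0.4 -/
theorem ν_chi_R (I : ℕ) : K.ν (fun x y : R L I => χ x y) ≤ β ^ (1 + L + I) := by
  have h1 := K.tensor (fun x y : ZMod 2 => χ x y) (fun x y : Ro L I => χ x y)
  refine h1.trans ?_
  rw [add_assoc, pow_add, pow_one]
  exact mul_le_mul K.walsh (ν_chi_Ro K I) (K.nonneg _) (β_nonneg K)

/-- A0.5 -/
theorem ν_k0 (I : ℕ) : K.ν (k0 : Pf L I → R L I → ℝ) ≤ β ^ (1 + L + I) :=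
  (K.pull (φ := fun x : Pf L I => x.1) MP.fst MP.id (fun x y : R L I => χ x y)).trans
    (ν_chi_R K I)

lemma MP_add_dvec (I : ℕ) : MP (fun x : Pf L I => x.1 + dvec x.2.1) :=
  MP.of_fibre (fun s => MP.add_const (dvec s.1))

/-- A0.6 -/
theorem ν_k1 (I : ℕ) : K.ν (k1 : Pf L I → R L I → ℝ) ≤ β ^ (1 + L + I) := by
  refine (K.unim_left (fun x : Pf L I => sg x.2.2) (fun x => (abs_sg _).le)
    (fun x t => χ (x.1 + dvec x.2.1) t)).trans ?_
  exact (K.pull (MP_add_dvec I) MP.id (fun x y : R L I => χ x y)).trans (ν_chi_R K I)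

end General

end Crest.Agent.R118.A0_785
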