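import Mathlib

/-!
Row 118 (S0158), piece (A1), algebra: the sums
`E_i(W) = ∑_{S ⊆ W, |S| = i} ∏_{S} c ∏_{W \ S} a`, their generating function, and the
random-subset identity behind Lemma T of helper324's proof.
-/

namespace Crest.Agent.R118.Esum523

open Finset

section algebra

variable {ι : Type*} [DecidableEq ι]

/-- sum over the `i`-element subsets `S` of `W` of `∏_{l ∈ S} c l * ∏_{l ∈ W \ S} a l` -/
def esum (a c : ι → ℝ) (i : ℕ) (W : Finset ι) : ℝ :=
  ∑ S ∈ W.powersetCard i, (∏ l ∈ S, c l) * ∏ l ∈ W \ S, a l

lemma esum_zero (a c : ι → ℝ) (W : Finset ι) : esum a c 0 W = ∏ l ∈ W, a l := by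
  simp [esum]

@[simp] lemma esum_zero_empty (a c : ι → ℝ) : esum a c 0 ∅ = 1 := by
  simp [esum]

@[simp] lemma esum_succ_empty (a c : ι → ℝ) (i : ℕ) : esum a c (i + 1) ∅ = 0 := by
  unfold esum
  rw [Finset.powersetCard_eq_empty.mpr (by simp), Finset.sum_empty]

@[simp] lemma esum_one_empty (a c : ι → ℝ) : esum a c 1 ∅ = 0 := esum_succ_empty a c 0

lemma esum_zero_insert (a c : ι → ℝ) {l : ι} {W : Finset ι} (h : l ∉ W) :
    esum a c 0 (insert l W) = a l * esum a c 0 W := by
  rw [esum_zero, esum_zero, Finset.prod_insert h]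

lemma esum_succ_insert (a c : ι → ℝ) (i : ℕ) {l : ι} {W : Finset ι} (h : l ∉ W) :
    esum a c (i + 1) (insert l W) = a l * esum a c (i + 1) W + c l * esum a c i W := by
  unfold esum
  rw [Finset.powersetCard_succ_insert h, Finset.sum_union, Finset.sum_image, Finset.mul_sum,
    Finset.mul_sum]
  · congr 1
    · apply Finset.sum_congr rfl
      intro S hS
      have hSW : S ⊆ W := (Finset.mem_powersetCard.mp hS).1
      have hlS : l ∉ S := fun hl => h (hSW hl)
      rw [Finset.insert_sdiff_of_notMem _ hlS, Finset.prod_insert]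
      · ring
      · simp [h]
    · apply Finset.sum_congr rfl
      intro S hS
      have hSW : S ⊆ W := (Finset.mem_powersetCard.mp hS).1
      have hlS : l ∉ S := fun hl => h (hSW hl)
      rw [Finset.insert_sdiff_insert, Finset.prod_insert hlS]
      have : W \ insert l S = W \ S := by
        ext x
        simp only [Finset.mem_sdiff, Finset.mem_insert, not_or]
        constructor
        · rintro ⟨h1, _, h3⟩; exact ⟨h1, h3⟩
        · rintro ⟨h1, h3⟩; exact ⟨h1, fun hx => h (hx ▸ h1), h3⟩
      rw [this]; ring
  · intro S hS T hT hST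
    have hlS : l ∉ S := fun hl => h ((Finset.mem_powersetCard.mp hS).1 hl)
    have hlT : l ∉ T := fun hl => h ((Finset.mem_powersetCard.mp hT).1 hl)
    have := congrArg (fun X => X.erase l) hST
    simpa [Finset.erase_insert hlS, Finset.erase_insert hlT] using this
  · rw [Finset.disjoint_left]
    intro S hS hS'
    obtain ⟨T, _, rfl⟩ := Finset.mem_image.mp hS'
    exact h ((Finset.mem_powersetCard.mp hS).1 (Finset.mem_insert_self l T))

/-- the weight of a subset `J` of `W` for independent selection with probability `p` -/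
def wt (p : ℝ) (W J : Finset ι) : ℝ := p ^ J.card * (1 - p) ^ (W \ J).card

lemma wt_of_subset_insert (p : ℝ) {l : ι} {W J : Finset ι} (h : l ∉ W) (hJ : J ⊆ W) :
    wt p (insert l W) J = (1 - p) * wt p W J := by
  have hlJ : l ∉ J := fun hl => h (hJ hl)
  unfold wt
  rw [Finset.insert_sdiff_of_notMem _ hlJ, Finset.card_insert_of_notMem (by simp [h])]
  ring

lemma sdiff_insert_insert {l : ι} {W J : Finset ι} (h : l ∉ W) :
    insert l W \ insert l J = W \ J := by
  ext x
  simp only [Finset.mem_sdiff, Finset.mem_insert, not_or]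
  constructor
  · rintro ⟨h1 | h1, h2, h3⟩
    · exact absurd h1 h2
    · exact ⟨h1, h3⟩
  · rintro ⟨h1, h3⟩; exact ⟨Or.inr h1, fun hx => h (hx ▸ h1), h3⟩

lemma wt_insert_insert (p : ℝ) {l : ι} {W J : Finset ι} (h : l ∉ W) (hJ : J ⊆ W) :
    wt p (insert l W) (insert l J) = p * wt p W J := by
  have hlJ : l ∉ J := fun hl => h (hJ hl)
  unfold wt
  rw [sdiff_insert_insert h, Finset.card_insert_of_notMem hlJ]
  ring

lemma sum_powerset_insert' (f : Finset ι → ℝ) {l : ι} {W : Finset ι} (h : l ∉ W) :
    ∑ J ∈ (insert l W).powerset, f J =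
      ∑ J ∈ W.powerset, f J + ∑ J ∈ W.powerset, f (insert l J) :=
  Finset.sum_powerset_insert h f

lemma sum_wt_zero (p : ℝ) (a c : ι → ℝ) (j : ℕ) (W : Finset ι) :
    ∑ J ∈ W.powerset, wt p W J * (esum a c 0 J * esum a c j (W \ J)) =
      (1 - p) ^ j * esum a c j W := by
  induction W using Finset.induction_on generalizing j with
  | empty =>
    cases j with
    | zero => simp [wt]
    | succ j => simp [wt]
  | insert l W h ih =>
    rw [sum_powerset_insert' _ h]
    have e1 : ∀ J ∈ W.powerset, wt p (insert l W) J *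
        (esum a c 0 J * esum a c j (insert l W \ J)) =
        (1 - p) * (wt p W J * (esum a c 0 J * esum a c j (insert l (W \ J)))) := by
      intro J hJ
      have hJ' := Finset.mem_powerset.mp hJ
      have hlJ : l ∉ J := fun hl => h (hJ' hl)
      rw [wt_of_subset_insert p h hJ', Finset.insert_sdiff_of_notMem _ hlJ]; ring
    have e2 : ∀ J ∈ W.powerset, wt p (insert l W) (insert l J) *
        (esum a c 0 (insert l J) * esum a c j (insert l W \ insert l J)) =
        p * a l * (wt p W J * (esum a c 0 J * esum a c j (W \ J))) := by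
      intro J hJ
      have hJ' := Finset.mem_powerset.mp hJ
      have hlJ : l ∉ J := fun hl => h (hJ' hl)
      rw [wt_insert_insert p h hJ', sdiff_insert_insert h, esum_zero_insert a c hlJ]; ring
    rw [Finset.sum_congr rfl e1, Finset.sum_congr rfl e2, ← Finset.mul_sum, ← Finset.mul_sum,
      ih j]
    cases j with
    | zero =>
      have e3 : ∀ J ∈ W.powerset, wt p W J * (esum a c 0 J * esum a c 0 (insert l (W \ J))) =
          a l * (wt p W J * (esum a c 0 J * esum a c 0 (W \ J))) := by
        intro J hJ
        rw [esum_zero_insert a c (by simp [h])]; ring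
      rw [Finset.sum_congr rfl e3, ← Finset.mul_sum, ih 0, esum_zero_insert a c h]
      ring
    | succ j =>
      have e3 : ∀ J ∈ W.powerset, wt p W J *
          (esum a c 0 J * esum a c (j + 1) (insert l (W \ J))) =
          a l * (wt p W J * (esum a c 0 J * esum a c (j + 1) (W \ J))) +
          c l * (wt p W J * (esum a c 0 J * esum a c j (W \ J))) := by
        intro J hJ
        rw [esum_succ_insert a c j (by simp [h])]; ring
      rw [Finset.sum_congr rfl e3, Finset.sum_add_distrib, ← Finset.mul_sum, ← Finset.mul_sum,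
        ih (j + 1), ih j, esum_succ_insert a c j h]
      ring

/-- The random-subset identity of Lemma T. -/
lemma sum_wt_one (p : ℝ) (a c : ι → ℝ) (j : ℕ) (W : Finset ι) :
    ∑ J ∈ W.powerset, wt p W J * (esum a c 1 J * esum a c j (W \ J)) =
      ((j : ℝ) + 1) * p * (1 - p) ^ j * esum a c (j + 1) W := by
  induction W using Finset.induction_on generalizing j with
  | empty => simp [wt]
  | insert l W h ih =>
    rw [sum_powerset_insert' _ h]
    have e1 : ∀ J ∈ W.powerset, wt p (insert l W) J *
        (esum a c 1 J * esum a c j (insert l W \ J)) =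
        (1 - p) * (wt p W J * (esum a c 1 J * esum a c j (insert l (W \ J)))) := by
      intro J hJ
      have hJ' := Finset.mem_powerset.mp hJ
      have hlJ : l ∉ J := fun hl => h (hJ' hl)
      rw [wt_of_subset_insert p h hJ', Finset.insert_sdiff_of_notMem _ hlJ]; ring
    have e2 : ∀ J ∈ W.powerset, wt p (insert l W) (insert l J) *
        (esum a c 1 (insert l J) * esum a c j (insert l W \ insert l J)) =
        p * a l * (wt p W J * (esum a c 1 J * esum a c j (W \ J))) +
        p * c l * (wt p W J * (esum a c 0 J * esum a c j (W \ J))) := by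
      intro J hJ
      have hJ' := Finset.mem_powerset.mp hJ
      have hlJ : l ∉ J := fun hl => h (hJ' hl)
      rw [wt_insert_insert p h hJ', sdiff_insert_insert h, esum_succ_insert a c 0 hlJ]; ring
    rw [Finset.sum_congr rfl e1, Finset.sum_congr rfl e2, Finset.sum_add_distrib,
      ← Finset.mul_sum, ← Finset.mul_sum, ← Finset.mul_sum, ih j, sum_wt_zero]
    cases j with
    | zero =>
      have e3 : ∀ J ∈ W.powerset, wt p W J * (esum a c 1 J * esum a c 0 (insert l (W \ J))) =
          a l * (wt p W J * (esum a c 1 J * esum a c 0 (W \ J))) := by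
        intro J hJ
        rw [esum_zero_insert a c (by simp [h])]; ring
      rw [Finset.sum_congr rfl e3, ← Finset.mul_sum, ih 0, esum_succ_insert a c 0 h]
      push_cast
      ring
    | succ j =>
      have e3 : ∀ J ∈ W.powerset, wt p W J *
          (esum a c 1 J * esum a c (j + 1) (insert l (W \ J))) =
          a l * (wt p W J * (esum a c 1 J * esum a c (j + 1) (W \ J))) +
          c l * (wt p W J * (esum a c 1 J * esum a c j (W \ J))) := by
        intro J hJ
        rw [esum_succ_insert a c j (by simp [h])]; ring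
      rw [Finset.sum_congr rfl e3, Finset.sum_add_distrib, ← Finset.mul_sum, ← Finset.mul_sum,
        ih (j + 1), ih j, esum_succ_insert a c (j + 1) h]
      push_cast
      ring

lemma esum_eq_zero_of_card_lt (a c : ι → ℝ) {i : ℕ} {W : Finset ι} (h : W.card < i) :
    esum a c i W = 0 := by
  unfold esum
  rw [Finset.powersetCard_eq_empty.mpr h, Finset.sum_empty]

/-- generating function -/
lemma prod_add_mul_eq (a c : ι → ℝ) (x : ℝ) (W : Finset ι) {N : ℕ} (hN : W.card ≤ N) :
    ∏ l ∈ W, (a l + x * c l) = ∑ i ∈ Finset.range (N + 1), x ^ i * esum a c i W := by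
  have h1 : ∏ l ∈ W, (a l + x * c l) =
      ∑ i ∈ Finset.range (W.card + 1), x ^ i * esum a c i W := by
    have e : ∀ l, a l + x * c l = x * c l + a l := fun l => add_comm _ _
    simp only [e]
    rw [Finset.prod_add, Finset.sum_powerset]
    apply Finset.sum_congr rfl
    intro i _
    unfold esum
    rw [Finset.mul_sum]
    apply Finset.sum_congr rfl
    intro S hS
    rw [Finset.prod_mul_distrib, Finset.prod_const, (Finset.mem_powersetCard.mp hS).2]
    ring
  rw [h1]
  apply Finset.sum_subset
  · intro i hi
    simp only [Finset.mem_range] at hi ⊢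
    omega
  · intro i _ hi
    simp only [Finset.mem_range] at hi
    rw [esum_eq_zero_of_card_lt a c (by omega), mul_zero]

lemma esum_one (a c : ι → ℝ) (W : Finset ι) :
    esum a c 1 W = ∑ l ∈ W, c l * ∏ l' ∈ W.erase l, a l' := by
  unfold esum
  rw [Finset.powersetCard_one, Finset.sum_map]
  apply Finset.sum_congr rfl
  intro l _
  simp [Finset.sdiff_singleton_eq_erase]

end algebra

section maps

variable {ι κ : Type*} [DecidableEq ι] [DecidableEq κ]

lemma esum_map (f : ι ↪ κ) (a c : κ → ℝ) (i : ℕ) (W : Finset ι) :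
    esum a c i (W.map f) = esum (fun l => a (f l)) (fun l => c (f l)) i W := by
  unfold esum
  rw [Finset.powersetCard_map, Finset.sum_map]
  apply Finset.sum_congr rfl
  intro S _
  simp only [RelEmbedding.coe_toEmbedding, Finset.mapEmbedding_apply]
  rw [← Finset.map_sdiff, Finset.prod_map, Finset.prod_map]

lemma esum_subtype [Fintype ι] (q : ι → Prop) [DecidablePred q] [Fintype {l // q l}]
    (a c : ι → ℝ) (i : ℕ) :
    esum (fun l : {l // q l} => a l) (fun l : {l // q l} => c l) i Finset.univ =
      esum a c i (Finset.univ.filter q) := by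
  have h := esum_map (Function.Embedding.subtype q) a c i Finset.univ
  simp only [Function.Embedding.subtype_apply] at h
  rw [← h]
  congr 1
  ext x
  simp

lemma esum_equiv [Fintype ι] [Fintype κ] (e : ι ≃ κ) (a c : κ → ℝ) (i : ℕ) :
    esum (fun l => a (e l)) (fun l => c (e l)) i Finset.univ = esum a c i Finset.univ := by
  rw [← Finset.map_univ_equiv e, esum_map]
  rfl

end maps

end Crest.Agent.R118.Esum523
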