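import Crest.Agent.R118.CoreDefs_324
import Crest.Agent.R118.Esum_523

/-!
Row 118 (S0158), piece (A1): `prod_expand`, `hom_split`, `lemmaT` of `CoreStmts_324`.
-/

namespace Crest.Agent.R118.A1_523

open Finset Base324 KNorm324 Core324 Esum523

lemma hom_eq_esum {ι : Type} [DecidableEq ι] (J : Finset ι) (u w : ι → ℝ) (i : ℕ) :
    hom J u w i = esum u w i J := rfl

/-- A1.1 -/
theorem prod_expand {ι : Type} [DecidableEq ι] (J : Finset ι) (u w : ι → ℝ) (s : ℝ) :
    ∏ l ∈ J, (u l + s * w l) = ∑ i ∈ range (J.card + 1), s ^ i * hom J u w i :=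
  prod_add_mul_eq u w s J le_rfl

/-- A1.2 the splitting identity -/
theorem hom_split {ι : Type} [Fintype ι] [DecidableEq ι] (u w : ι → ℝ) (p : ℝ) (i : ℕ) :
    ∑ J ∈ (univ : Finset ι).powerset, p ^ J.card * (1 - p) ^ (Jᶜ).card *
        (hom J u w 1 * hom Jᶜ u w i)
      = (i + 1) * p * (1 - p) ^ i * hom univ u w (i + 1) := by
  have h := sum_wt_one p u w i (univ : Finset ι)
  simp only [wt, ← Finset.compl_eq_univ_sdiff] at h
  exact h

/-- restriction of a family to the coordinates satisfying `q` and to the others -/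
lemma homK_subtype {P Q : Type} (κ0 κ1 : P → Q → ℝ) {ι : Type} [Fintype ι] [DecidableEq ι]
    (q : ι → Prop) [DecidablePred q] [Fintype {l // q l}] (i : ℕ) (x : ι → P) (y : ι → Q) :
    homK κ0 κ1 {l // q l} i (fun l => x l) (fun l => y l) =
      hom (univ.filter q) (fun l => κ0 (x l) (y l)) (fun l => κ1 (x l) (y l)) i := by
  unfold homK
  rw [hom_eq_esum, hom_eq_esum]
  exact esum_subtype q (fun l => κ0 (x l) (y l)) (fun l => κ1 (x l) (y l)) i

lemma homK_equiv {P Q : Type} (κ0 κ1 : P → Q → ℝ) {ι ι' : Type} [Fintype ι] [DecidableEq ι]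
    [Fintype ι'] [DecidableEq ι'] (e : ι ≃ ι') (i : ℕ) (x : ι' → P) (y : ι' → Q) :
    homK κ0 κ1 ι i (fun l => x (e l)) (fun l => y (e l)) = homK κ0 κ1 ι' i x y := by
  unfold homK
  rw [hom_eq_esum, hom_eq_esum]
  exact esum_equiv e (fun l => κ0 (x l) (y l)) (fun l => κ1 (x l) (y l)) i

lemma sum_weights {ι : Type} [Fintype ι] [DecidableEq ι] (p : ℝ) :
    ∑ J ∈ (univ : Finset ι).powerset, p ^ J.card * (1 - p) ^ (Jᶜ).card = 1 := by
  have h := Finset.sum_pow_mul_eq_add_pow p (1 - p) (univ : Finset ι)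
  simp only [Finset.card_compl]
  rw [Finset.card_univ] at h
  rw [h]
  simp

lemma coeff_ge (i : ℕ) :
    (1 : ℝ) / 4 ≤ ((i : ℝ) + 1) * (1 / (2 * ((i : ℝ) + 1))) *
      (1 - 1 / (2 * ((i : ℝ) + 1))) ^ i := by
  have hi : (0 : ℝ) ≤ i := Nat.cast_nonneg i
  have h1 : ((i : ℝ) + 1) * (1 / (2 * ((i : ℝ) + 1))) = 1 / 2 := by
    field_simp
  have hp : 1 / (2 * ((i : ℝ) + 1)) ≤ 1 / 2 := by
    apply one_div_le_one_div_of_le <;> linarith
  have h2 := one_add_mul_le_pow (a := -(1 / (2 * ((i : ℝ) + 1)))) (by linarith) i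
  have h3 : (i : ℝ) * (1 / (2 * ((i : ℝ) + 1))) ≤ 1 / 2 := by
    rw [mul_one_div, div_le_div_iff₀ (by positivity) (by norm_num)]
    nlinarith
  rw [h1]
  have h4 : (1 : ℝ) / 2 ≤ (1 - 1 / (2 * ((i : ℝ) + 1))) ^ i := by
    have : 1 - 1 / (2 * ((i : ℝ) + 1)) = 1 + -(1 / (2 * ((i : ℝ) + 1))) := by ring
    rw [this]
    nlinarith
  linarith

/-- A1.3 Lemma T for a general pre norm.  The hypothesis `hmix` says that tensoring with a first
order kernel costs at most `k`. -/
theorem lemmaT (N : PreNorm) {P Q : Type} [Fintype P] [Fintype Q] (κ0 κ1 : P → Q → ℝ)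
    (M : ℕ) (k b : ℝ) (hk : 0 ≤ k) (hb : 0 ≤ b)
    (h0 : ∀ (ι : Type) [Fintype ι] [DecidableEq ι], Fintype.card ι ≤ M →
      N.ν (homK κ0 κ1 ι 0) ≤ b ^ Fintype.card ι)
    (hmix : ∀ (ι ι' : Type) [Fintype ι] [DecidableEq ι] [Fintype ι'] [DecidableEq ι'] (i : ℕ),
      Fintype.card ι + Fintype.card ι' ≤ M →
      N.ν (fun (x : (ι → P) × (ι' → P)) (y : (ι → Q) × (ι' → Q)) =>
        homK κ0 κ1 ι 1 x.1 y.1 * homK κ0 κ1 ι' i x.2 y.2)
        ≤ k * b ^ Fintype.card ι * N.ν (homK κ0 κ1 ι' i))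
    (ι : Type) [Fintype ι] [DecidableEq ι] (hι : Fintype.card ι ≤ M) (i : ℕ) :
    N.ν (homK κ0 κ1 ι i) ≤ (4 * k) ^ i * b ^ Fintype.card ι := by
  induction i generalizing ι with
  | zero => simpa using h0 ι hι
  | succ i ih =>
    set p : ℝ := 1 / (2 * ((i : ℝ) + 1)) with hp
    set C : ℝ := ((i : ℝ) + 1) * p * (1 - p) ^ i with hC
    have hC4 : 1 / 4 ≤ C := coeff_ge i
    have hCpos : 0 < C := by linarith
    have hi : (0 : ℝ) ≤ i := Nat.cast_nonneg i
    have hp0 : 0 ≤ p := by positivity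
    have hp1 : p ≤ 1 := by
      rw [hp, div_le_one (by positivity)]; linarith
    -- the identity at kernel level
    have hid : ∀ (x : ι → P) (y : ι → Q), homK κ0 κ1 ι (i + 1) x y =
        C⁻¹ * ∑ J ∈ (univ : Finset ι).powerset, (p ^ J.card * (1 - p) ^ (Jᶜ).card) *
          (homK κ0 κ1 {l // l ∈ J} 1 (fun l => x l) (fun l => y l) *
            homK κ0 κ1 {l // ¬ l ∈ J} i (fun l => x l) (fun l => y l)) := by
      intro x y
      have h := hom_split (fun l => κ0 (x l) (y l)) (fun l => κ1 (x l) (y l)) p i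
      have h2 : ∀ J : Finset ι,
          homK κ0 κ1 {l // l ∈ J} 1 (fun l => x l) (fun l => y l) *
            homK κ0 κ1 {l // ¬ l ∈ J} i (fun l => x l) (fun l => y l) =
          hom J (fun l => κ0 (x l) (y l)) (fun l => κ1 (x l) (y l)) 1 *
          hom Jᶜ (fun l => κ0 (x l) (y l)) (fun l => κ1 (x l) (y l)) i := by
        intro J
        rw [homK_subtype κ0 κ1 (fun l => l ∈ J), homK_subtype κ0 κ1 (fun l => ¬ l ∈ J)]
        congr 2
        · ext l; simp
        · ext l; simp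
      simp only [h2]
      rw [h, ← hC, ← mul_assoc, inv_mul_cancel₀ hCpos.ne', one_mul]
      rfl
    have hterm : ∀ J : Finset ι,
        N.ν (fun (x : ι → P) (y : ι → Q) => (p ^ J.card * (1 - p) ^ (Jᶜ).card) *
          (homK κ0 κ1 {l // l ∈ J} 1 (fun l => x l) (fun l => y l) *
            homK κ0 κ1 {l // ¬ l ∈ J} i (fun l => x l) (fun l => y l))) ≤
        (p ^ J.card * (1 - p) ^ (Jᶜ).card) * (k * (4 * k) ^ i * b ^ Fintype.card ι) := by
      intro J
      have hw : 0 ≤ p ^ J.card * (1 - p) ^ (Jᶜ).card :=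
        mul_nonneg (pow_nonneg hp0 _) (pow_nonneg (by linarith) _)
      refine (N.smul_le _ _).trans ?_
      rw [abs_of_nonneg hw]
      apply mul_le_mul_of_nonneg_left _ hw
      have hc1 : Fintype.card {l // l ∈ J} = J.card := by simp
      have hc2 : Fintype.card {l // ¬ l ∈ J} = Fintype.card ι - J.card := by
        rw [Fintype.card_subtype_compl]; simp
      have hJ : J.card ≤ Fintype.card ι := Finset.card_le_univ J
      have hcard : Fintype.card {l // l ∈ J} + Fintype.card {l // ¬ l ∈ J} = Fintype.card ι := by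
        rw [hc1, hc2]; omega
      have hpull := N.pull
        (MP.equiv (Equiv.piEquivPiSubtypeProd (fun l => l ∈ J) (fun _ : ι => P)))
        (MP.equiv (Equiv.piEquivPiSubtypeProd (fun l => l ∈ J) (fun _ : ι => Q)))
        (fun (x : ({l // l ∈ J} → P) × ({l // ¬ l ∈ J} → P))
            (y : ({l // l ∈ J} → Q) × ({l // ¬ l ∈ J} → Q)) =>
          homK κ0 κ1 {l // l ∈ J} 1 x.1 y.1 * homK κ0 κ1 {l // ¬ l ∈ J} i x.2 y.2)
      refine (le_of_eq rfl).trans (hpull.trans ((hmix _ _ i (by rw [hcard]; exact hι)).trans ?_))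
      have hih := ih {l // ¬ l ∈ J} (by omega)
      calc k * b ^ Fintype.card {l // l ∈ J} * N.ν (homK κ0 κ1 {l // ¬ l ∈ J} i)
          ≤ k * b ^ Fintype.card {l // l ∈ J} *
            ((4 * k) ^ i * b ^ Fintype.card {l // ¬ l ∈ J}) := by
            apply mul_le_mul_of_nonneg_left hih (by positivity)
        _ = k * (4 * k) ^ i *
            (b ^ Fintype.card {l // l ∈ J} * b ^ Fintype.card {l // ¬ l ∈ J}) := by ring
        _ = k * (4 * k) ^ i * b ^ Fintype.card ι := by rw [← pow_add, hcard]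
    have heq : homK κ0 κ1 ι (i + 1) = fun (x : ι → P) (y : ι → Q) =>
        C⁻¹ * ∑ J ∈ (univ : Finset ι).powerset, (p ^ J.card * (1 - p) ^ (Jᶜ).card) *
          (homK κ0 κ1 {l // l ∈ J} 1 (fun l => x l) (fun l => y l) *
            homK κ0 κ1 {l // ¬ l ∈ J} i (fun l => x l) (fun l => y l)) := by
      funext x y; exact hid x y
    rw [heq]
    refine (N.smul_le _ _).trans ?_
    rw [abs_of_pos (inv_pos.mpr hCpos)]
    have hsum := N.sum_le (univ : Finset ι).powerset
      (fun J => fun (x : ι → P) (y : ι → Q) => (p ^ J.card * (1 - p) ^ (Jᶜ).card) *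
          (homK κ0 κ1 {l // l ∈ J} 1 (fun l => x l) (fun l => y l) *
            homK κ0 κ1 {l // ¬ l ∈ J} i (fun l => x l) (fun l => y l)))
    have hsum2 := hsum.trans (Finset.sum_le_sum fun J _ => hterm J)
    rw [← Finset.sum_mul, sum_weights, one_mul] at hsum2
    have hB : 0 ≤ k * (4 * k) ^ i * b ^ Fintype.card ι := by positivity
    have hCinv : C⁻¹ ≤ 4 := by
      rw [inv_le_comm₀ hCpos (by norm_num)]; linarith
    calc C⁻¹ * _ ≤ C⁻¹ * (k * (4 * k) ^ i * b ^ Fintype.card ι) :=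
          mul_le_mul_of_nonneg_left hsum2 (inv_pos.mpr hCpos).le
      _ ≤ 4 * (k * (4 * k) ^ i * b ^ Fintype.card ι) :=
          mul_le_mul_of_nonneg_right hCinv hB
      _ = (4 * k) ^ (i + 1) * b ^ Fintype.card ι := by ring

end Crest.Agent.R118.A1_523
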