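import Crest.Agent.R118.CoreDefs_324

/-!
Row 118 (S0158): tasks A1.1 (`prod_expand`), A1.4, A1.5 (consequences of Lemma T) and A2
(`ν_lift`), with the statements of `CoreStmts_324`.
-/

namespace Crest.Agent.R118.A2_321

open Finset Base324 KNorm324 Core324

/-- A1.1 -/
theorem prod_expand {ι : Type} [DecidableEq ι] (J : Finset ι) (u w : ι → ℝ) (s : ℝ) :
    ∏ l ∈ J, (u l + s * w l) = ∑ i ∈ range (J.card + 1), s ^ i * hom J u w i := by
  have h1 : ∏ l ∈ J, (u l + s * w l) = ∏ l ∈ J, (s * w l + u l) :=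
    Finset.prod_congr rfl fun l _ => add_comm _ _
  rw [h1, Finset.prod_add, Finset.sum_powerset]
  refine Finset.sum_congr rfl fun i _ => ?_
  rw [hom, Finset.mul_sum]
  refine Finset.sum_congr rfl fun S hS => ?_
  rw [Finset.mem_powersetCard] at hS
  rw [Finset.prod_mul_distrib, Finset.prod_const, hS.2]
  ring

lemma prodK_expand {P Q : Type} (κ0 κ1 : P → Q → ℝ) (ι : Type) [Fintype ι] [DecidableEq ι]
    (s : ℝ) (x : ι → P) (y : ι → Q) :
    prodK κ0 κ1 ι s x y = ∑ i ∈ range (Fintype.card ι + 1), s ^ i * homK κ0 κ1 ι i x y := by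
  have h := prod_expand (Finset.univ : Finset ι) (fun l => κ0 (x l) (y l))
    (fun l => κ1 (x l) (y l)) s
  rw [Finset.card_univ] at h
  exact h

lemma prodK_zero {P Q : Type} (κ0 κ1 : P → Q → ℝ) (ι : Type) [Fintype ι] [DecidableEq ι]
    (x : ι → P) (y : ι → Q) :
    prodK κ0 κ1 ι 0 x y = homK κ0 κ1 ι 0 x y := by
  rw [prodK_expand, Finset.sum_range_succ']
  simp

/-- geometric bound for a tail -/
lemma ν_tail (N : PreNorm) {P Q : Type} [Fintype P] [Fintype Q]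
    (κ0 κ1 : P → Q → ℝ)
    (k B : ℝ) (hk : 0 ≤ k) (hB : 0 ≤ B) (ι : Type) [Fintype ι] [DecidableEq ι]
    (h : ∀ i, N.ν (homK κ0 κ1 ι i) ≤ (4 * k) ^ i * B) (s : ℝ) (hs0 : 0 ≤ s) (hs : 8 * k * s ≤ 1)
    (m n : ℕ) :
    N.ν (fun x y => ∑ i ∈ range n, s ^ (i + m) * homK κ0 κ1 ι (i + m) x y)
      ≤ 2 * (4 * k * s) ^ m * B := by
  have hr0 : 0 ≤ 4 * k * s := by positivity
  have hr1 : 4 * k * s ≤ 1 / 2 := by linarith
  have h1 : N.ν (fun x y => ∑ i ∈ range n, s ^ (i + m) * homK κ0 κ1 ι (i + m) x y)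
      ≤ ∑ i ∈ range n, (4 * k * s) ^ (i + m) * B := by
    refine (N.sum_le (range n) (fun i x y => s ^ (i + m) * homK κ0 κ1 ι (i + m) x y)).trans ?_
    refine Finset.sum_le_sum fun i _ => ?_
    refine (N.smul_le (s ^ (i + m)) (homK κ0 κ1 ι (i + m))).trans ?_
    rw [abs_of_nonneg (by positivity)]
    calc s ^ (i + m) * N.ν (homK κ0 κ1 ι (i + m))
        ≤ s ^ (i + m) * ((4 * k) ^ (i + m) * B) :=
          mul_le_mul_of_nonneg_left (h _) (by positivity)
      _ = (4 * k * s) ^ (i + m) * B := by rw [mul_pow (4 * k) s]; ring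
  refine h1.trans ?_
  have h2 : ∑ i ∈ range n, (4 * k * s) ^ (i + m) * B
      = (4 * k * s) ^ m * B * ∑ i ∈ range n, (4 * k * s) ^ i := by
    rw [Finset.mul_sum]
    exact Finset.sum_congr rfl fun i _ => by rw [pow_add]; ring
  have h3 : ∑ i ∈ range n, (4 * k * s) ^ i ≤ 2 := by
    have h4 : ∀ n : ℕ, ∑ i ∈ range n, (4 * k * s) ^ i ≤ 2 * (1 - (1 / 2 : ℝ) ^ n) := by
      intro n
      induction n with
      | zero => simp
      | succ n ih =>
        rw [Finset.sum_range_succ]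
        have : (4 * k * s) ^ n ≤ (1 / 2 : ℝ) ^ n := pow_le_pow_left₀ hr0 hr1 n
        have h5 : (1 / 2 : ℝ) ^ (n + 1) = (1 / 2 : ℝ) ^ n / 2 := by rw [pow_succ]; ring
        rw [h5]
        linarith
    have h6 : (0 : ℝ) ≤ (1 / 2 : ℝ) ^ n := by positivity
    linarith [h4 n]
  rw [h2]
  calc (4 * k * s) ^ m * B * ∑ i ∈ range n, (4 * k * s) ^ i
      ≤ (4 * k * s) ^ m * B * 2 := mul_le_mul_of_nonneg_left h3 (by positivity)
    _ = _ := by ring

/-- A1.4 consequence: first order estimate -/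
theorem ν_prodK_sub_le (N : PreNorm) {P Q : Type} [Fintype P] [Fintype Q] (κ0 κ1 : P → Q → ℝ)
    (k B : ℝ) (hk : 0 ≤ k) (hB : 0 ≤ B) (ι : Type) [Fintype ι] [DecidableEq ι]
    (h : ∀ i, N.ν (homK κ0 κ1 ι i) ≤ (4 * k) ^ i * B) (s : ℝ) (hs0 : 0 ≤ s) (hs : 8 * k * s ≤ 1) :
    N.ν (fun x y => prodK κ0 κ1 ι s x y - prodK κ0 κ1 ι 0 x y) ≤ 8 * k * s * B := by
  have h1 : (fun (x : ι → P) (y : ι → Q) => prodK κ0 κ1 ι s x y - prodK κ0 κ1 ι 0 x y)
      = fun x y => ∑ i ∈ range (Fintype.card ι), s ^ (i + 1) * homK κ0 κ1 ι (i + 1) x y := by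
    funext x y
    rw [prodK_zero, prodK_expand, Finset.sum_range_succ']
    simp
  rw [h1]
  refine (ν_tail N κ0 κ1 k B hk hB ι h s hs0 hs 1 _).trans (le_of_eq ?_)
  ring

/-- A1.5 consequence: second order estimate -/
theorem ν_prodK_sub_sub_le (N : PreNorm) {P Q : Type} [Fintype P] [Fintype Q]
    (κ0 κ1 : P → Q → ℝ)
    (k B : ℝ) (hk : 0 ≤ k) (hB : 0 ≤ B) (ι : Type) [Fintype ι] [DecidableEq ι]
    (h : ∀ i, N.ν (homK κ0 κ1 ι i) ≤ (4 * k) ^ i * B) (s : ℝ) (hs0 : 0 ≤ s) (hs : 8 * k * s ≤ 1) :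
    N.ν (fun x y => (prodK κ0 κ1 ι s x y - prodK κ0 κ1 ι 0 x y) - s * homK κ0 κ1 ι 1 x y)
      ≤ 32 * (k * s) ^ 2 * B := by
  rcases Nat.eq_zero_or_pos (Fintype.card ι) with hc | hc
  · -- no rows: everything vanishes
    have hempty : IsEmpty ι := Fintype.card_eq_zero_iff.mp hc
    have h0 : (fun (x : ι → P) (y : ι → Q) =>
        (prodK κ0 κ1 ι s x y - prodK κ0 κ1 ι 0 x y) - s * homK κ0 κ1 ι 1 x y)
        = fun _ _ => 0 := by
      funext x y
      have h2 : (Finset.univ : Finset ι).powersetCard 1 = ∅ := by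
        apply Finset.powersetCard_eq_empty.mpr
        rw [Finset.card_univ, hc]; exact Nat.zero_lt_one
      have h3 : homK κ0 κ1 ι 1 x y = 0 := by
        unfold homK hom
        rw [h2, Finset.sum_empty]
      have h4 : prodK κ0 κ1 ι s x y = prodK κ0 κ1 ι 0 x y := by
        unfold prodK
        rw [Finset.univ_eq_empty, Finset.prod_empty, Finset.prod_empty]
      rw [h3, h4]; ring
    rw [h0, N.zero]
    positivity
  · obtain ⟨n, hn⟩ : ∃ n, Fintype.card ι = n + 1 := ⟨Fintype.card ι - 1, by omega⟩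
    have h1 : (fun (x : ι → P) (y : ι → Q) =>
        (prodK κ0 κ1 ι s x y - prodK κ0 κ1 ι 0 x y) - s * homK κ0 κ1 ι 1 x y)
        = fun x y => ∑ i ∈ range n, s ^ (i + 2) * homK κ0 κ1 ι (i + 2) x y := by
      funext x y
      rw [prodK_zero, prodK_expand, Finset.sum_range_succ', hn, Finset.sum_range_succ']
      simp
    rw [h1]
    refine (ν_tail N κ0 κ1 k B hk hB ι h s hs0 hs 2 _).trans (le_of_eq ?_)
    ring

section Lift

variable {β a as : ℝ} {L M : ℕ} (K : KNorm β a as L M)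

lemma hom_one {ι : Type} [DecidableEq ι] (J : Finset ι) (u w : ι → ℝ) :
    hom J u w 1 = ∑ l ∈ J, w l * ∏ l' ∈ J.erase l, u l' := by
  rw [hom, Finset.powersetCard_one, Finset.sum_map]
  refine Finset.sum_congr rfl fun l _ => ?_
  simp [Finset.sdiff_singleton_eq_erase]

/-- A2 -/
theorem ν_lift (I : ℕ) :
    as * K.ν (fun x y : Fin M → R L I => χ x y) ≤
      K.ν (homK (k0 : Pf L I → R L I → ℝ) k1 (Fin M) 1) := by
  classical
  let φ : Fin M → (Fin M → Ro L I) × (Fin M → R L I) → (Fin M → R L I) :=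
    fun l x => x.2 + Pi.single l (dvec (x.1 l))
  have hφ : ∀ l, MP (φ l) := by
    intro l
    apply MP.of_fibre'
    intro d
    exact MP.add_const (A := Fin M → R L I) (Pi.single l (dvec (d l)))
  refine (K.lift φ hφ (fun x y : Fin M → R L I => χ x y)).trans ?_
  let e : (((Fin M → Ro L I) × (Fin M → R L I)) × (Fin M → ZMod 2)) ≃ (Fin M → Pf L I) :=
    { toFun := fun x l => (x.1.2 l, x.1.1 l, x.2 l)
      invFun := fun x => ((fun l => (x l).2.1, fun l => (x l).1), fun l => (x l).2.2)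
      left_inv := fun _ => rfl
      right_inv := fun _ => rfl }
  have hp := K.pull (MP.equiv e) (MP.id (A := Fin M → R L I))
    (homK (k0 : Pf L I → R L I → ℝ) k1 (Fin M) 1)
  refine le_trans (le_of_eq ?_) hp
  congr 1
  funext x y
  rw [homK, hom_one]
  refine Finset.sum_congr rfl fun l _ => ?_
  have h1 : (x.1.2 + Pi.single l (dvec (x.1.1 l)) : Fin M → R L I) l
      = x.1.2 l + dvec (x.1.1 l) := by simp
  have h2 : ∀ l' ∈ (Finset.univ : Finset (Fin M)).erase l,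
      (x.1.2 + Pi.single l (dvec (x.1.1 l)) : Fin M → R L I) l' = x.1.2 l' := by
    intro l' hl'
    have : l' ≠ l := Finset.ne_of_mem_erase hl'
    simp [Pi.single_eq_of_ne this]
  show sg (x.2 l) * χ (x.1.2 + Pi.single l (dvec (x.1.1 l))) y
    = (sg (x.2 l) * χ (x.1.2 l + dvec (x.1.1 l)) (y l))
      * ∏ l' ∈ (Finset.univ : Finset (Fin M)).erase l, χ (x.1.2 l') (y l')
  rw [χ_pi, ← Finset.mul_prod_erase _ _ (Finset.mem_univ l), h1]
  rw [Finset.prod_congr rfl fun l' hl' => by rw [h2 l' hl']]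
  ring

end Lift

end Crest.Agent.R118.A2_321
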