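import Crest.Agent.R118.A0_785

/-!
A3.1 (eta-solve) for Theorem A of row 118 (S0158).
-/

namespace Crest.Agent.R118.A31_322

open Finset Base324 KNorm324 Core324

/-! ### bits of the pairing -/

lemma χ_eq_one_or {V : Type} [BiChar V] (v t : V) : χ v t = 1 ∨ χ v t = -1 :=
  mul_self_eq_one_iff.mp (χ_mul_self v t)

open Classical in
/-- the bit of the pairing -/
noncomputable def bit {V : Type} [BiChar V] (v t : V) : ZMod 2 := if χ v t = 1 then 0 else 1

lemma sg_bit {V : Type} [BiChar V] (v t : V) : sg (bit v t) = χ v t := by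
  unfold bit
  split_ifs with h
  · rw [h]; simp
  · rcases χ_eq_one_or v t with h' | h'
    · exact absurd h' h
    · rw [h']; simp

/-- shear -/
def shear {B W : Type} [AddGroup B] (g : W → B) : B × W ≃ B × W where
  toFun x := (x.1 + g x.2, x.2)
  invFun x := (x.1 - g x.2, x.2)
  left_inv x := by simp
  right_inv x := by simp

/-- the sum of the `E j` over the support of `b` -/
noncomputable def comb {V : Type} [BiChar V] {L : ℕ} (E : Fin L → V) (b : Fin L → ZMod 2) : V :=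
  ∑ j, if b j = 0 then 0 else E j

lemma χ_comb {V : Type} [BiChar V] {L : ℕ} (w : V) (E : Fin L → V) (b : Fin L → ZMod 2) :
    χ w (comb E b) = ∏ j, sg (bit w (E j) * b j) := by
  rw [comb, χ_sum_right]
  refine Finset.prod_congr rfl fun j _ => ?_
  rcases zmod2_cases (b j) with h | h
  · simp [h, χ_zero_right]
  · simp [h, sg_bit]

lemma avg_pi_prod {ι A : Type} [Fintype ι] [DecidableEq ι] [Fintype A] (f : ι → A → ℝ) :
    avg (fun x : ι → A => ∏ i, f i (x i)) = ∏ i, avg (f i) := by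
  simp only [avg, smul_eq_mul, Finset.prod_mul_distrib, Finset.prod_const, Finset.card_univ]
  rw [Fintype.card_fun, Finset.prod_univ_sum]
  simp [Fintype.piFinset_univ]

lemma avg_wt {L : ℕ} (d : Fin L → ZMod 2) :
    avg (fun e : Fin L → ZMod 2 => ∏ j, (1 + sg (e j + d j))) = 1 := by
  rw [avg_pi_prod (fun j x => 1 + sg (x + d j))]
  refine Finset.prod_eq_one fun j _ => ?_
  rw [avg_zmod2]
  rcases zmod2_cases (d j) with h | h <;> rw [h] <;>
    simp [show (1 : ZMod 2) + 1 = 0 from by decide] <;> norm_num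

section

variable {β a as : ℝ} {L M : ℕ} (K : KNorm β a as L M)

/-- abstract eta-solve -/
theorem ν_eta_abs {n : ℕ} {W : Type} [BiChar W] [Fintype W] (E : Fin n → W)
    (c : Fin n → ZMod 2) :
    K.ν (fun (x : (Fin n → ZMod 2) × W) (y : ((Fin n → ZMod 2) × (Fin n → ZMod 2)) × W) =>
      (χ x.1 y.1.2 * χ x.2 y.2) *
        ∏ j, (1 + sg (y.1.1 j + c j) * (sg (x.1 j) * χ x.2 (E j))))
      ≤ K.ν (fun x y : W => χ x y) := by
  set wt : (Fin n → ZMod 2) → (Fin n → ZMod 2) × (Fin n → ZMod 2) → ℝ :=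
    fun d e => ∏ j, (1 + sg (e.1 j + d j)) with hwt
  set κ : (Fin n → ZMod 2) → (Fin n → ZMod 2) × (Fin n → ZMod 2) → W → W → ℝ :=
    fun d e w w' => (∏ j, sg ((d j + c j) * e.2 j)) * χ w (w' + comb E e.2) with hκ
  have h1 := K.schur wt
    (by
      intro d e
      refine Finset.prod_nonneg fun j _ => ?_
      rcases zmod2_cases (e.1 j + d j) with h | h <;> rw [h] <;> simp)
    (by
      intro e
      refine Eq.trans ?_ (avg_wt e.1)
      simp only [hwt]
      refine congrArg _ ?_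
      funext d
      exact Finset.prod_congr rfl fun j _ => by rw [add_comm (e.1 j) (d j)])
    (by
      intro d
      have h2 := avg_prod (fun (e e' : Fin n → ZMod 2) => ∏ j, (1 + sg (e j + d j)))
      simp only [hwt]
      rw [h2]
      simp only [avg_const]
      exact avg_wt d)
    κ (K.ν (fun x y : W => χ x y)) (K.nonneg _)
    (by
      intro d e
      simp only [hκ]
      refine (K.smul_le _ _).trans ?_
      rw [Finset.abs_prod]
      simp only [abs_sg, Finset.prod_const_one, one_mul]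
      exact K.pull MP.id (MP.add_const (comb E e.2)) (fun x y : W => χ x y))
  refine le_trans ?_ h1
  have h3 := K.pull (MP.equiv (shear (fun w : W => fun j => c j + bit w (E j))))
    (MP.id (A := ((Fin n → ZMod 2) × (Fin n → ZMod 2)) × W))
    (fun (x : (Fin n → ZMod 2) × W) (y : ((Fin n → ZMod 2) × (Fin n → ZMod 2)) × W) =>
      wt x.1 y.1 * κ x.1 y.1 x.2 y.2)
  refine le_trans (le_of_eq ?_) h3
  congr 1
  funext x y
  simp only [hwt, hκ, shear, Equiv.coe_fn_mk, Pi.add_apply]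
  rw [χ_add_right, χ_comb, χ_pi]
  have e1 : ∀ j, (1 + sg (y.1.1 j + (x.1 j + (c j + bit x.2 (E j)))))
      = (1 + sg (y.1.1 j + c j) * (sg (x.1 j) * χ x.2 (E j))) := by
    intro j
    rw [← sg_bit x.2 (E j), ← sg_add, ← sg_add]
    congr 2; ring
  simp only [e1]
  have e2 : ∀ j, sg ((x.1 j + (c j + bit x.2 (E j)) + c j) * y.1.2 j)
      = χ (x.1 j) (y.1.2 j) * sg (bit x.2 (E j) * y.1.2 j) := by
    intro j
    rw [χ_zmod2, ← sg_add]
    congr 1
    have : c j + c j = 0 := CharTwo.add_self_eq_zero _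
    linear_combination (y.1.2 j) * this
  simp only [e2, Finset.prod_mul_distrib]
  have e3 : (∏ j, sg (bit x.2 (E j) * y.1.2 j)) * (∏ j, sg (bit x.2 (E j) * y.1.2 j)) = 1 := by
    rw [← Finset.prod_mul_distrib]
    exact Finset.prod_eq_one fun j _ => sg_mul_self _
  linear_combination (-1 : ℝ) * ((∏ j, χ (x.1 j) (y.1.2 j)) * χ x.2 y.2) *
    (∏ j, (1 + sg (y.1.1 j + c j) * (sg (x.1 j) * χ x.2 (E j)))) * e3


/-- the reindexing of the rows -/
def rowsE {ι A B : Type} [DecidableEq ι] (l0 : ι) :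
    (ι → A × B) ≃ A × (B × ({l // l ≠ l0} → A × B)) :=
  (Equiv.funSplitAt l0 (A × B)).trans (Equiv.prodAssoc _ _ _)

lemma rowsE_apply {ι A B : Type} [DecidableEq ι] (l0 : ι) (u : ι → A × B) :
    rowsE l0 u = ((u l0).1, ((u l0).2, fun l : {l // l ≠ l0} => u l.1)) := rfl

/-- the reindexing on the `G` side -/
def outE {ι A B C : Type} [DecidableEq ι] (l0 : ι) :
    C × (ι → A × B) ≃ (C × A) × (B × ({l // l ≠ l0} → A × B)) where
  toFun y := ((y.1, (y.2 l0).1), ((y.2 l0).2, fun l : {l // l ≠ l0} => y.2 l.1))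
  invFun z := (z.1.1, (rowsE l0).symm (z.1.2, z.2))
  left_inv y := by
    have h : (rowsE l0).symm (rowsE l0 y.2) = y.2 := Equiv.symm_apply_apply _ _
    rw [rowsE_apply] at h
    exact Prod.ext rfl h
  right_inv z := by
    have h : rowsE l0 ((rowsE l0).symm (z.1.2, z.2)) = (z.1.2, z.2) := Equiv.apply_symm_apply _ _
    rw [rowsE_apply] at h
    have h1 := congrArg Prod.fst h
    have h2 := congrArg Prod.snd h
    exact Prod.ext (Prod.ext rfl h1) h2

lemma prod_split {ι : Type} [Fintype ι] [DecidableEq ι] (l0 : ι) (f : ι → ℝ) :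
    ∏ l, f l = f l0 * ∏ l : {l // l ≠ l0}, f l := by
  rw [← Finset.mul_prod_erase univ f (mem_univ l0)]
  congr 1
  exact Finset.prod_subtype _ (by simp) _

/-- A3.1 up to the estimate of `χ` on `W` -/
theorem ν_etaSolve_le (I : ℕ) (ι : Type) [Fintype ι] [DecidableEq ι] (l0 : ι)
    (e : Fin L → ι → (Fin I → ZMod 2)) (c : Fin L → ZMod 2) :
    K.ν (fun (u : ι → Ro L I) (y : (Fin L → ZMod 2) × (ι → Ro L I)) =>
      χ u y.2 * ∏ j, (1 + sg (y.1 j + c j) * ∏ l, χ (u l) ((Pi.single j 1, e j l) : Ro L I)))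
      ≤ K.ν (fun x y : (Fin I → ZMod 2) × ({l // l ≠ l0} → Ro L I) => χ x y) := by
  refine le_trans ?_ (ν_eta_abs K (fun j => ((e j l0, fun l => (Pi.single j 1, e j l)) :
    (Fin I → ZMod 2) × ({l // l ≠ l0} → Ro L I))) c)
  have h := K.pull (MP.equiv (rowsE (A := Fin L → ZMod 2) (B := Fin I → ZMod 2) l0))
    (MP.equiv (outE (A := Fin L → ZMod 2) (B := Fin I → ZMod 2) (C := Fin L → ZMod 2) l0))
    (fun (x : (Fin L → ZMod 2) × ((Fin I → ZMod 2) × ({l // l ≠ l0} → Ro L I)))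
      (y : ((Fin L → ZMod 2) × (Fin L → ZMod 2)) ×
        ((Fin I → ZMod 2) × ({l // l ≠ l0} → Ro L I))) =>
      (χ x.1 y.1.2 * χ x.2 y.2) *
        ∏ j, (1 + sg (y.1.1 j + c j) * (sg (x.1 j) *
          χ x.2 ((e j l0, fun l => (Pi.single j 1, e j l)) :
            (Fin I → ZMod 2) × ({l // l ≠ l0} → Ro L I)))))
  refine le_trans (le_of_eq ?_) h
  congr 1
  funext u y
  simp only [rowsE_apply, outE, Equiv.coe_fn_mk]
  have hs : ∀ (v : Fin L → ZMod 2) (j : Fin L), χ v (Pi.single j 1 : Fin L → ZMod 2) = sg (v j) := by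
    intro v j
    rw [χ_pi, Finset.prod_eq_single j]
    · rw [χ_zmod2]; simp
    · intro b _ hb
      rw [χ_zmod2, Pi.single_eq_of_ne hb]; simp
    · simp
  congr 1
  · rw [χ_pi u, prod_split l0, χ_prod (u l0), χ_prod ((u l0).2, _), χ_pi (fun l => u _)]
    ring
  · refine Finset.prod_congr rfl fun j _ => ?_
    rw [prod_split l0, χ_prod (u l0), hs, χ_prod ((u l0).2, _), χ_pi (fun l => u _)]
    ring

theorem ν_chi_W (I : ℕ) (κ : Type) [Fintype κ] [DecidableEq κ] :
    K.ν (fun x y : (Fin I → ZMod 2) × (κ → Ro L I) => χ x y)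
      ≤ β ^ ((L + I) * Fintype.card κ + I) := by
  have hβ := A0_785.β_nonneg K
  have h1 := K.tensor (fun x y : Fin I → ZMod 2 => χ x y) (fun x y : κ → Ro L I => χ x y)
  have h2 := A0_785.ν_chi_pi K (Fin I)
  have h3 := A0_785.ν_prod_pi K κ (fun _ (x y : Ro L I) => χ x y)
  have h4 := A0_785.ν_chi_Ro K I
  have h5 : K.ν (fun x y : κ → Ro L I => χ x y) ≤ β ^ ((L + I) * Fintype.card κ) := by
    refine le_trans h3 ?_
    rw [Finset.prod_const, Finset.card_univ, pow_mul]
    exact pow_le_pow_left₀ (K.nonneg _) h4 _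
  refine le_trans h1 ?_
  rw [add_comm, pow_add]
  refine mul_le_mul ?_ h5 (K.nonneg _) (by positivity)
  simpa using h2

/-- A3.1 eta-solve: kernel on the `(q,Ω)` parts -/
theorem ν_etaSolve (I : ℕ) (ι : Type) [Fintype ι] [DecidableEq ι] [Nonempty ι]
    (e : Fin L → ι → (Fin I → ZMod 2)) (c : Fin L → ZMod 2) :
    K.ν (fun (u : ι → Ro L I) (y : (Fin L → ZMod 2) × (ι → Ro L I)) =>
      χ u y.2 * ∏ j, (1 + sg (y.1 j + c j) * ∏ l, χ (u l) ((Pi.single j 1, e j l) : Ro L I)))
      ≤ β ^ ((L + I) * (Fintype.card ι - 1) + I) := by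
  obtain ⟨l0⟩ := ‹Nonempty ι›
  refine (ν_etaSolve_le K I ι l0 e c).trans ?_
  refine (ν_chi_W K I {l // l ≠ l0}).trans (le_of_eq ?_)
  congr 2
  rw [Fintype.card_subtype_compl, Fintype.card_subtype_eq]

end

end Crest.Agent.R118.A31_322
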