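import Crest.Agent.R118.CoreDefs_324
import Crest.Agent.R118.A0_785

/-!
Row 118 (S0158), Theorem A, step (A3): the resonance kernel bound.
-/

namespace Crest.Agent.R118.A3_253

open Finset Base324 KNorm324 Core324 A0_785

/-! ### Tools -/

lemma avg_pi_prod {ι P : Type} [Fintype ι] [DecidableEq ι] [Fintype P] (f : ι → P → ℝ) :
    avg (fun x : ι → P => ∏ l, f l (x l)) = ∏ l, avg (f l) := by
  simp only [avg, smul_eq_mul]
  rw [Finset.prod_mul_distrib, Finset.prod_const, Finset.card_univ]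
  congr 1
  · rw [Fintype.card_fun]; push_cast; rw [inv_pow]
  · rw [Finset.prod_univ_sum, Fintype.piFinset_univ]

/-- logarithm of a sign -/
noncomputable def lg (x : ℝ) : ZMod 2 := if x = 1 then 0 else 1

lemma sg_lg {x : ℝ} (h : x * x = 1) : sg (lg x) = x := by
  rcases mul_self_eq_one_iff.mp h with rfl | rfl
  · simp [lg]
  · norm_num [lg]

/-- `p • d` for `p : ZMod 2` -/
def sm {V : Type} [AddCommGroup V] (p : ZMod 2) (d : V) : V := if p = 0 then 0 else d

lemma χ_sm {V : Type} [BiChar V] (p : ZMod 2) (d t : V) :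
    χ (sm p d) t = sg (p * lg (χ d t)) := by
  rcases zmod2_cases p with rfl | rfl
  · simp [sm, χ_zero_left]
  · simp [sm, sg_lg (χ_mul_self d t)]

lemma χ_sm_right {V : Type} [BiChar V] (p : ZMod 2) (d t : V) :
    χ t (sm p d) = sg (p * lg (χ t d)) := by
  rw [χ_symm, χ_sm, χ_symm]

lemma avg_one_add_sg (s : ℝ) (x : ZMod 2) : avg (fun y : ZMod 2 => 1 + s * sg (y + x)) = 1 := by
  rw [avg_zmod2, sg_add, sg_add]
  simp
  ring

lemma avg_one_add_sg' (s : ℝ) (x : ZMod 2) : avg (fun y : ZMod 2 => 1 + s * sg (x + y)) = 1 := by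
  simp only [add_comm x]
  exact avg_one_add_sg s x

lemma avg_sg : avg (fun y : ZMod 2 => sg y) = 0 := by
  rw [avg_zmod2]; simp

variable {L I : ℕ}

lemma χ_single (b : Fin L → ZMod 2) (j : Fin L) :
    χ b (Pi.single j (1 : ZMod 2)) = sg (b j) := by
  rw [χ_pi, Finset.prod_eq_single j]
  · simp [χ_zmod2]
  · intro i _ hi
    rw [Pi.single_eq_of_ne hi, χ_zmod2]; simp
  · intro h; exact absurd (Finset.mem_univ j) h

/-! ### eta-solve, abstract form -/

section EtaSolve

variable {β a as : ℝ} {L' M : ℕ} (K : KNorm β a as L' M)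

/-- shear of the first coordinate by a function of the second -/
def shearEquiv {V W : Type} [AddCommGroup V] (h : W → V) : V × W ≃ V × W where
  toFun x := (x.1 + h x.2, x.2)
  invFun x := (x.1 - h x.2, x.2)
  left_inv x := by simp
  right_inv x := by simp

/-- abstract eta-solve on `(Fin L → ZMod 2) × W` -/
theorem ν_eta_abs {W : Type} [BiChar W] [Fintype W] (E : Fin L → W) (c : Fin L → ZMod 2) :
    K.ν (fun (u : (Fin L → ZMod 2) × W) (y : (Fin L → ZMod 2) × ((Fin L → ZMod 2) × W)) =>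
      χ u.1 y.2.1 * χ u.2 y.2.2 * ∏ j, (1 + sg (y.1 j + c j) * (sg (u.1 j) * χ u.2 (E j))))
      ≤ K.ν (fun x y : W => χ x y) := by
  classical
  -- the Schur form
  have hS := K.schur (D := Fin L → ZMod 2) (E := (Fin L → ZMod 2) × (Fin L → ZMod 2))
    (A := W) (B := W) (fun d e => ∏ j, (1 + 1 * sg (e.1 j + d j)))
    (by
      intro d e
      refine Finset.prod_nonneg fun j _ => ?_
      rcases zmod2_cases (e.1 j + d j) with h | h <;> simp [h])
    (by
      intro e
      have := avg_pi_prod (P := ZMod 2) (fun (j : Fin L) (x : ZMod 2) => 1 + 1 * sg (e.1 j + x))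
      rw [this]
      exact Finset.prod_eq_one fun j _ => avg_one_add_sg' 1 (e.1 j))
    (by
      intro d
      rw [avg_prod (fun (e1 : Fin L → ZMod 2) (_ : Fin L → ZMod 2) =>
        ∏ j, (1 + 1 * sg (e1 j + d j)))]
      simp only [avg_const]
      have := avg_pi_prod (P := ZMod 2) (fun (j : Fin L) (x : ZMod 2) => 1 + 1 * sg (x + d j))
      rw [this]
      exact Finset.prod_eq_one fun j _ => avg_one_add_sg 1 (d j))
    (fun d e x y => (∏ j, sg (d j * e.2 j)) * (∏ j, sg (c j * e.2 j)) *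
        χ x (y + ∑ j, sm (e.2 j) (E j)))
    (K.ν (fun x y : W => χ x y)) (K.nonneg _)
    (by
      intro d e
      refine (K.smul_le _ _).trans ?_
      have h1 : |(∏ j, sg (d j * e.2 j)) * (∏ j, sg (c j * e.2 j))| = 1 := by
        rw [abs_mul, Finset.abs_prod, Finset.abs_prod]
        simp
      rw [h1, one_mul]
      exact K.pull MP.id (MP.add_const _) (fun x y : W => χ x y))
  -- pull back
  have hφ : MP (fun u : (Fin L → ZMod 2) × W =>
      shearEquiv (fun w : W => fun j => c j + lg (χ w (E j))) u) := MP.equiv _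
  have hψ : MP (fun y : (Fin L → ZMod 2) × ((Fin L → ZMod 2) × W) =>
      (Equiv.prodAssoc _ _ _).symm y) := MP.equiv _
  refine le_trans (le_of_eq ?_) ((K.pull hφ hψ _).trans hS)
  congr 1
  funext u y
  obtain ⟨b, w⟩ := u
  obtain ⟨η, b', w'⟩ := y
  simp only [shearEquiv, Equiv.coe_fn_mk, Equiv.prodAssoc_symm_apply, Pi.add_apply]
  -- product identity
  have e1 : ∀ j, (1 + 1 * sg (η j + (b j + (c j + lg (χ w (E j))))))
      = (1 + sg (η j + c j) * (sg (b j) * χ w (E j))) := by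
    intro j
    rw [sg_add, sg_add, sg_add, sg_add, sg_lg (χ_mul_self _ _)]
    ring
  simp only [e1]
  have e2 : χ w (w' + ∑ j, sm (b' j) (E j))
      = χ w w' * ∏ j, sg (b' j * lg (χ w (E j))) := by
    rw [χ_add_right, χ_sum_right]
    simp only [χ_sm_right]
  rw [e2]
  have e3 : (∏ j, sg ((b j + (c j + lg (χ w (E j)))) * b' j)) * (∏ j, sg (c j * b' j)) *
      (χ w w' * ∏ j, sg (b' j * lg (χ w (E j)))) = χ b b' * χ w w' := by
    have e4 : (∏ j, sg ((b j + (c j + lg (χ w (E j)))) * b' j)) * (∏ j, sg (c j * b' j)) *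
        (∏ j, sg (b' j * lg (χ w (E j)))) = χ b b' := by
      rw [← Finset.prod_mul_distrib, ← Finset.prod_mul_distrib, χ_pi]
      refine Finset.prod_congr rfl fun j _ => ?_
      rw [← sg_add, ← sg_add, χ_zmod2]
      congr 1
      have h2 : ∀ x : ZMod 2, x + x = 0 := by decide
      have : (b j + (c j + lg (χ w (E j)))) * b' j + c j * b' j + b' j * lg (χ w (E j))
          = b j * b' j + (c j * b' j + c j * b' j) +
            (b' j * lg (χ w (E j)) + b' j * lg (χ w (E j))) := by ring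
      rw [this, h2, h2, add_zero, add_zero]
    rw [← e4]; ring
  rw [e3]
  ring

include K in
lemma β_nonneg : 0 ≤ β := (K.nonneg _).trans K.walsh

lemma χ_split {ι : Type} [Fintype ι] [DecidableEq ι] (l0 : ι) {V : Type} [BiChar V]
    (u t : ι → V) :
    χ u t = χ (u l0) (t l0) *
      χ (fun l : {l // l ≠ l0} => u l) (fun l : {l // l ≠ l0} => t l) := by
  rw [χ_pi, Fintype.prod_eq_mul_prod_subtype_ne _ l0]
  rfl

end EtaSolve

section

variable {β a as : ℝ} {L M : ℕ} (K : KNorm β a as L M)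

/-- A3.1 eta-solve: kernel on the `(q,Ω)` parts -/
theorem ν_etaSolve (I : ℕ) (ι : Type) [Fintype ι] [DecidableEq ι] [Nonempty ι]
    (e : Fin L → ι → (Fin I → ZMod 2)) (c : Fin L → ZMod 2) :
    K.ν (fun (u : ι → Ro L I) (y : (Fin L → ZMod 2) × (ι → Ro L I)) =>
      χ u y.2 * ∏ j, (1 + sg (y.1 j + c j) * ∏ l, χ (u l) ((Pi.single j 1, e j l) : Ro L I)))
      ≤ β ^ ((L + I) * (Fintype.card ι - 1) + I) := by
  classical
  obtain ⟨l0⟩ := (inferInstance : Nonempty ι)
  -- the remaining space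
  let W : Type := (Fin I → ZMod 2) × ({l : ι // l ≠ l0} → Ro L I)
  let E : Fin L → W := fun j => (e j l0, fun l => (Pi.single j 1, e j l))
  have hW : K.ν (fun x y : W => χ x y) ≤ β ^ ((L + I) * (Fintype.card ι - 1) + I) := by
    have h1 := K.tensor (fun x y : Fin I → ZMod 2 => χ x y)
      (fun x y : {l : ι // l ≠ l0} → Ro L I => χ x y)
    have h2 : K.ν (fun x y : Fin I → ZMod 2 => χ x y) ≤ β ^ I := by
      simpa using ν_chi_pi K (Fin I)
    have h3 : K.ν (fun x y : {l : ι // l ≠ l0} → Ro L I => χ x y)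
        ≤ β ^ ((L + I) * (Fintype.card ι - 1)) := by
      have h4 := ν_prod_pi K {l : ι // l ≠ l0}
        (fun _ (x y : Ro L I) => χ x y)
      refine h4.trans ?_
      rw [Finset.prod_const, Finset.card_univ, pow_mul]
      have h5 : Fintype.card {l : ι // l ≠ l0} = Fintype.card ι - 1 := by
        simp
      rw [h5]
      exact pow_le_pow_left₀ (K.nonneg _) (ν_chi_Ro K I) _
    calc K.ν (fun x y : W => χ x y) ≤ _ := h1
      _ ≤ β ^ I * β ^ ((L + I) * (Fintype.card ι - 1)) :=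
          mul_le_mul h2 h3 (K.nonneg _) (pow_nonneg (β_nonneg K) _)
      _ = _ := by rw [← pow_add, add_comm]
  refine le_trans ?_ ((ν_eta_abs K E c).trans hW)
  -- change of variables
  let g : (ι → Ro L I) ≃ (Fin L → ZMod 2) × W :=
    (Equiv.funSplitAt l0 (Ro L I)).trans (Equiv.prodAssoc _ _ _)
  have hφ : MP (fun u : ι → Ro L I => g u) := MP.equiv g
  have hψ : MP (fun y : (Fin L → ZMod 2) × (ι → Ro L I) => (y.1, g y.2)) :=
    MP.prodMap MP.id (MP.equiv g)
  refine le_trans (le_of_eq ?_) (K.pull hφ hψ _)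
  congr 1
  funext u y
  have g1 : ∀ u : ι → Ro L I, (g u).1 = (u l0).1 := fun _ => rfl
  have g2 : ∀ u : ι → Ro L I, (g u).2 = ((u l0).2, fun l : {l // l ≠ l0} => u l) :=
    fun _ => rfl
  have e1 : χ (g u).1 (g y.2).1 * χ (g u).2 (g y.2).2 = χ u y.2 := by
    rw [χ_split l0 u y.2, χ_prod (u l0), g1, g1, g2, g2]
    have h2 : χ (((u l0).2, fun l : {l // l ≠ l0} => u l) : W)
        (((y.2 l0).2, fun l : {l // l ≠ l0} => y.2 l) : W)
        = χ (u l0).2 (y.2 l0).2 * χ (fun l : {l // l ≠ l0} => u l)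
          (fun l : {l // l ≠ l0} => y.2 l) := rfl
    rw [h2]
    ring
  have e2 : ∀ j, sg ((g u).1 j) * χ (g u).2 (E j)
      = ∏ l, χ (u l) ((Pi.single j 1, e j l) : Ro L I) := by
    intro j
    rw [g1, g2, Fintype.prod_eq_mul_prod_subtype_ne _ l0, χ_prod (u l0), χ_single]
    have h2 : χ (((u l0).2, fun l : {l // l ≠ l0} => u l) : W) (E j)
        = χ (u l0).2 (e j l0) * ∏ l : {l // l ≠ l0}, χ (u l) ((Pi.single j 1, e j l) : Ro L I) :=
      rfl
    rw [h2]
    ring
  simp only [e1, e2]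

/-- input change of variables (eps-solve) -/
noncomputable def phiEquiv {ι : Type} (d : ι → Ro L I) :
    (ι → R L I × ZMod 2) ≃ (ι → ZMod 2 × ZMod 2) × (ι → Ro L I) where
  toFun x := (fun l => ((x l).1.1, (x l).2), fun l => (x l).1.2 + sm (x l).1.1 (d l))
  invFun z := fun l => (((z.1 l).1, z.2 l - sm (z.1 l).1 (d l)), (z.1 l).2)
  left_inv x := by
    funext l
    simp
  right_inv z := by
    refine Prod.ext ?_ ?_
    · rfl
    · funext l
      simp

/-- output change of variables (eps-solve) -/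
noncomputable def psiEquiv {ι : Type} (d : ι → Ro L I) :
    (Fin L → ZMod 2) × (ι → R L I) ≃ (ι → ZMod 2) × ((Fin L → ZMod 2) × (ι → Ro L I)) where
  toFun y := (fun l => (y.2 l).1 + lg (χ (d l) (y.2 l).2), (y.1, fun l => (y.2 l).2))
  invFun z := (z.2.1, fun l => (z.1 l - lg (χ (d l) (z.2.2 l)), z.2.2 l))
  left_inv y := by
    refine Prod.ext rfl ?_
    funext l
    simp
  right_inv z := by
    refine Prod.ext ?_ rfl
    funext l
    simp

/-- the kernel for fixed `d`, `e` -/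
theorem ν_fixed (I : ℕ) (ι : Type) [Fintype ι] [DecidableEq ι] [Nonempty ι]
    (d : ι → Ro L I) (e : ι → (Fin L → ZMod 2 × (Fin I → ZMod 2))) :
    K.ν (fun (x : ι → R L I × ZMod 2) (y : (Fin L → ZMod 2) × (ι → R L I)) =>
      (∏ l, (χ (x l).1 (y.2 l) * (1 + sg (x l).2 * χ (dvec (d l)) (y.2 l)))) *
        ∏ j, (1 + sg (y.1 j) * ∏ l, χ (x l).1 (evec j (e l j))))
      ≤ β ^ ((L + I) * (Fintype.card ι - 1) + I) := by
  classical
  let cc : (ι → ZMod 2 × ZMod 2) → Fin L → ZMod 2 := fun D j =>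
    lg (∏ l, (sg ((D l).1 * (e l j).1) * χ (sm (D l).1 (d l)) ((Pi.single j 1, (e l j).2) : Ro L I)))
  have hcc : ∀ D j, sg (cc D j) = ∏ l, (sg ((D l).1 * (e l j).1) *
      χ (sm (D l).1 (d l)) ((Pi.single j 1, (e l j).2) : Ro L I)) := by
    intro D j
    apply sg_lg
    rw [← Finset.prod_mul_distrib]
    refine Finset.prod_eq_one fun l _ => ?_
    have h1 := sg_mul_self ((D l).1 * (e l j).1)
    have h2 := χ_mul_self (sm (D l).1 (d l)) ((Pi.single j 1, (e l j).2) : Ro L I)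
    calc _ = (sg ((D l).1 * (e l j).1) * sg ((D l).1 * (e l j).1)) *
          (χ (sm (D l).1 (d l)) ((Pi.single j 1, (e l j).2) : Ro L I) *
            χ (sm (D l).1 (d l)) ((Pi.single j 1, (e l j).2) : Ro L I)) := by ring
      _ = 1 := by rw [h1, h2, one_mul]
  have hS := K.schur (D := ι → ZMod 2 × ZMod 2) (E := ι → ZMod 2)
    (A := ι → Ro L I) (B := (Fin L → ZMod 2) × (ι → Ro L I))
    (fun D E => ∏ l, (1 + 1 * sg ((D l).2 + E l)))
    (by
      intro D E
      refine Finset.prod_nonneg fun j _ => ?_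
      rcases zmod2_cases ((D j).2 + E j) with h | h <;> simp [h])
    (by
      intro E
      have := avg_pi_prod (P := ZMod 2 × ZMod 2)
        (fun (l : ι) (x : ZMod 2 × ZMod 2) => 1 + 1 * sg (x.2 + E l))
      rw [this]
      refine Finset.prod_eq_one fun l _ => ?_
      rw [avg_prod (fun (_ : ZMod 2) (x : ZMod 2) => 1 + 1 * sg (x + E l))]
      simp only [avg_one_add_sg, avg_const])
    (by
      intro D
      have := avg_pi_prod (P := ZMod 2) (fun (l : ι) (x : ZMod 2) => 1 + 1 * sg ((D l).2 + x))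
      rw [this]
      exact Finset.prod_eq_one fun l _ => avg_one_add_sg' 1 _)
    (fun D E u y => (∏ l, sg ((D l).1 * E l)) *
        (χ u y.2 * ∏ j, (1 + sg (y.1 j + cc D j) *
          ∏ l, χ (u l) ((Pi.single j 1, (e l j).2) : Ro L I))))
    (β ^ ((L + I) * (Fintype.card ι - 1) + I)) (pow_nonneg (β_nonneg K) _)
    (by
      intro D E
      refine (K.smul_le _ _).trans ?_
      have h1 : |∏ l, sg ((D l).1 * E l)| = 1 := by
        rw [Finset.abs_prod]
        simp
      rw [h1, one_mul]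
      exact ν_etaSolve K I ι (fun j l => (e l j).2) (cc D))
  refine le_trans (le_of_eq ?_) ((K.pull (MP.equiv (phiEquiv d)) (MP.equiv (psiEquiv d)) _).trans hS)
  congr 1
  funext x y
  simp only [phiEquiv, psiEquiv, Equiv.coe_fn_mk]
  have e1 : ∀ l, χ (x l).1 (y.2 l) * (1 + sg (x l).2 * χ (dvec (d l)) (y.2 l))
      = (1 + 1 * sg ((x l).2 + ((y.2 l).1 + lg (χ (d l) (y.2 l).2)))) *
        (sg ((x l).1.1 * ((y.2 l).1 + lg (χ (d l) (y.2 l).2))) *
          χ ((x l).1.2 + sm (x l).1.1 (d l)) (y.2 l).2) := by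
    intro l
    have h1 : χ (dvec (d l)) (y.2 l) = sg (y.2 l).1 * χ (d l) (y.2 l).2 := by
      rw [χ_prod, dvec, χ_zmod2, one_mul]
    have h3 : sg ((x l).1.1 * ((y.2 l).1 + lg (χ (d l) (y.2 l).2)))
        = sg ((x l).1.1 * (y.2 l).1) * sg ((x l).1.1 * lg (χ (d l) (y.2 l).2)) := by
      rw [mul_add, sg_add]
    rw [h1, h3, χ_prod (x l).1 (y.2 l), χ_zmod2, χ_add_left, χ_sm, sg_add, sg_add,
      sg_lg (χ_mul_self _ _)]
    have h2 := sg_mul_self ((x l).1.1 * lg (χ (d l) (y.2 l).2))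
    linear_combination (-(1 + sg (x l).2 * (sg (y.2 l).1 * χ (d l) (y.2 l).2)) *
      sg ((x l).1.1 * (y.2 l).1) * χ (x l).1.2 (y.2 l).2) * h2
  have e2 : ∀ j, ∏ l, χ (x l).1 (evec j (e l j))
      = sg (cc (fun l => ((x l).1.1, (x l).2)) j) *
        ∏ l, χ ((x l).1.2 + sm (x l).1.1 (d l)) ((Pi.single j 1, (e l j).2) : Ro L I) := by
    intro j
    rw [hcc, ← Finset.prod_mul_distrib]
    refine Finset.prod_congr rfl fun l _ => ?_
    have h1 : χ (x l).1 (evec j (e l j)) = sg ((x l).1.1 * (e l j).1) *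
        χ (x l).1.2 ((Pi.single j 1, (e l j).2) : Ro L I) := rfl
    rw [h1, χ_add_left]
    have h2 := χ_mul_self (sm (x l).1.1 (d l)) ((Pi.single j 1, (e l j).2) : Ro L I)
    linear_combination (-(sg ((x l).1.1 * (e l j).1) *
        χ (x l).1.2 ((Pi.single j 1, (e l j).2) : Ro L I))) * h2
  simp only [e1, e2, sg_add (y.1 _), Finset.prod_mul_distrib, χ_pi, mul_assoc]

/-- first Schur step, input variables -/
def inEquiv (ι : Type) : (ι → Pf L I) ≃ (ι → Ro L I) × (ι → R L I × ZMod 2) where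
  toFun x := (fun l => (x l).2.1, fun l => ((x l).1, (x l).2.2))
  invFun z := fun l => ((z.2 l).1, z.1 l, (z.2 l).2)
  left_inv _ := rfl
  right_inv _ := rfl

/-- first Schur step, output variables -/
def outEquiv (ι : Type) : (Fin L → ZMod 2) × (ι → Qg L I) ≃
    (ι → (Fin L → ZMod 2 × (Fin I → ZMod 2))) × ((Fin L → ZMod 2) × (ι → R L I)) where
  toFun y := (fun l => (y.2 l).2, (y.1, fun l => (y.2 l).1))
  invFun z := (z.2.1, fun l => (z.2.2 l, z.1 l))
  left_inv _ := rfl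
  right_inv _ := rfl

lemma χ_dvec_evec (d : Ro L I) (j : Fin L) (b : ZMod 2 × (Fin I → ZMod 2)) :
    χ (dvec d) (evec j b) = sg b.1 * (sg (d.1 j) * χ d.2 b.2) := by
  have h1 : χ (dvec d) (evec j b) = sg (1 * b.1) * (χ d.1 (Pi.single j (1 : ZMod 2)) * χ d.2 b.2) :=
    rfl
  rw [h1, one_mul, χ_single]

/-- average over `d` of the weight -/
lemma avg_weight_d (τ : ℝ) (b : Fin L → ZMod 2 × (Fin I → ZMod 2)) :
    avg (fun d : Ro L I => ∏ j, (1 + τ * χ (dvec d) (evec j (b j)))) = 1 := by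
  classical
  simp only [χ_dvec_evec]
  rw [avg_prod (fun (α : Fin L → ZMod 2) (d' : Fin I → ZMod 2) =>
    ∏ j, (1 + τ * (sg (b j).1 * (sg (α j) * χ d' (b j).2)))), avg_comm]
  have h : ∀ d' : Fin I → ZMod 2, (avg fun α : Fin L → ZMod 2 =>
      ∏ j, (1 + τ * (sg (b j).1 * (sg (α j) * χ d' (b j).2)))) = 1 := by
    intro d'
    rw [avg_pi_prod (P := ZMod 2)
      (fun (j : Fin L) (x : ZMod 2) => 1 + τ * (sg (b j).1 * (sg x * χ d' (b j).2)))]
    refine Finset.prod_eq_one fun j _ => ?_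
    rw [avg_zmod2]
    simp
    ring
  simp [h, avg_const]

/-- average over `e` of the weight -/
lemma avg_weight_e (τ : ℝ) (d : Ro L I) :
    avg (fun b : Fin L → ZMod 2 × (Fin I → ZMod 2) =>
      ∏ j, (1 + τ * χ (dvec d) (evec j (b j)))) = 1 := by
  classical
  simp only [χ_dvec_evec]
  rw [avg_pi_prod (P := ZMod 2 × (Fin I → ZMod 2))
    (fun (j : Fin L) (x : ZMod 2 × (Fin I → ZMod 2)) =>
      1 + τ * (sg x.1 * (sg (d.1 j) * χ d.2 x.2)))]
  refine Finset.prod_eq_one fun j _ => ?_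
  rw [avg_prod (fun (x1 : ZMod 2) (x2 : Fin I → ZMod 2) =>
    1 + τ * (sg x1 * (sg (d.1 j) * χ d.2 x2))), avg_comm]
  have h : ∀ x2 : Fin I → ZMod 2, (avg fun x1 : ZMod 2 =>
      1 + τ * (sg x1 * (sg (d.1 j) * χ d.2 x2))) = 1 := by
    intro x2
    rw [avg_zmod2]
    simp
    ring
  simp [h, avg_const]

/-- A3.2 -/
theorem ν_resK (I : ℕ) (ι : Type) [Fintype ι] [DecidableEq ι] [Nonempty ι] (τ : ℝ)
    (h0 : 0 ≤ τ) (h1 : τ ≤ 1) :
    K.ν (resK (L := L) (I := I) ι τ) ≤ β ^ ((L + I) * (Fintype.card ι - 1) + I) := by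
  classical
  have hS := K.schur (D := ι → Ro L I) (E := ι → (Fin L → ZMod 2 × (Fin I → ZMod 2)))
    (A := ι → R L I × ZMod 2) (B := (Fin L → ZMod 2) × (ι → R L I))
    (fun d e => ∏ l, ∏ j, (1 + τ * χ (dvec (d l)) (evec j (e l j))))
    (by
      intro d e
      refine Finset.prod_nonneg fun l _ => Finset.prod_nonneg fun j _ => ?_
      have h2 := abs_le.mp (abs_χ (dvec (d l)) (evec j (e l j))).le
      nlinarith [h2.1, h2.2])
    (by
      intro e
      rw [avg_pi_prod (P := Ro L I)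
        (fun (l : ι) (x : Ro L I) => ∏ j, (1 + τ * χ (dvec x) (evec j (e l j))))]
      exact Finset.prod_eq_one fun l _ => avg_weight_d τ (e l))
    (by
      intro d
      rw [avg_pi_prod (P := Fin L → ZMod 2 × (Fin I → ZMod 2))
        (fun (l : ι) (x : Fin L → ZMod 2 × (Fin I → ZMod 2)) =>
          ∏ j, (1 + τ * χ (dvec (d l)) (evec j (x j))))]
      exact Finset.prod_eq_one fun l _ => avg_weight_e τ (d l))
    (fun d e x y => (∏ l, (χ (x l).1 (y.2 l) * (1 + sg (x l).2 * χ (dvec (d l)) (y.2 l)))) *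
        ∏ j, (1 + sg (y.1 j) * ∏ l, χ (x l).1 (evec j (e l j))))
    (β ^ ((L + I) * (Fintype.card ι - 1) + I)) (pow_nonneg (β_nonneg K) _)
    (fun d e => ν_fixed K I ι d e)
  refine le_trans (le_of_eq ?_)
    ((K.pull (MP.equiv (inEquiv ι)) (MP.equiv (outEquiv ι)) _).trans hS)
  congr 1
  funext x y
  simp only [inEquiv, outEquiv, Equiv.coe_fn_mk, resK, rowK, Finset.prod_mul_distrib]
  ring

end

end Crest.Agent.R118.A3_253
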