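import Crest.Agent.R118.CoreDefs_324

/-!
Row 118 (S0158), piece (A4) of helper324's proof: expansion of the resonance kernel.
-/

set_option autoImplicit false

namespace Crest.Agent.R118.A4x570

open Finset Base324 KNorm324 Core324

section Alg

variable {V : Type} [BiChar V] {L : ℕ}

/-- Error term number `B` (`B ≠ ∅`) in one row of the `T`-th term. -/
noncomputable def errB (τ ε : ℝ) (v d t : V) (e : Fin L → V) (T B : Finset (Fin L)) : ℝ :=
  τ ^ B.card * (χ v (t + ∑ j ∈ T, e j) * χ d (∑ j ∈ B, e j)) +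
    τ ^ (symmDiff B T).card * (ε * (χ (v + d) (t + ∑ j ∈ T, e j) * χ d (∑ j ∈ B, e j)))

theorem chi_symmDiff (d : V) (e : Fin L → V) (B T : Finset (Fin L)) :
    χ d (∑ j ∈ symmDiff B T, e j) * χ d (∑ j ∈ T, e j) = χ d (∑ j ∈ B, e j) := by
  classical
  rw [χ_sum_right, χ_sum_right, χ_sum_right]
  have e1 : ∏ j ∈ symmDiff B T, χ d (e j) = ∏ j, if j ∈ symmDiff B T then χ d (e j) else 1 := by
    simp
  have e2 : ∏ j ∈ T, χ d (e j) = ∏ j, if j ∈ T then χ d (e j) else 1 := by simp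
  have e3 : ∏ j ∈ B, χ d (e j) = ∏ j, if j ∈ B then χ d (e j) else 1 := by simp
  rw [e1, e2, e3, ← Finset.prod_mul_distrib]
  refine Finset.prod_congr rfl fun j _ => ?_
  by_cases hB : j ∈ B <;> by_cases hT : j ∈ T <;>
    simp [Finset.mem_symmDiff, hB, hT, χ_mul_self]

theorem tau_expand (τ : ℝ) (d : V) (e : Fin L → V) :
    ∏ j, (1 + τ * χ d (e j)) = ∑ B : Finset (Fin L), τ ^ B.card * χ d (∑ j ∈ B, e j) := by
  classical
  rw [Finset.prod_one_add, Finset.powerset_univ]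
  refine Finset.sum_congr rfl fun B _ => ?_
  rw [Finset.prod_mul_distrib, Finset.prod_const, χ_sum_right]

theorem row_eq (τ ε : ℝ) (v d t : V) (e : Fin L → V) (T : Finset (Fin L)) :
    χ v (t + ∑ j ∈ T, e j) * (1 + ε * χ d t) * ∏ j, (1 + τ * χ d (e j)) =
      (χ v (t + ∑ j ∈ T, e j) + τ ^ T.card * (ε * χ (v + d) (t + ∑ j ∈ T, e j))) +
        ∑ B ∈ Finset.univ.erase (∅ : Finset (Fin L)), errB τ ε v d t e T B := by
  classical
  have key : χ v (t + ∑ j ∈ T, e j) * (1 + ε * χ d t) * ∏ j, (1 + τ * χ d (e j))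
      = ∑ B : Finset (Fin L), errB τ ε v d t e T B := by
    have h3 : ∑ B : Finset (Fin L), τ ^ B.card * χ d (∑ j ∈ B, e j)
        = ∑ B : Finset (Fin L), τ ^ (symmDiff B T).card * χ d (∑ j ∈ symmDiff B T, e j) := by
      refine (Equiv.sum_comp (Function.Involutive.toPerm (fun B : Finset (Fin L) => symmDiff B T)
        (fun B => by simp)) (fun B => τ ^ B.card * χ d (∑ j ∈ B, e j))).symm
    rw [tau_expand]
    have : χ v (t + ∑ j ∈ T, e j) * (1 + ε * χ d t) *
        ∑ B : Finset (Fin L), τ ^ B.card * χ d (∑ j ∈ B, e j)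
        = χ v (t + ∑ j ∈ T, e j) * ∑ B : Finset (Fin L), τ ^ B.card * χ d (∑ j ∈ B, e j)
          + χ v (t + ∑ j ∈ T, e j) * (ε * χ d t) *
            ∑ B : Finset (Fin L), τ ^ B.card * χ d (∑ j ∈ B, e j) := by ring
    rw [this]
    nth_rewrite 2 [h3]
    rw [Finset.mul_sum, Finset.mul_sum, ← Finset.sum_add_distrib]
    refine Finset.sum_congr rfl fun B _ => ?_
    unfold errB
    have e1 : χ (v + d) (t + ∑ j ∈ T, e j)
        = χ v (t + ∑ j ∈ T, e j) * (χ d t * χ d (∑ j ∈ T, e j)) := by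
      rw [χ_add_left, χ_add_right d]
    have e3 : χ d (∑ j ∈ T, e j) * χ d (∑ j ∈ T, e j) = 1 := χ_mul_self _ _
    have e4 : χ (v + d) (t + ∑ j ∈ T, e j) * χ d (∑ j ∈ B, e j)
        = χ v (t + ∑ j ∈ T, e j) * χ d t * χ d (∑ j ∈ symmDiff B T, e j) := by
      rw [e1, ← chi_symmDiff d e B T]
      calc χ v (t + ∑ j ∈ T, e j) * (χ d t * χ d (∑ j ∈ T, e j)) *
            (χ d (∑ j ∈ symmDiff B T, e j) * χ d (∑ j ∈ T, e j))
          = χ v (t + ∑ j ∈ T, e j) * χ d t * χ d (∑ j ∈ symmDiff B T, e j)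
              * (χ d (∑ j ∈ T, e j) * χ d (∑ j ∈ T, e j)) := by ring
        _ = _ := by rw [e3, mul_one]
    rw [e4]
    ring
  rw [key, ← Finset.add_sum_erase Finset.univ _ (Finset.mem_univ (∅ : Finset (Fin L)))]
  congr 1
  have e5 : symmDiff (∅ : Finset (Fin L)) T = T := by
    have : (∅ : Finset (Fin L)) = ⊥ := rfl
    rw [this, bot_symmDiff]
  unfold errB
  rw [Finset.sum_empty, χ_zero_right, e5]
  simp

end Alg

section Tensor

variable {β a as : ℝ} {L M : ℕ} (K : KNorm β a as L M)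
variable {P Q : Type} [Fintype P] [Fintype Q]

theorem nu_prod_fin (m : ℕ) (k : Fin m → P → Q → ℝ) :
    K.ν (fun (x : Fin m → P) (y : Fin m → Q) => ∏ i, k i (x i) (y i)) ≤ ∏ i, K.ν (k i) := by
  induction m with
  | zero =>
    have h := K.pull (φ := fun _ : Fin 0 → P => ()) (ψ := fun _ : Fin 0 → Q => ())
      (by
        intro g
        simp [avg, Fintype.card_unique])
      (by
        intro g
        simp [avg, Fintype.card_unique])
      (fun _ _ => (1 : ℝ))
    simpa using h.trans K.one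
  | succ m ih =>
    have h1 := K.pull (MP.equiv (Fin.consEquiv (fun _ : Fin (m + 1) => P)).symm)
      (MP.equiv (Fin.consEquiv (fun _ : Fin (m + 1) => Q)).symm)
      (fun (x : P × (Fin m → P)) (y : Q × (Fin m → Q)) =>
        k 0 x.1 y.1 * ∏ i, k i.succ (x.2 i) (y.2 i))
    have h2 := K.tensor (k 0) (fun (x : Fin m → P) (y : Fin m → Q) => ∏ i, k i.succ (x i) (y i))
    have h3 := ih (fun i => k i.succ)
    have h4 : K.ν (k 0) * K.ν (fun (x : Fin m → P) (y : Fin m → Q) =>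
        ∏ i, k i.succ (x i) (y i)) ≤ ∏ i, K.ν (k i) := by
      rw [Fin.prod_univ_succ]
      exact mul_le_mul_of_nonneg_left h3 (K.nonneg _)
    refine le_trans ?_ (h2.trans h4)
    refine le_trans (le_of_eq ?_) h1
    congr 1
    funext x y
    rw [Fin.prod_univ_succ]
    rfl

theorem nu_prod {ι : Type} [Fintype ι] [DecidableEq ι] (k : ι → P → Q → ℝ) :
    K.ν (fun (x : ι → P) (y : ι → Q) => ∏ i, k i (x i) (y i)) ≤ ∏ i, K.ν (k i) := by
  classical
  have e := Fintype.equivFin ι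
  have h1 := K.pull (MP.equiv (Equiv.arrowCongr e (Equiv.refl P)))
    (MP.equiv (Equiv.arrowCongr e (Equiv.refl Q)))
    (fun (x : Fin (Fintype.card ι) → P) (y : Fin (Fintype.card ι) → Q) =>
      ∏ i, k (e.symm i) (x i) (y i))
  have h2 := nu_prod_fin K (Fintype.card ι) (fun i => k (e.symm i))
  have h3 : ∏ i, K.ν (k (e.symm i)) = ∏ i, K.ν (k i) :=
    Equiv.prod_comp e.symm (fun i => K.ν (k i))
  rw [← h3]
  refine le_trans (le_of_eq ?_) (h1.trans h2)
  congr 1
  funext x y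
  rw [← Equiv.prod_comp e.symm]
  refine Finset.prod_congr rfl fun i _ => ?_
  simp [Equiv.arrowCongr]

/-- difference of tensor products of `main + err` and `main`. -/
theorem nu_prod_sub_le {ι : Type} [Fintype ι] [DecidableEq ι] (f g : ι → P → Q → ℝ) (cf cg : ℝ)
    (hf : ∀ i, K.ν (f i) ≤ cf) (hg : ∀ i, K.ν (g i) ≤ cg) :
    K.ν (fun (x : ι → P) (y : ι → Q) =>
      ∏ i, (f i (x i) (y i) + g i (x i) (y i)) - ∏ i, f i (x i) (y i))
      ≤ (cf + cg) ^ Fintype.card ι - cf ^ Fintype.card ι := by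
  classical
  have e1 : (fun (x : ι → P) (y : ι → Q) =>
      ∏ i, (f i (x i) (y i) + g i (x i) (y i)) - ∏ i, f i (x i) (y i))
      = fun x y => ∑ t ∈ (Finset.univ : Finset (Finset ι)).erase ∅,
          ∏ i, (if i ∈ t then g i else f i) (x i) (y i) := by
    funext x y
    have h1 : ∏ i, (f i (x i) (y i) + g i (x i) (y i))
        = ∑ t : Finset ι, ∏ i, (if i ∈ t then g i else f i) (x i) (y i) := by
      have h2 : ∏ i, (f i (x i) (y i) + g i (x i) (y i))
          = ∏ i, (g i (x i) (y i) + f i (x i) (y i)) :=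
        Finset.prod_congr rfl fun i _ => add_comm _ _
      rw [h2, Finset.prod_add, Finset.powerset_univ]
      refine Finset.sum_congr rfl fun t _ => ?_
      rw [← Finset.prod_mul_prod_compl t]
      congr 1
      · refine Finset.prod_congr rfl fun i hi => ?_
        simp [hi]
      · refine Finset.prod_congr (by simp [Finset.compl_eq_univ_sdiff]) fun i hi => ?_
        have : i ∉ t := by simpa using hi
        simp [this]
    rw [h1, ← Finset.add_sum_erase Finset.univ _ (Finset.mem_univ (∅ : Finset ι))]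
    simp
  rw [e1]
  refine (K.toPreNorm.sum_le _ _).trans ?_
  have h2 : ∀ t : Finset ι, K.ν (fun (x : ι → P) (y : ι → Q) =>
      ∏ i, (if i ∈ t then g i else f i) (x i) (y i)) ≤ cg ^ t.card * cf ^ (Fintype.card ι - t.card) := by
    intro t
    refine (nu_prod K (fun i => if i ∈ t then g i else f i)).trans ?_
    calc ∏ i, K.ν (if i ∈ t then g i else f i)
        ≤ ∏ i, (if i ∈ t then cg else cf) := by
          refine Finset.prod_le_prod (fun i _ => K.nonneg _) fun i _ => ?_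
          split_ifs
          · exact hg i
          · exact hf i
      _ = cg ^ t.card * cf ^ (Fintype.card ι - t.card) := by
          rw [Finset.prod_ite, Finset.prod_const, Finset.prod_const]
          congr 2
          · congr 1; ext i; simp
          · rw [Finset.filter_not, Finset.card_sdiff_of_subset (Finset.subset_univ _)]
            congr 2
            ext i; simp
  refine (Finset.sum_le_sum fun t _ => h2 t).trans ?_
  have h3 : ∑ t : Finset ι, cg ^ t.card * cf ^ (Fintype.card ι - t.card)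
      = (cf + cg) ^ Fintype.card ι := by
    rw [add_comm cf cg, ← Finset.card_univ]
    have := Finset.sum_pow_mul_eq_add_pow cg cf (Finset.univ : Finset ι)
    rw [Finset.powerset_univ] at this
    exact this
  rw [← h3, ← Finset.add_sum_erase Finset.univ _ (Finset.mem_univ (∅ : Finset ι))]
  simp

end Tensor


section MPlemmas

variable {A A' : Type} [Fintype A] [Fintype A']

/-- a map that intertwines translations is measure preserving -/
theorem MP_of_addRight [AddGroup A] [AddGroup A'] {φ : A' → A}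
    (h : ∀ s : A, ∃ c : A', ∀ x, φ (x + c) = φ x + s) : MP φ := by
  intro g
  have h1 : ∀ s : A, (avg fun x : A' => g (φ x)) = avg fun x : A' => g (φ x + s) := by
    intro s
    obtain ⟨c, hc⟩ := h s
    rw [← avg_equiv (Equiv.addRight c) (fun x => g (φ x))]
    simp only [Equiv.coe_addRight, hc]
  have h2 : (avg fun x : A' => g (φ x)) = avg fun s : A => avg fun x : A' => g (φ x + s) := by
    have : (fun s : A => avg fun x : A' => g (φ x + s))
        = fun _ : A => avg fun x : A' => g (φ x) := by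
      funext s; exact (h1 s).symm
    rw [this, avg_const]
  rw [h2, avg_comm]
  have h3 : ∀ x : A', (avg fun s : A => g (φ x + s)) = avg g := fun x =>
    avg_equiv (Equiv.addLeft (φ x)) g
  simp only [h3]
  exact avg_const _

end MPlemmas

section A0

variable {β a as : ℝ} {L M : ℕ} (K : KNorm β a as L M)

theorem ν_prod_pi {P Q : Type} [Fintype P] [Fintype Q] (ι : Type) [Fintype ι] [DecidableEq ι]
    (κ : ι → P → Q → ℝ) :
    K.ν (fun (x : ι → P) (y : ι → Q) => ∏ l, κ l (x l) (y l)) ≤ ∏ l, K.ν (κ l) :=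
  nu_prod K κ

theorem ν_chi_pi' (ι : Type) [Fintype ι] [DecidableEq ι] :
    K.ν (fun x y : ι → ZMod 2 => χ x y) ≤ β ^ Fintype.card ι := by
  refine (nu_prod K (fun _ (x y : ZMod 2) => χ x y)).trans ?_
  refine (Finset.prod_le_prod (fun i _ => K.nonneg _) fun i _ => K.walsh).trans ?_
  simp

theorem ν_chi_prod' {V W : Type} [BiChar V] [BiChar W] [Fintype V] [Fintype W] {c c' : ℝ}
    (h : K.ν (fun x y : V => χ x y) ≤ c) (h' : K.ν (fun x y : W => χ x y) ≤ c') :
    K.ν (fun x y : V × W => χ x y) ≤ c * c' := by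
  refine (K.tensor (fun x y : V => χ x y) (fun x y : W => χ x y)).trans ?_
  exact mul_le_mul h h' (K.nonneg _) ((K.nonneg _).trans h)

theorem ν_chi_R' (I : ℕ) : K.ν (fun x y : R L I => χ x y) ≤ β ^ (1 + L + I) := by
  have h1 := ν_chi_prod' K (ν_chi_pi' K (Fin L)) (ν_chi_pi' K (Fin I))
  have h2 := ν_chi_prod' K K.walsh h1
  refine h2.trans (le_of_eq ?_)
  simp only [Fintype.card_fin]
  ring

theorem ν_chi_RΩ (I : ℕ) :
    K.ν (fun x y : R L I × (Fin I → ZMod 2) => χ x y) ≤ β ^ (1 + L + I + I) := by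
  have h1 := ν_chi_prod' K (ν_chi_R' K I) (ν_chi_pi' K (Fin I))
  refine h1.trans (le_of_eq ?_)
  simp only [Fintype.card_fin]
  ring

end A0

section MPrc

variable {L I : ℕ}

theorem MP_v : MP (fun x : Pf L I => x.1) := MP.fst

theorem MP_vd : MP (fun x : Pf L I => x.1 + dvec x.2.1) := by
  refine MP_of_addRight fun s => ⟨(s, 0, 0), fun x => ?_⟩
  simp only [Prod.fst_add, Prod.snd_add, add_zero]
  abel

theorem MP_v0 : MP (fun x : Pf L I => (x.1, x.2.1.2)) := by
  refine MP_of_addRight fun s => ⟨(s.1, (0, s.2), 0), fun x => ?_⟩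
  rfl

theorem MP_v1 : MP (fun x : Pf L I => (x.1 + dvec x.2.1, x.2.1.2)) := by
  refine MP_of_addRight fun s => ⟨(s.1 - (0, 0, s.2), (0, s.2), 0), fun x => ?_⟩
  apply Prod.ext
  · simp only [dvec, Prod.fst_add, Prod.snd_add]
    ext <;> simp <;> ring
  · rfl

theorem eT_add (T : Finset (Fin L)) (y c : Qg L I) :
    eT T (y + c) = eT T y + ∑ j ∈ T, ((c.2 j).1, (0 : Fin L → ZMod 2), (c.2 j).2) := by
  unfold eT
  rw [← Finset.sum_add_distrib]
  refine Finset.sum_congr rfl fun j _ => ?_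
  simp [evec]

theorem MP_shift1 (T : Finset (Fin L)) : MP (fun y : Qg L I => y.1 + eT T y) := by
  refine MP_of_addRight fun s => ⟨(s, 0), fun y => ?_⟩
  rw [eT_add]
  simp only [Prod.fst_add, Pi.zero_apply]
  have : ∑ j ∈ T, (((0 : ZMod 2 × (Fin I → ZMod 2)).1, (0 : Fin L → ZMod 2),
      (0 : ZMod 2 × (Fin I → ZMod 2)).2) : R L I) = 0 := by
    apply Finset.sum_eq_zero
    intro j _
    rfl
  rw [this]
  abel

theorem eT_snd (T : Finset (Fin L)) (y : Qg L I) : (eT T y).2.2 = ∑ j ∈ T, (y.2 j).2 := by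
  unfold eT evec
  simp [Prod.snd_sum]

theorem MP_shiftB (T B : Finset (Fin L)) (hB : B.Nonempty) :
    MP (fun y : Qg L I => (y.1 + eT T y, (eT B y).2.2)) := by
  obtain ⟨j0, hj0⟩ := hB
  refine MP_of_addRight fun s => ?_
  -- translation `c`
  let c2 : Fin L → ZMod 2 × (Fin I → ZMod 2) := fun j => if j = j0 then (0, s.2) else 0
  refine ⟨(s.1 - ∑ j ∈ T, ((c2 j).1, (0 : Fin L → ZMod 2), (c2 j).2), c2), fun y => ?_⟩
  apply Prod.ext
  · simp only
    rw [eT_add]
    simp only [Prod.fst_add]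
    abel
  · simp only [Prod.snd_add]
    rw [eT_add]
    simp only [Prod.snd_add]
    congr 1
    simp only [Prod.snd_sum]
    rw [Finset.sum_eq_single_of_mem j0 hj0]
    · simp [c2]
    · intro j _ hj
      simp [c2, hj]

end MPrc

section Expansion

variable {β a as : ℝ} {L M : ℕ} (K : KNorm β a as L M)

/-- A4.1 -/
theorem resK_expand (I : ℕ) (ι : Type) [Fintype ι] [DecidableEq ι] (τ : ℝ) (x : ι → Pf L I)
    (y : (Fin L → ZMod 2) × (ι → Qg L I)) :
    resK ι τ x y = ∑ T ∈ (univ : Finset (Fin L)).powerset,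
      sgT T y.1 * ∏ l, rowT τ T (x l) (y.2 l) := by
  unfold resK
  rw [Finset.prod_one_add, Finset.mul_sum]
  refine Finset.sum_congr rfl fun T _ => ?_
  unfold rowT sgT eT
  rw [Finset.prod_mul_distrib, Finset.prod_mul_distrib]
  have : ∏ i ∈ T, ∏ l, χ (x l).1 (evec i ((y.2 l).2 i))
      = ∏ l, χ (x l).1 (∑ j ∈ T, evec j ((y.2 l).2 j)) := by
    rw [Finset.prod_comm]
    refine Finset.prod_congr rfl fun l _ => ?_
    rw [χ_sum_right]
  rw [this]
  ring

theorem ν_k0' (I : ℕ) : K.ν (k0 : Pf L I → R L I → ℝ) ≤ β ^ (1 + L + I) :=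
  (K.pull MP_v (MP.id (A := R L I)) (fun x y : R L I => χ x y)).trans (ν_chi_R' K I)

theorem ν_k1' (I : ℕ) : K.ν (k1 : Pf L I → R L I → ℝ) ≤ β ^ (1 + L + I) := by
  have h1 := K.unim_left (fun x : Pf L I => sg x.2.2) (fun x => (abs_sg _).le)
    (fun x (t : R L I) => χ (x.1 + dvec x.2.1) t)
  have h2 := K.pull MP_vd (MP.id (A := R L I)) (fun x y : R L I => χ x y)
  exact h1.trans (h2.trans (ν_chi_R' K I))

/-- the kernel of a non resonant term -/
theorem ν_err (I : ℕ) (T B : Finset (Fin L)) (hB : B.Nonempty) (φ : Pf L I → R L I)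
    (hφ : MP (fun x : Pf L I => (φ x, x.2.1.2))) (u : Pf L I → ℝ) (hu : ∀ x, |u x| ≤ 1) :
    K.ν (fun (x : Pf L I) (y : Qg L I) =>
      u x * (χ (φ x) (y.1 + eT T y) * χ (dvec x.2.1) (eT B y))) ≤ β ^ (1 + L + I + I) := by
  have h0 := ν_chi_RΩ K I
  have h1 := K.pull hφ (MP_shiftB T B hB) (fun x y : R L I × (Fin I → ZMod 2) => χ x y)
  have h2 := K.unim
    (fun x : Pf L I => u x * χ x.2.1.1 (∑ j ∈ B, (Pi.single j 1 : Fin L → ZMod 2)))
    (fun y : Qg L I => sg (eT B y).1) (fun x => ?_) (fun y => (abs_sg _).le)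
    (fun x y => χ ((φ x, x.2.1.2) : R L I × (Fin I → ZMod 2)) (y.1 + eT T y, (eT B y).2.2))
  · refine le_trans (le_of_eq ?_) (h2.trans (h1.trans h0))
    congr 1
    funext x y
    have e1 : (eT B y).2.1 = ∑ j ∈ B, (Pi.single j 1 : Fin L → ZMod 2) := by
      unfold eT evec
      simp [Prod.snd_sum, Prod.fst_sum]
    have e2 : χ (dvec x.2.1) (eT B y)
        = sg (eT B y).1 * (χ x.2.1.1 (eT B y).2.1 * χ x.2.1.2 (eT B y).2.2) := by
      rw [χ_prod, χ_prod]
      simp [dvec, χ_zmod2]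
    have e3 : χ ((φ x, x.2.1.2) : R L I × (Fin I → ZMod 2)) (y.1 + eT T y, (eT B y).2.2)
        = χ (φ x) (y.1 + eT T y) * χ x.2.1.2 (eT B y).2.2 := rfl
    rw [e2, ← e1, e3]
    ring
  · rw [abs_mul, abs_χ, mul_one]
    exact hu x

/-- A4.2 -/
theorem ν_rowT_sub_mainT (hβ : 0 ≤ β) (I : ℕ) (T : Finset (Fin L)) (τ : ℝ) (h0 : 0 ≤ τ)
    (h1 : τ ≤ 1) :
    K.ν (fun (x : Pf L I) (y : Qg L I) => rowT τ T x y - mainT (τ ^ T.card) T x y)
      ≤ 2 ^ (L + 1) * β ^ (1 + L + I + I) := by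
  classical
  have e : (fun (x : Pf L I) (y : Qg L I) => rowT τ T x y - mainT (τ ^ T.card) T x y)
      = fun x y => ∑ B ∈ (Finset.univ : Finset (Finset (Fin L))).erase ∅,
        (τ ^ B.card * (1 * (χ x.1 (y.1 + eT T y) * χ (dvec x.2.1) (eT B y)))
          + τ ^ (symmDiff B T).card *
            (sg x.2.2 * (χ (x.1 + dvec x.2.1) (y.1 + eT T y) * χ (dvec x.2.1) (eT B y)))) := by
    funext x y
    have h := row_eq τ (sg x.2.2) x.1 (dvec x.2.1) y.1 (fun j => evec j (y.2 j)) T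
    have h' : rowT τ T x y = χ x.1 (y.1 + eT T y) * (1 + sg x.2.2 * χ (dvec x.2.1) y.1) *
        ∏ j, (1 + τ * χ (dvec x.2.1) (evec j (y.2 j))) := by
      unfold rowT rowK
      rw [χ_add_right]
      ring
    rw [h']
    unfold eT mainT k0 k1
    rw [h]
    unfold errB eT
    simp only [one_mul, add_sub_cancel_left]
  rw [e]
  refine (K.toPreNorm.sum_le _ _).trans ?_
  have hb : ∀ B ∈ (Finset.univ : Finset (Finset (Fin L))).erase ∅,
      K.ν (fun (x : Pf L I) (y : Qg L I) =>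
        (τ ^ B.card * (1 * (χ x.1 (y.1 + eT T y) * χ (dvec x.2.1) (eT B y)))
          + τ ^ (symmDiff B T).card *
            (sg x.2.2 * (χ (x.1 + dvec x.2.1) (y.1 + eT T y) * χ (dvec x.2.1) (eT B y)))))
        ≤ 2 * β ^ (1 + L + I + I) := by
    intro B hB
    have hB' : B.Nonempty := by
      rw [Finset.mem_erase] at hB
      exact Finset.nonempty_iff_ne_empty.2 hB.1
    have hβ' : 0 ≤ β ^ (1 + L + I + I) := pow_nonneg hβ _
    have hp : ∀ n : ℕ, |τ ^ n| ≤ 1 := fun n => by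
      rw [abs_pow, abs_of_nonneg h0]
      exact pow_le_one₀ h0 h1
    have t1 := (K.smul_le (τ ^ B.card) (fun (x : Pf L I) (y : Qg L I) =>
      1 * (χ x.1 (y.1 + eT T y) * χ (dvec x.2.1) (eT B y)))).trans
      (mul_le_mul (hp _) (ν_err K I T B hB' (fun x => x.1) MP_v0 (fun _ => 1)
        (fun _ => by simp)) (K.nonneg _) zero_le_one)
    have t2 := (K.smul_le (τ ^ (symmDiff B T).card) (fun (x : Pf L I) (y : Qg L I) =>
      sg x.2.2 * (χ (x.1 + dvec x.2.1) (y.1 + eT T y) * χ (dvec x.2.1) (eT B y)))).trans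
      (mul_le_mul (hp _) (ν_err K I T B hB' (fun x => x.1 + dvec x.2.1) MP_v1
        (fun x => sg x.2.2) (fun _ => (abs_sg _).le)) (K.nonneg _) zero_le_one)
    refine (K.add_le _ _).trans ?_
    linarith
  refine (Finset.sum_le_card_nsmul _ _ _ hb).trans ?_
  have hc : (((Finset.univ : Finset (Finset (Fin L))).erase ∅).card : ℝ) ≤ 2 ^ L := by
    have : ((Finset.univ : Finset (Finset (Fin L))).erase ∅).card ≤ 2 ^ L := by
      refine (Finset.card_le_univ _).trans ?_
      simp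
    exact_mod_cast this
  rw [nsmul_eq_mul]
  calc (((Finset.univ : Finset (Finset (Fin L))).erase ∅).card : ℝ) * (2 * β ^ (1 + L + I + I))
      ≤ 2 ^ L * (2 * β ^ (1 + L + I + I)) := by
        apply mul_le_mul_of_nonneg_right hc
        have := pow_nonneg hβ (1 + L + I + I)
        linarith
    _ = 2 ^ (L + 1) * β ^ (1 + L + I + I) := by ring

/-- A4.3 -/
theorem ν_mainT (_hβ : 0 ≤ β) (I : ℕ) (T : Finset (Fin L)) (s : ℝ) (h0 : 0 ≤ s) (h1 : s ≤ 1) :
    K.ν (mainT s T : Pf L I → Qg L I → ℝ) ≤ 2 * β ^ (1 + L + I) := by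
  have a0 := (K.pull (MP.id (A := Pf L I)) (MP_shift1 T) (k0 : Pf L I → R L I → ℝ)).trans
    (ν_k0' K I)
  have a1 := (K.pull (MP.id (A := Pf L I)) (MP_shift1 T) (k1 : Pf L I → R L I → ℝ)).trans
    (ν_k1' K I)
  have a2 := (K.smul_le s (fun (x : Pf L I) (y : Qg L I) => k1 x (y.1 + eT T y))).trans
    (mul_le_mul (by rw [abs_of_nonneg h0]; exact h1) a1 (K.nonneg _) zero_le_one)
  refine (K.add_le (fun (x : Pf L I) (y : Qg L I) => k0 x (y.1 + eT T y))
    (fun x y => s * k1 x (y.1 + eT T y))).trans ?_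
  linarith

/-- A4.4 general product perturbation -/
theorem ν_prod_sub_prod {P Q : Type} [Fintype P] [Fintype Q] (ι : Type) [Fintype ι]
    [DecidableEq ι] (κ μ : P → Q → ℝ) (m e : ℝ) (hm : 0 ≤ m) (he : 0 ≤ e)
    (h1 : K.ν μ ≤ m) (h2 : K.ν (fun x y => κ x y - μ x y) ≤ e) :
    K.ν (fun (x : ι → P) (y : ι → Q) => ∏ l, κ (x l) (y l) - ∏ l, μ (x l) (y l))
      ≤ (m + e) ^ Fintype.card ι - m ^ Fintype.card ι := by
  have h := nu_prod_sub_le K (ι := ι) (fun _ => μ) (fun _ x y => κ x y - μ x y) m e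
    (fun _ => h1) (fun _ => h2)
  simpa using h

/-- A4.5 total -/
theorem ν_expand_total (hβ : 0 ≤ β) (I : ℕ) (ι : Type) [Fintype ι] [DecidableEq ι] (τ : ℝ)
    (h0 : 0 ≤ τ) (h1 : τ ≤ 1) :
    K.ν (fun (x : ι → Pf L I) (y : (Fin L → ZMod 2) × (ι → Qg L I)) =>
        (resK ι τ x y - resK ι 0 x y)
        - ∑ T ∈ (univ : Finset (Fin L)).powerset.erase ∅, sgT T y.1 *
          (prodK k0 k1 ι (τ ^ T.card) x (fun l => (y.2 l).1 + eT T (y.2 l))
            - prodK k0 k1 ι 0 x (fun l => (y.2 l).1 + eT T (y.2 l))))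
      ≤ 2 * 2 ^ L * (((2 + 2 ^ (L + 1) * β ^ I) ^ Fintype.card ι - 2 ^ Fintype.card ι)
          * β ^ ((1 + L + I) * Fintype.card ι)) := by
  classical
  -- error kernel for given `σ`, `T`
  let D : ℝ → Finset (Fin L) → (ι → Pf L I) → ((Fin L → ZMod 2) × (ι → Qg L I)) → ℝ :=
    fun σ T x y => sgT T y.1 *
      (∏ l, rowT σ T (x l) (y.2 l) - ∏ l, mainT (σ ^ T.card) T (x l) (y.2 l))
  set n := Fintype.card ι with hn
  have hD : ∀ σ : ℝ, 0 ≤ σ → σ ≤ 1 → ∀ T, K.ν (D σ T) ≤
      ((2 + 2 ^ (L + 1) * β ^ I) ^ n - 2 ^ n) * β ^ ((1 + L + I) * n) := by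
    intro σ s0 s1 T
    have b1 := ν_prod_sub_prod K ι (rowT σ T : Pf L I → Qg L I → ℝ) (mainT (σ ^ T.card) T)
      (2 * β ^ (1 + L + I)) (2 ^ (L + 1) * β ^ (1 + L + I + I)) (by positivity) (by positivity)
      (ν_mainT K hβ I T _ (pow_nonneg s0 _) (pow_le_one₀ s0 s1))
      (ν_rowT_sub_mainT K hβ I T σ s0 s1)
    have b2 := K.pull (MP.id (A := ι → Pf L I))
      (MP.snd : MP (fun y : (Fin L → ZMod 2) × (ι → Qg L I) => y.2))
      (fun (x : ι → Pf L I) (y : ι → Qg L I) =>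
        ∏ l, rowT σ T (x l) (y l) - ∏ l, mainT (σ ^ T.card) T (x l) (y l))
    have b3 := K.unim_right (fun y : (Fin L → ZMod 2) × (ι → Qg L I) => sgT T y.1)
      (fun y => by
        unfold sgT
        rw [Finset.abs_prod]
        exact (Finset.prod_eq_one fun j _ => abs_sg _).le)
      (fun (x : ι → Pf L I) (y : (Fin L → ZMod 2) × (ι → Qg L I)) =>
        ∏ l, rowT σ T (x l) (y.2 l) - ∏ l, mainT (σ ^ T.card) T (x l) (y.2 l))
    have e1 : D σ T = fun (x : ι → Pf L I) (y : (Fin L → ZMod 2) × (ι → Qg L I)) =>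
        (∏ l, rowT σ T (x l) (y.2 l) - ∏ l, mainT (σ ^ T.card) T (x l) (y.2 l)) * sgT T y.1 := by
      funext x y
      simp only [D]
      ring
    rw [e1]
    refine b3.trans (b2.trans (b1.trans (le_of_eq ?_)))
    have e2 : 2 * β ^ (1 + L + I) + 2 ^ (L + 1) * β ^ (1 + L + I + I)
        = (2 + 2 ^ (L + 1) * β ^ I) * β ^ (1 + L + I) := by
      rw [pow_add β (1 + L + I) I]
      ring
    rw [e2, mul_pow, mul_pow, ← pow_mul, ← hn]
    ring
  have e0 : (fun (x : ι → Pf L I) (y : (Fin L → ZMod 2) × (ι → Qg L I)) =>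
        (resK ι τ x y - resK ι 0 x y)
        - ∑ T ∈ (univ : Finset (Fin L)).powerset.erase ∅, sgT T y.1 *
          (prodK k0 k1 ι (τ ^ T.card) x (fun l => (y.2 l).1 + eT T (y.2 l))
            - prodK k0 k1 ι 0 x (fun l => (y.2 l).1 + eT T (y.2 l))))
      = fun x y => ∑ T ∈ (univ : Finset (Fin L)).powerset, (D τ T x y - D 0 T x y) := by
    funext x y
    rw [resK_expand, resK_expand, ← Finset.sum_sub_distrib]
    have m0 : (∅ : Finset (Fin L)) ∈ (univ : Finset (Fin L)).powerset := by simp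
    rw [← Finset.add_sum_erase _ _ m0, ← Finset.add_sum_erase _ (fun T => D τ T x y - D 0 T x y) m0,
      add_sub_assoc, ← Finset.sum_sub_distrib]
    congr 1
    · simp only [D, Finset.card_empty, pow_zero]
      ring
    · refine Finset.sum_congr rfl fun T hT => ?_
      have hT' : T.card ≠ 0 := by
        rw [Finset.mem_erase] at hT
        simpa using hT.1
      simp only [D, prodK, mainT, zero_pow hT']
      ring
  rw [e0]
  refine (K.toPreNorm.sum_le _ _).trans ?_
  have h3 : ∀ T ∈ (univ : Finset (Fin L)).powerset,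
      K.ν (fun (x : ι → Pf L I) (y : (Fin L → ZMod 2) × (ι → Qg L I)) => D τ T x y - D 0 T x y)
        ≤ 2 * (((2 + 2 ^ (L + 1) * β ^ I) ^ n - 2 ^ n) * β ^ ((1 + L + I) * n)) := by
    intro T _
    refine (K.toPreNorm.sub_le _ _).trans ?_
    have := hD τ h0 h1 T
    have := hD 0 le_rfl zero_le_one T
    linarith
  refine (Finset.sum_le_card_nsmul _ _ _ h3).trans (le_of_eq ?_)
  rw [Finset.card_powerset, Finset.card_univ, Fintype.card_fin, nsmul_eq_mul]
  push_cast
  ring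

end Expansion

end Crest.Agent.R118.A4x570
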