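import Crest.Agent.R118.CoreDefs_324
import Crest.Agent.R118.A3_253
import Crest.Agent.R118.A0_785
import Crest.Agent.R118.A1_523
import Crest.Agent.R118.A4_570
import Crest.Agent.R118.A2_321

/-!
A5 of row 118 (S0158): measure preservation of the shifts, the cotype step, and the assembly of
Theorem A.
-/

namespace Crest.Agent.R118.A5_862

open Finset Base324 KNorm324 Core324

/-! ### A5.1 -/

/-- `y ↦ (t_l + e_T(y))_l, rest` as an equivalence -/
def shiftEquiv (L I : ℕ) (ι : Type) (T : Finset (Fin L)) :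
    (ι → Qg L I) ≃ (ι → R L I) × (ι → (Fin L → ZMod 2 × (Fin I → ZMod 2))) where
  toFun y := (fun l => (y l).1 + eT T (y l), fun l => (y l).2)
  invFun z := fun l => (z.1 l - eT T (0, z.2 l), z.2 l)
  left_inv y := by
    funext l
    simp only [eT]
    ext1
    · simp
    · rfl
  right_inv z := by
    ext1
    · funext l
      simp [eT]
    · rfl

theorem MP_shift' (L I : ℕ) (ι : Type) [Fintype ι] [DecidableEq ι] (T : Finset (Fin L)) :
    MP (fun (y : ι → Qg L I) => fun l => (y l).1 + eT T (y l)) := by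
  have h1 := MP.equiv (shiftEquiv L I ι T)
  have h2 : MP (fun x : (ι → R L I) × (ι → (Fin L → ZMod 2 × (Fin I → ZMod 2))) => x.1) := MP.fst
  exact MP.comp h2 h1

/-- A5.1 measure preservation of `y ↦ (t_l + e_T)_l` -/
theorem MP_shift {L : ℕ} (I : ℕ) (ι : Type) [Fintype ι] [DecidableEq ι] (T : Finset (Fin L)) :
    MP (fun (y : (Fin L → ZMod 2) × (ι → Qg L I)) => fun l => (y.2 l).1 + eT T (y.2 l)) :=
  MP.comp (MP_shift' L I ι T) MP.snd

/-! ### A5.2 -/

theorem eT_singleton {L I : ℕ} (j : Fin L) (y : Qg L I) : eT {j} y = evec j (y.2 j) := by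
  simp [eT]

variable {β a as : ℝ} {L M : ℕ}

/-- A5.2 cotype step -/
theorem ν_cot_step (K : KNorm β a as L M) (I : ℕ) (ι : Type) [Fintype ι] [DecidableEq ι]
    (κ : (ι → Pf L I) → (ι → R L I) → ℝ) :
    a * K.ν κ ≤ K.ν (fun (x : ι → Pf L I) (y : (Fin L → ZMod 2) × (ι → Qg L I)) =>
      ∑ j, sg (y.1 j) * κ x (fun l => (y.2 l).1 + evec j ((y.2 l).2 j))) := by
  have hψ : ∀ j : Fin L, MP (fun (y : ι → Qg L I) => fun l => (y l).1 + evec j ((y l).2 j)) := by
    intro j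
    have h := MP_shift' L I ι ({j} : Finset (Fin L))
    simpa only [eT_singleton] using h
  have h1 := K.cot (fun j (y : ι → Qg L I) => fun l => (y l).1 + evec j ((y l).2 j)) hψ κ
  refine h1.trans ?_
  have h2 := K.pull (MP.id (A := ι → Pf L I))
    (MP.equiv (Equiv.prodComm (ι → Qg L I) (Fin L → ZMod 2)))
    (fun (x : ι → Pf L I) (y : (Fin L → ZMod 2) × (ι → Qg L I)) =>
      ∑ j, sg (y.1 j) * κ x (fun l => (y.2 l).1 + evec j ((y.2 l).2 j)))
  exact h2

/-! ### Reindexing -/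

lemma hom_equiv {ι ι' : Type} [Fintype ι] [DecidableEq ι] [Fintype ι'] [DecidableEq ι']
    (e : ι' ≃ ι) (u w : ι → ℝ) (i : ℕ) :
    hom univ u w i = hom univ (fun l => u (e l)) (fun l => w (e l)) i := by
  unfold hom
  rw [← Finset.map_univ_equiv e, Finset.powersetCard_map, Finset.sum_map]
  refine Finset.sum_congr rfl fun S _ => ?_
  have h1 : (Finset.mapEmbedding e.toEmbedding).toEmbedding S = S.map e.toEmbedding := rfl
  rw [h1, ← Finset.map_sdiff, Finset.prod_map, Finset.prod_map]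
  rfl

lemma homK_equiv {P Q : Type} (κ0 κ1 : P → Q → ℝ) {ι ι' : Type} [Fintype ι] [DecidableEq ι]
    [Fintype ι'] [DecidableEq ι'] (e : ι' ≃ ι) (i : ℕ) (x : ι → P) (y : ι → Q) :
    homK κ0 κ1 ι i x y = homK κ0 κ1 ι' i (fun l => x (e l)) (fun l => y (e l)) := by
  unfold homK
  rw [hom_equiv e]

lemma ν_homK_card (N : PreNorm) {P Q : Type} [Fintype P] [Fintype Q] (κ0 κ1 : P → Q → ℝ)
    (ι : Type) [Fintype ι] [DecidableEq ι] (i : ℕ) :
    N.ν (homK κ0 κ1 ι i) ≤ N.ν (homK κ0 κ1 (Fin (Fintype.card ι)) i) := by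
  have e : Fin (Fintype.card ι) ≃ ι := (Fintype.equivFin ι).symm
  have h := N.pull (MP.equiv (Equiv.arrowCongr e.symm (Equiv.refl P)))
    (MP.equiv (Equiv.arrowCongr e.symm (Equiv.refl Q))) (homK κ0 κ1 (Fin (Fintype.card ι)) i)
  refine le_trans (le_of_eq ?_) h
  congr 1
  funext x y
  rw [homK_equiv κ0 κ1 e]
  rfl

lemma homK_zero {P Q : Type} (κ0 κ1 : P → Q → ℝ) (ι : Type) [Fintype ι] [DecidableEq ι]
    (x : ι → P) (y : ι → Q) : homK κ0 κ1 ι 0 x y = ∏ l, κ0 (x l) (y l) := by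
  simp [homK, hom]

/-! ### Walsh kernels on `Fin M → R L I` -/

/-- coordinates of `R L I` -/
def rEquiv (L I : ℕ) : (Unit ⊕ (Fin L ⊕ Fin I) → ZMod 2) ≃ R L I :=
  (Equiv.sumArrowEquivProdArrow _ _ _).trans
    (Equiv.prodCongr (Equiv.funUnique Unit (ZMod 2)) (Equiv.sumArrowEquivProdArrow _ _ _))

lemma χ_rEquiv (L I : ℕ) (x y : Unit ⊕ (Fin L ⊕ Fin I) → ZMod 2) :
    χ (rEquiv L I x) (rEquiv L I y) = χ x y := by
  simp only [χ_prod, χ_pi, Fintype.prod_sum_type, Finset.univ_unique, Finset.prod_singleton]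
  rfl

/-- coordinates of `Fin M → R L I` -/
noncomputable def wEquiv (M L I : ℕ) :
    (Fin (M * (1 + (L + I))) → ZMod 2) ≃ (Fin M → R L I) :=
  ((Equiv.arrowCongr (Fintype.equivFinOfCardEq (α := Fin M × (Unit ⊕ (Fin L ⊕ Fin I)))
      (by simp)).symm (Equiv.refl (ZMod 2))).trans (Equiv.curry _ _ _)).trans
    (Equiv.arrowCongr (Equiv.refl (Fin M)) (rEquiv L I))

lemma χ_wEquiv (M L I : ℕ) (x y : Fin (M * (1 + (L + I))) → ZMod 2) :
    χ (wEquiv M L I x) (wEquiv M L I y) = χ x y := by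
  rw [χ_pi]
  have h1 : ∀ l, χ (wEquiv M L I x l) (wEquiv M L I y l) =
      ∏ s, χ (x (Fintype.equivFinOfCardEq (α := Fin M × (Unit ⊕ (Fin L ⊕ Fin I)))
        (by simp) (l, s))) (y (Fintype.equivFinOfCardEq (α := Fin M × (Unit ⊕ (Fin L ⊕ Fin I)))
        (by simp) (l, s))) := by
    intro l
    have h2 := χ_rEquiv L I
      (fun s => x (Fintype.equivFinOfCardEq (α := Fin M × (Unit ⊕ (Fin L ⊕ Fin I)))
        (by simp) (l, s)))
      (fun s => y (Fintype.equivFinOfCardEq (α := Fin M × (Unit ⊕ (Fin L ⊕ Fin I)))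
        (by simp) (l, s)))
    exact h2
  simp only [h1]
  rw [← Fintype.prod_prod_type' (f := fun (l : Fin M) (s : Unit ⊕ (Fin L ⊕ Fin I)) =>
    χ (x (Fintype.equivFinOfCardEq (α := Fin M × (Unit ⊕ (Fin L ⊕ Fin I)))
        (by simp) (l, s))) (y (Fintype.equivFinOfCardEq (α := Fin M × (Unit ⊕ (Fin L ⊕ Fin I)))
        (by simp) (l, s))))]
  rw [χ_pi]
  exact Equiv.prod_comp (Fintype.equivFinOfCardEq (α := Fin M × (Unit ⊕ (Fin L ⊕ Fin I)))
        (by simp)) (fun i => χ (x i) (y i))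

lemma ν_walsh_le (K : KNorm β a as L M) (M' I : ℕ) :
    K.ν (fun x y : Fin (M' * (1 + (L + I))) → ZMod 2 => χ x y) ≤
      K.ν (fun x y : Fin M' → R L I => χ x y) := by
  have h := K.pull (MP.equiv (wEquiv M' L I)) (MP.equiv (wEquiv M' L I))
    (fun x y : Fin M' → R L I => χ x y)
  simpa only [χ_wEquiv] using h

/-! ### Choice of `I` -/

lemma exists_I (hβ0 : 0 < β) (hβ1 : β < 1) (L M : ℕ) :
    ∃ I : ℕ, ∀ m : ℕ, m ≤ M →
      2 * 2 ^ L * ((2 + 2 ^ (L + 1) * β ^ I) ^ m - 2 ^ m) ≤ (1 : ℝ) := by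
  have h1 : Filter.Tendsto (fun I : ℕ => β ^ I) Filter.atTop (nhds 0) :=
    tendsto_pow_atTop_nhds_zero_of_lt_one hβ0.le hβ1
  have h2 : ∀ m : ℕ, Filter.Tendsto
      (fun I : ℕ => 2 * 2 ^ L * ((2 + 2 ^ (L + 1) * β ^ I) ^ m - 2 ^ m)) Filter.atTop
      (nhds (2 * 2 ^ L * ((2 + 2 ^ (L + 1) * 0) ^ m - 2 ^ m))) := by
    intro m
    exact (((h1.const_mul _).const_add _).pow m |>.sub_const _).const_mul _
  have h3 : ∀ m : ℕ, ∀ᶠ I : ℕ in Filter.atTop,
      2 * 2 ^ L * ((2 + 2 ^ (L + 1) * β ^ I) ^ m - 2 ^ m) ≤ (1 : ℝ) := by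
    intro m
    have h4 := (h2 m).eventually_lt_const (u := 1) (by norm_num)
    filter_upwards [h4] with I hI using hI.le
  have h5 : ∀ᶠ I : ℕ in Filter.atTop, ∀ m ∈ Finset.range (M + 1),
      2 * 2 ^ L * ((2 + 2 ^ (L + 1) * β ^ I) ^ m - 2 ^ m) ≤ (1 : ℝ) :=
    (Filter.eventually_all_finset _).2 fun m _ => h3 m
  obtain ⟨I, hI⟩ := h5.exists
  exact ⟨I, fun m hm => hI m (Finset.mem_range.2 (Nat.lt_succ_of_le hm))⟩

/-! ### The contradiction -/

lemma final_step (K : KNorm β a as L M) (hβ0 : 0 < β) (hβ1 : β < 1) (hL : 0 < L)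
    (ha : 1000 ≤ a) (hML : 1 / 2 ≤ β ^ (M + L)) (I m : ℕ) (hm1 : 1 ≤ m) (hmM : m ≤ M)
    (hI : 2 * 2 ^ L * ((2 + 2 ^ (L + 1) * β ^ I) ^ m - 2 ^ m) ≤ (1 : ℝ))
    (k : ℝ) (hk : 2 ^ L ≤ k)
    (hT : ∀ i, K.ν (homK (k0 : Pf L I → R L I → ℝ) k1 (Fin m) i) ≤
      (4 * k) ^ i * (β ^ (1 + L + I)) ^ m)
    (hkm : k * (β ^ (1 + L + I)) ^ m ≤ K.ν (homK (k0 : Pf L I → R L I → ℝ) k1 (Fin m) 1)) :
    False := by
  have hk1 : (1 : ℝ) ≤ k := le_trans (one_le_pow₀ (by norm_num)) hk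
  have hk0 : (0 : ℝ) < k := by linarith
  set B : ℝ := (β ^ (1 + L + I)) ^ m with hB
  have hBpos : 0 < B := by positivity
  set τ : ℝ := 1 / (64 * k) with hτ
  have hτ0 : 0 < τ := by positivity
  have hkτ : k * τ = 1 / 64 := by rw [hτ]; field_simp
  have hτ1 : τ ≤ 1 / 64 := by
    rw [hτ]
    apply one_div_le_one_div_of_le (by norm_num)
    linarith
  have hτ1' : τ ≤ 1 := by linarith
  have hne : Nonempty (Fin m) := ⟨⟨0, hm1⟩⟩
  -- kernels
  set V : ℝ → (Fin m → Pf L I) → (Fin m → R L I) → ℝ :=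
    fun s x y => prodK k0 k1 (Fin m) s x y - prodK k0 k1 (Fin m) 0 x y with hV
  -- lower bound
  have hlow : (1 / 128) * B ≤ K.ν (V τ) := by
    have h1 := A2_321.ν_prodK_sub_sub_le K.toPreNorm (k0 : Pf L I → R L I → ℝ) k1 k B hk0.le hBpos.le
      (Fin m) hT τ hτ0.le (by rw [mul_assoc, hkτ]; norm_num)
    have h2 := K.le_add_sub (fun x y => τ * homK (k0 : Pf L I → R L I → ℝ) k1 (Fin m) 1 x y) (V τ)
    have h3 : K.ν (fun x y => τ * homK (k0 : Pf L I → R L I → ℝ) k1 (Fin m) 1 x y - V τ x y) ≤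
        32 * (k * τ) ^ 2 * B := by
      refine le_trans ?_ h1
      have h4 := K.neg_le (fun x y => V τ x y -
        τ * homK (k0 : Pf L I → R L I → ℝ) k1 (Fin m) 1 x y)
      refine le_trans (le_of_eq ?_) h4
      congr 1
      funext x y
      ring
    have h5 : τ * K.ν (homK (k0 : Pf L I → R L I → ℝ) k1 (Fin m) 1) ≤
        K.ν (fun x y => τ * homK (k0 : Pf L I → R L I → ℝ) k1 (Fin m) 1 x y) := by
      have h6 := K.smul_le τ⁻¹
        (fun x y => τ * homK (k0 : Pf L I → R L I → ℝ) k1 (Fin m) 1 x y)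
      have h7 : (fun (x : Fin m → Pf L I) (y : Fin m → R L I) =>
          τ⁻¹ * (τ * homK (k0 : Pf L I → R L I → ℝ) k1 (Fin m) 1 x y)) =
          homK (k0 : Pf L I → R L I → ℝ) k1 (Fin m) 1 := by
        funext x y
        rw [← mul_assoc, inv_mul_cancel₀ hτ0.ne', one_mul]
      rw [h7, abs_of_pos (inv_pos.2 hτ0)] at h6
      calc τ * K.ν (homK (k0 : Pf L I → R L I → ℝ) k1 (Fin m) 1)
          ≤ τ * (τ⁻¹ * K.ν (fun x y => τ * homK (k0 : Pf L I → R L I → ℝ) k1 (Fin m) 1 x y)) :=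
            mul_le_mul_of_nonneg_left h6 hτ0.le
        _ = _ := by rw [← mul_assoc, mul_inv_cancel₀ hτ0.ne', one_mul]
    have h8 : τ * (k * B) ≤ τ * K.ν (homK (k0 : Pf L I → R L I → ℝ) k1 (Fin m) 1) :=
      mul_le_mul_of_nonneg_left hkm hτ0.le
    have h9 : τ * (k * B) = 1 / 64 * B := by rw [← mul_assoc, mul_comm τ k, hkτ]
    have h10 : 32 * (k * τ) ^ 2 * B = 1 / 128 * B := by rw [hkτ]; norm_num
    rw [h10] at h3
    linarith
  -- cotype
  have hcot := ν_cot_step K I (Fin m) (V τ)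
  -- first order pieces
  have hs : ∀ s : ℝ, 0 ≤ s → s ≤ τ → K.ν (V s) ≤ 8 * k * s * B := by
    intro s hs0 hs1
    refine A2_321.ν_prodK_sub_le K.toPreNorm (k0 : Pf L I → R L I → ℝ) k1 k B hk0.le hBpos.le
      (Fin m) hT s hs0 ?_
    have : k * s ≤ k * τ := mul_le_mul_of_nonneg_left hs1 hk0.le
    rw [hkτ] at this
    nlinarith
  -- T-terms
  set W : Finset (Fin L) → (Fin m → Pf L I) → ((Fin L → ZMod 2) × (Fin m → Qg L I)) → ℝ :=
    fun T x y => sgT T y.1 * V (τ ^ T.card) x (fun l => (y.2 l).1 + eT T (y.2 l)) with hW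
  have hsgT : ∀ (T : Finset (Fin L)) (η : Fin L → ZMod 2), |sgT T η| ≤ 1 := by
    intro T η
    unfold sgT
    rw [Finset.abs_prod]
    simp
  have hWle : ∀ T : Finset (Fin L), K.ν (W T) ≤ K.ν (V (τ ^ T.card)) := by
    intro T
    have h1 := K.unim (fun _ => 1) (fun y : (Fin L → ZMod 2) × (Fin m → Qg L I) => sgT T y.1)
      (fun _ => by simp) (fun y => hsgT T y.1)
      (fun (x : Fin m → Pf L I) (y : (Fin L → ZMod 2) × (Fin m → Qg L I)) =>
        V (τ ^ T.card) x (fun l => (y.2 l).1 + eT T (y.2 l)))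
    have h2 := K.pull (MP.id (A := Fin m → Pf L I)) (MP_shift I (Fin m) T) (V (τ ^ T.card))
    refine le_trans (le_of_eq ?_) (h1.trans h2)
    congr 1
    funext x y
    simp only [hW]
    ring
  have hW2 : ∀ T : Finset (Fin L), 2 ≤ T.card → K.ν (W T) ≤ 8 * k * τ ^ 2 * B := by
    intro T hT2
    have h1 : τ ^ T.card ≤ τ ^ 2 := pow_le_pow_of_le_one hτ0.le hτ1' hT2
    have h2 : τ ^ 2 ≤ τ := by nlinarith
    refine (hWle T).trans ((hs _ (by positivity) (h1.trans h2)).trans ?_)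
    gcongr
  -- expansion
  have hexp := A4x570.ν_expand_total K hβ0.le I (Fin m) τ hτ0.le hτ1'
  have herr : 2 * 2 ^ L * (((2 + 2 ^ (L + 1) * β ^ I) ^ Fintype.card (Fin m) -
      2 ^ Fintype.card (Fin m)) * β ^ ((1 + L + I) * Fintype.card (Fin m))) ≤ B := by
    rw [Fintype.card_fin, ← mul_assoc, pow_mul]
    calc _ ≤ 1 * B := mul_le_mul_of_nonneg_right hI hBpos.le
      _ = B := one_mul _
  set Er : (Fin m → Pf L I) → ((Fin L → ZMod 2) × (Fin m → Qg L I)) → ℝ :=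
    fun x y => (resK (Fin m) τ x y - resK (Fin m) 0 x y)
      - ∑ T ∈ (univ : Finset (Finset (Fin L))).erase ∅, W T x y with hEr
  have hErle : K.ν Er ≤ B := by
    refine le_trans (le_of_eq ?_) (hexp.trans herr)
    rfl
  -- resonance kernels
  have hres : ∀ s : ℝ, 0 ≤ s → s ≤ 1 → K.ν (resK (L := L) (I := I) (Fin m) s) ≤ 2 * B := by
    intro s hs0 hs1
    have h1 := A3_253.ν_resK K I (Fin m) s hs0 hs1
    rw [Fintype.card_fin] at h1
    refine h1.trans ?_
    have hexp' : (L + I) * (m - 1) + I + (m + L) = (1 + L + I) * m := by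
      obtain ⟨m', rfl⟩ : ∃ m', m = m' + 1 := ⟨m - 1, by omega⟩
      simp only [Nat.add_sub_cancel]
      ring
    have h2 : β ^ ((L + I) * (m - 1) + I) * β ^ (m + L) = B := by
      rw [← pow_add, hexp', hB, pow_mul]
    have h3 : 1 / 2 ≤ β ^ (m + L) :=
      hML.trans (pow_le_pow_of_le_one hβ0.le hβ1.le (by omega))
    have h4 : 0 ≤ β ^ ((L + I) * (m - 1) + I) := by positivity
    nlinarith
  -- decomposition of the cotype sum
  have hS : (fun (x : Fin m → Pf L I) (y : (Fin L → ZMod 2) × (Fin m → Qg L I)) =>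
      ∑ j, sg (y.1 j) * V τ x (fun l => (y.2 l).1 + evec j ((y.2 l).2 j))) =
      fun x y => ((resK (Fin m) τ x y - resK (Fin m) 0 x y) - Er x y) -
        ∑ T ∈ ((univ : Finset (Finset (Fin L))).erase ∅).filter (fun T => 2 ≤ T.card),
          W T x y := by
    funext x y
    have h1 : ∑ T ∈ (univ : Finset (Finset (Fin L))).erase ∅, W T x y =
        ∑ T ∈ ((univ : Finset (Finset (Fin L))).erase ∅).filter (fun T => 2 ≤ T.card), W T x y +
        ∑ T ∈ ((univ : Finset (Finset (Fin L))).erase ∅).filter (fun T => ¬ 2 ≤ T.card),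
          W T x y := (Finset.sum_filter_add_sum_filter_not _ _ _).symm
    have h2 : ((univ : Finset (Finset (Fin L))).erase ∅).filter (fun T => ¬ 2 ≤ T.card) =
        (univ : Finset (Fin L)).map ⟨fun j => {j}, fun a b h => by simpa using h⟩ := by
      ext T
      simp only [Finset.mem_filter, Finset.mem_erase, Finset.mem_univ, and_true, Finset.mem_map,
        true_and, Function.Embedding.coeFn_mk]
      constructor
      · rintro ⟨h3, h4⟩
        have h5 : 0 < T.card := Finset.card_pos.2 (Finset.nonempty_iff_ne_empty.2 h3)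
        have h6 : T.card = 1 := by omega
        obtain ⟨j, hj⟩ := Finset.card_eq_one.1 h6
        exact ⟨j, hj.symm⟩
      · rintro ⟨j, rfl⟩
        simp
    have h3 : ∑ T ∈ ((univ : Finset (Finset (Fin L))).erase ∅).filter (fun T => ¬ 2 ≤ T.card),
        W T x y = ∑ j, sg (y.1 j) * V τ x (fun l => (y.2 l).1 + evec j ((y.2 l).2 j)) := by
      rw [h2, Finset.sum_map]
      refine Finset.sum_congr rfl fun j _ => ?_
      simp [hW, sgT, eT_singleton]
    simp only [hEr]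
    rw [h1, h3]
    ring
  have hcard : (((univ : Finset (Finset (Fin L))).erase ∅).filter
      (fun T => 2 ≤ T.card)).card ≤ 2 ^ L := by
    refine (Finset.card_le_univ _).trans ?_
    simp
  have hsum2 : K.ν (fun (x : Fin m → Pf L I) (y : (Fin L → ZMod 2) × (Fin m → Qg L I)) =>
      ∑ T ∈ ((univ : Finset (Finset (Fin L))).erase ∅).filter (fun T => 2 ≤ T.card),
          W T x y) ≤ 2 ^ L * (8 * k * τ ^ 2 * B) := by
    refine (K.sum_le _ W).trans ?_
    calc ∑ T ∈ ((univ : Finset (Finset (Fin L))).erase ∅).filter (fun T => 2 ≤ T.card), K.ν (W T)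
        ≤ ∑ T ∈ ((univ : Finset (Finset (Fin L))).erase ∅).filter (fun T => 2 ≤ T.card),
            (8 * k * τ ^ 2 * B) :=
          Finset.sum_le_sum fun T hT => hW2 T (Finset.mem_filter.1 hT).2
      _ = ((((univ : Finset (Finset (Fin L))).erase ∅).filter
            (fun T => 2 ≤ T.card)).card : ℝ) * (8 * k * τ ^ 2 * B) := by
          rw [Finset.sum_const, nsmul_eq_mul]
      _ ≤ 2 ^ L * (8 * k * τ ^ 2 * B) := by
          gcongr
          exact_mod_cast hcard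
  have hup : K.ν (fun (x : Fin m → Pf L I) (y : (Fin L → ZMod 2) × (Fin m → Qg L I)) =>
      ∑ j, sg (y.1 j) * V τ x (fun l => (y.2 l).1 + evec j ((y.2 l).2 j))) ≤ 6 * B := by
    rw [hS]
    have h1 := K.sub_le (fun (x : Fin m → Pf L I) (y : (Fin L → ZMod 2) × (Fin m → Qg L I)) =>
      (resK (Fin m) τ x y - resK (Fin m) 0 x y) - Er x y)
      (fun x y => ∑ T ∈ ((univ : Finset (Finset (Fin L))).erase ∅).filter
        (fun T => 2 ≤ T.card), W T x y)
    have h2 := K.sub_le (fun (x : Fin m → Pf L I) (y : (Fin L → ZMod 2) × (Fin m → Qg L I)) =>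
      resK (Fin m) τ x y - resK (Fin m) 0 x y) Er
    have h3 := K.sub_le (resK (L := L) (I := I) (Fin m) τ) (resK (L := L) (I := I) (Fin m) 0)
    have h4 := hres τ hτ0.le hτ1'
    have h5 := hres 0 le_rfl zero_le_one
    have h6 : 2 ^ L * (8 * k * τ ^ 2 * B) ≤ B := by
      have h7 : 2 ^ L * (8 * k * τ ^ 2 * B) = 8 * (2 ^ L * τ) * (k * τ) * B := by ring
      have h8 : 2 ^ L * τ ≤ 1 / 64 := by
        rw [← hkτ]
        exact mul_le_mul_of_nonneg_right hk hτ0.le
      rw [h7, hkτ]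
      have h9 : 8 * (2 ^ L * τ) * (1 / 64) ≤ 1 := by linarith
      calc _ ≤ 1 * B := mul_le_mul_of_nonneg_right h9 hBpos.le
        _ = B := one_mul _
    linarith
  have hfin := hcot.trans hup
  have h1 : 1000 * (1 / 128 * B) ≤ a * K.ν (V τ) :=
    mul_le_mul ha hlow (by positivity) (by linarith)
  nlinarith

/-- **Theorem A**, uniform in the norm -/
theorem thmA_uniform (β a as : ℝ) (L M : ℕ) (hβ0 : 0 < β) (hβ1 : β < 1) (hL : 0 < L)
    (_hM : 0 < M) (ha : 1000 ≤ a) (has : 2 ^ (L + 1) ≤ as) (hML : 1 / 2 ≤ β ^ (M + L)) :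
    ∃ n0 : ℕ, ∀ K : KNorm β a as L M,
      K.ν (fun x y : Fin n0 → ZMod 2 => χ x y) ≤ 1 / 2 * β ^ n0 := by
  obtain ⟨I, hI⟩ := exists_I hβ0 hβ1 L M
  refine ⟨M * (1 + (L + I)), fun K => ?_⟩
  by_contra hcon
  push Not at hcon
  set b : ℝ := β ^ (1 + L + I) with hb
  have hb0 : 0 < b := by positivity
  set g : ℕ → ℝ := fun m => K.ν (homK (k0 : Pf L I → R L I → ℝ) k1 (Fin m) 1) / b ^ m with hg
  obtain ⟨m, hm, hmax⟩ := Finset.exists_max_image (Finset.range (M + 1)) g ⟨0, by simp⟩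
  set k : ℝ := g m with hk
  have hmM : m ≤ M := Nat.lt_succ_iff.1 (Finset.mem_range.1 hm)
  have hkm : ∀ m', m' ≤ M → K.ν (homK (k0 : Pf L I → R L I → ℝ) k1 (Fin m') 1) ≤ k * b ^ m' := by
    intro m' hm'
    have h1 := hmax m' (Finset.mem_range.2 (Nat.lt_succ_of_le hm'))
    rw [hg] at h1
    simp only at h1
    rwa [div_le_iff₀ (by positivity)] at h1
  have hk0 : 0 ≤ k := div_nonneg (K.nonneg _) (by positivity)
  -- lower bound for k
  have hkL : 2 ^ L ≤ k := by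
    have h1 := A2_321.ν_lift K I
    have h2 := hcon
    have h3 := ν_walsh_le K M I
    have h4 := hkm M le_rfl
    have h5 : b ^ M = β ^ (M * (1 + (L + I))) := by
      rw [hb, ← pow_mul]
      congr 1
      ring
    have hpos : 0 < β ^ (M * (1 + (L + I))) := by positivity
    have h6 : as * (1 / 2 * b ^ M) ≤ k * b ^ M := by
      rw [h5] at h4 ⊢
      have has0 : 0 ≤ as := le_trans (by positivity) has
      calc as * (1 / 2 * β ^ (M * (1 + (L + I))))
          ≤ as * K.ν (fun x y : Fin M → R L I => χ x y) :=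
            mul_le_mul_of_nonneg_left (h2.le.trans h3) has0
        _ ≤ _ := h1.trans h4
    have h7 : as / 2 ≤ k := by
      have h8 : 0 < b ^ M := by positivity
      have h9 : (as / 2) * b ^ M ≤ k * b ^ M := by linarith
      exact le_of_mul_le_mul_right h9 h8
    have h10 : (2 : ℝ) ^ (L + 1) = 2 * 2 ^ L := by ring
    rw [h10] at has
    linarith
  have hkpos : 0 < k := lt_of_lt_of_le (by positivity) hkL
  have hm1 : 1 ≤ m := by
    by_contra h0
    have h0' : m = 0 := by omega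
    have h1 : K.ν (homK (k0 : Pf L I → R L I → ℝ) k1 (Fin 0) 1) = 0 := by
      have h2 : homK (k0 : Pf L I → R L I → ℝ) k1 (Fin 0) 1 = fun _ _ => 0 := by
        funext x y
        have h3 : (univ : Finset (Fin 0)).powersetCard 1 = ∅ :=
          Finset.powersetCard_eq_empty.2 (by simp)
        unfold homK hom
        rw [h3, Finset.sum_empty]
      rw [h2, K.zero]
    have h3 : k = 0 := by
      rw [hk, hg, h0']
      simp [h1]
    linarith
  -- Lemma T
  have hT : ∀ i, K.ν (homK (k0 : Pf L I → R L I → ℝ) k1 (Fin m) i) ≤ (4 * k) ^ i * b ^ m := by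
    intro i
    have h := A1_523.lemmaT K.toPreNorm (k0 : Pf L I → R L I → ℝ) k1 M k b hk0 hb0.le ?_ ?_ (Fin m)
      (by simpa using hmM) i
    · simpa using h
    · intro ι _ _ _
      have h1 := A0_785.ν_prod_pi K ι (fun _ => (k0 : Pf L I → R L I → ℝ))
      have h2 : homK (k0 : Pf L I → R L I → ℝ) k1 ι 0 =
          fun (x : ι → Pf L I) (y : ι → R L I) => ∏ l, k0 (x l) (y l) := by
        funext x y
        exact homK_zero _ _ _ _ _
      rw [h2]
      refine h1.trans ?_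
      rw [Finset.prod_const, Finset.card_univ]
      exact pow_le_pow_left₀ (K.nonneg _) (A0_785.ν_k0 K I) _
    · intro ι ι' _ _ _ _ i hcard
      have h1 := K.tensor (homK (k0 : Pf L I → R L I → ℝ) k1 ι 1)
        (homK (k0 : Pf L I → R L I → ℝ) k1 ι' i)
      refine h1.trans ?_
      have h2 := ν_homK_card K.toPreNorm (k0 : Pf L I → R L I → ℝ) k1 ι 1
      have h3 := hkm (Fintype.card ι) (by omega)
      exact mul_le_mul_of_nonneg_right (h2.trans h3) (K.nonneg _)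
  refine final_step K hβ0 hβ1 hL ha hML I m hm1 hmM (hI m hmM) k hkL hT ?_
  have h1 : k * b ^ m = K.ν (homK (k0 : Pf L I → R L I → ℝ) k1 (Fin m) 1) := by
    rw [hk, hg]
    field_simp
  exact h1.le

end Crest.Agent.R118.A5_862
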