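import Crest.Prelude.Def_Rademacher

/-!
# The approximation property and boundedly closed classes (helper707)

`ap_ks`: if `X` has the approximation property and `K` is a class of bilinear forms on `X × X*`
(as functions `X → X* → ℝ`), homogeneous in the first variable, whose bounded parts are closed for
pointwise convergence, and containing all finite rank operators `X → X`, then `K` contains the
identity.
-/

set_option autoImplicit false

open Crest.AnalysisR

namespace Crest.Agent.R118.APKS707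

variable {X : Type*} [NormedAddCommGroup X] [NormedSpace ℝ X]

/-- The bounded part of a class of forms. -/
def bdd (K : Set (X → StrongDual ℝ X → ℝ)) (t : ℝ) : Set (X → StrongDual ℝ X → ℝ) :=
  {β | β ∈ K ∧ ∀ x ξ, |β x ξ| ≤ t * ‖x‖ * ‖ξ‖}

/-- The forms which are within `1` of the identity on the tests of `G`. -/
def near (G : Set (X × StrongDual ℝ X)) : Set (X → StrongDual ℝ X → ℝ) :=
  {β | ∀ p ∈ G, |β p.1 p.2 - p.2 p.1| ≤ 1}

theorem isCompact_box (t : ℝ) :
    IsCompact {β : X → StrongDual ℝ X → ℝ | ∀ x ξ, |β x ξ| ≤ t * ‖x‖ * ‖ξ‖} := by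
  have h1 : IsCompact (Set.univ.pi fun x : X => Set.univ.pi fun ξ : StrongDual ℝ X =>
      Set.Icc (-(t * ‖x‖ * ‖ξ‖)) (t * ‖x‖ * ‖ξ‖)) :=
    isCompact_univ_pi fun x => isCompact_univ_pi fun ξ => isCompact_Icc
  convert h1 using 1
  ext β
  simp only [Set.mem_ofPred_eq, Set.mem_pi, Set.mem_univ, true_implies, Set.mem_Icc, abs_le]

theorem isCompact_bdd {K : Set (X → StrongDual ℝ X → ℝ)} {t : ℝ} (hcl : IsClosed (bdd K t)) :
    IsCompact (bdd K t) :=
  (isCompact_box t).of_isClosed_subset hcl fun _ h => h.2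

theorem isClosed_near1 (p : X × StrongDual ℝ X) :
    IsClosed {β : X → StrongDual ℝ X → ℝ | |β p.1 p.2 - p.2 p.1| ≤ 1} := by
  apply isClosed_le _ continuous_const
  exact ((continuous_apply_apply p.1 p.2).sub continuous_const).abs

theorem near_union (G H : Set (X × StrongDual ℝ X)) : near (G ∪ H) = near G ∩ near H := by
  ext β
  constructor
  · intro h
    exact ⟨fun p hp => h p (Or.inl hp), fun p hp => h p (Or.inr hp)⟩
  · rintro ⟨h1, h2⟩ p (hp | hp)
    · exact h1 p hp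
    · exact h2 p hp

/-- Compactness: if a compact class misses `near G ∩ near B`, it misses `near G ∩ near F` for a
finite `F ⊆ B`. -/
theorem exists_finite {C : Set (X → StrongDual ℝ X → ℝ)} (hC : IsCompact C)
    (G B : Set (X × StrongDual ℝ X)) (hGc : IsClosed (near G))
    (h : C ∩ near G ∩ near B = ∅) :
    ∃ F : Finset (X × StrongDual ℝ X), (F : Set (X × StrongDual ℝ X)) ⊆ B ∧
      C ∩ near G ∩ near (F : Set (X × StrongDual ℝ X)) = ∅ := by
  have hC' : IsCompact (C ∩ near G) := hC.inter_right hGc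
  have h' : (C ∩ near G) ∩ ⋂ p : B, {β : X → StrongDual ℝ X → ℝ |
      |β p.1.1 p.1.2 - p.1.2 p.1.1| ≤ 1} = ∅ := by
    rw [← h]
    ext β
    simp only [Set.mem_inter_iff, Set.mem_iInter, Set.mem_ofPred_eq, near, Subtype.forall]
  obtain ⟨u, hu⟩ := hC'.elim_finite_subfamily_closed
    (fun p : B => {β : X → StrongDual ℝ X → ℝ | |β p.1.1 p.1.2 - p.1.2 p.1.1| ≤ 1})
    (fun p => isClosed_near1 p.1) h'
  classical
  refine ⟨u.image Subtype.val, ?_, ?_⟩
  · intro p hp
    simp only [Finset.coe_image, Set.mem_image, Finset.mem_coe] at hp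
    obtain ⟨q, _, rfl⟩ := hp
    exact q.2
  · rw [← hu]
    ext β
    simp only [Set.mem_inter_iff, Set.mem_iInter, Set.mem_ofPred_eq, near, Finset.coe_image,
      Set.mem_image, Finset.mem_coe, forall_exists_index, and_imp]
    constructor
    · rintro ⟨h1, h2⟩
      exact ⟨h1, fun q hq => h2 q.1 q hq rfl⟩
    · rintro ⟨h1, h2⟩
      refine ⟨h1, ?_⟩
      rintro p q hq rfl
      exact h2 q hq

theorem isClosed_near (G : Set (X × StrongDual ℝ X)) : IsClosed (near G) := by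
  have : near G = ⋂ p ∈ G, {β : X → StrongDual ℝ X → ℝ | |β p.1 p.2 - p.2 p.1| ≤ 1} := by
    ext β
    simp [near]
  rw [this]
  exact isClosed_biInter fun p _ => isClosed_near1 p

/-- The step: extend the finite set of tests. -/
theorem step {K : Set (X → StrongDual ℝ X → ℝ)}
    (hhom : ∀ β ∈ K, ∀ (c : ℝ) x ξ, β (c • x) ξ = c * β x ξ)
    (hhom' : ∀ β ∈ K, ∀ (c : ℝ) x ξ, β x (c • ξ) = c * β x ξ)
    (hcl : ∀ t : ℝ, IsClosed (bdd K t)) (k : ℕ) (G : Finset (X × StrongDual ℝ X))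
    (hG : bdd K (k + 2) ∩ near (G : Set (X × StrongDual ℝ X)) = ∅) :
    ∃ F : Finset (X × StrongDual ℝ X),
      (∀ p ∈ F, ‖p.1‖ ≤ 1 / (k + 1 : ℝ) ∧ ‖p.2‖ ≤ 1) ∧
      bdd K (k + 1 + 2) ∩ near (G ∪ F : Set (X × StrongDual ℝ X)) = ∅ := by
  have h0 : bdd K (k + 1 + 2) ∩ near (G : Set (X × StrongDual ℝ X)) ∩
      near {p : X × StrongDual ℝ X | ‖p.1‖ ≤ 1 / (k + 1 : ℝ) ∧ ‖p.2‖ ≤ 1} = ∅ := by
    apply Set.eq_empty_of_forall_notMem
    rintro β ⟨⟨⟨hβ, _⟩, hβG⟩, hβB⟩
    have hmem : β ∈ bdd K (k + 2) ∩ near (G : Set (X × StrongDual ℝ X)) := by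
      refine ⟨⟨hβ, ?_⟩, hβG⟩
      intro x ξ
      have hk : (0 : ℝ) < k + 1 := by positivity
      rcases eq_or_ne x 0 with rfl | hx
      · have := hhom β hβ 0 0 ξ
        simp only [smul_zero, zero_mul] at this
        rw [this]; simp
      rcases eq_or_ne ξ 0 with rfl | hξ
      · have := hhom' β hβ 0 x 0
        simp only [smul_zero, zero_mul] at this
        rw [this]; simp
      have hxn : 0 < ‖x‖ := norm_pos_iff.mpr hx
      have hξn : 0 < ‖ξ‖ := norm_pos_iff.mpr hξ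
      have h1 := hβB ⟨(1 / ((k + 1) * ‖x‖)) • x, (1 / ‖ξ‖) • ξ⟩ (by
        constructor
        · simp only [norm_smul, norm_div, norm_one, norm_mul, Real.norm_eq_abs, abs_norm]
          rw [abs_of_pos hk]
          apply le_of_eq
          field_simp
        · simp only [norm_smul, norm_div, norm_one, norm_norm]
          apply le_of_eq
          field_simp)
      simp only at h1
      rw [hhom β hβ, hhom' β hβ] at h1
      simp only [map_smul, smul_apply, smul_eq_mul] at h1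
      have h2 : |β x ξ - ξ x| ≤ (k + 1) * ‖x‖ * ‖ξ‖ := by
        have e : 1 / ((k + 1) * ‖x‖) * (1 / ‖ξ‖ * β x ξ) -
            1 / ((k + 1) * ‖x‖) * (1 / ‖ξ‖ * ξ x) = (β x ξ - ξ x) / ((k + 1) * ‖x‖ * ‖ξ‖) := by
          field_simp
        rw [e, abs_div, abs_of_pos (by positivity : (0 : ℝ) < (k + 1) * ‖x‖ * ‖ξ‖),
          div_le_one (by positivity)] at h1
        exact h1
      have h3 : |ξ x| ≤ ‖ξ‖ * ‖x‖ := ξ.le_opNorm x
      calc |β x ξ| = |(β x ξ - ξ x) + ξ x| := by ring_nf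
        _ ≤ |β x ξ - ξ x| + |ξ x| := abs_add_le _ _
        _ ≤ (k + 1) * ‖x‖ * ‖ξ‖ + ‖ξ‖ * ‖x‖ := add_le_add h2 h3
        _ = (k + 2) * ‖x‖ * ‖ξ‖ := by ring
    rw [hG] at hmem
    exact hmem
  obtain ⟨F, hF, hF'⟩ := exists_finite (isCompact_bdd (hcl _)) _ _ (isClosed_near _) h0
  refine ⟨F, fun p hp => hF hp, ?_⟩
  rw [near_union, ← Set.inter_assoc]
  exact hF'

omit [NormedSpace ℝ X] in
/-- A set containing `0` and having finitely many points outside every ball is compact. -/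
theorem isCompact_of_finite_outside {M : Set X} (h0 : (0 : X) ∈ M)
    (h : ∀ ε : ℝ, 0 < ε → {x | x ∈ M ∧ ¬ ‖x‖ < ε}.Finite) : IsCompact M := by
  rw [isCompact_iff_ultrafilter_le_nhds]
  intro f hf
  have hMf : M ∈ f := by simpa using hf
  by_cases hz : ∀ ε : ℝ, 0 < ε → {x : X | ‖x‖ < ε} ∈ f
  · refine ⟨0, h0, ?_⟩
    intro s hs
    obtain ⟨ε, hε, hs'⟩ := Metric.mem_nhds_iff.mp hs
    refine Filter.mem_of_superset (hz ε hε) (Set.Subset.trans ?_ hs')
    intro x hx
    simpa [Metric.mem_ball, dist_zero_right] using hx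
  · push Not at hz
    obtain ⟨ε, hε, hz⟩ := hz
    have h1 : {x | x ∈ M ∧ ¬ ‖x‖ < ε} ∈ f := by
      have h2 : {x : X | ‖x‖ < ε}ᶜ ∈ f := by
        rwa [Ultrafilter.compl_mem_iff_notMem]
      exact Filter.inter_mem hMf h2
    obtain ⟨x, hx, hfx⟩ := Ultrafilter.eq_pure_of_finite_mem (h ε hε) h1
    refine ⟨x, hx.1, ?_⟩
    rw [hfx]
    exact pure_le_nhds x

/-- Boundedly closed classes of forms containing the finite rank operators contain the identity,
if `X` has the approximation property. -/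
theorem ap_ks (hAP : HasApproximationProperty X) (K : Set (X → StrongDual ℝ X → ℝ))
    (hhom : ∀ β ∈ K, ∀ (c : ℝ) x ξ, β (c • x) ξ = c * β x ξ)
    (hhom' : ∀ β ∈ K, ∀ (c : ℝ) x ξ, β x (c • ξ) = c * β x ξ)
    (hcl : ∀ t : ℝ, IsClosed {β | β ∈ K ∧ ∀ x ξ, |β x ξ| ≤ t * ‖x‖ * ‖ξ‖})
    (hfr : ∀ S : X →L[ℝ] X, FiniteDimensional ℝ (LinearMap.range (S : X →ₗ[ℝ] X)) →
      (fun x ξ => ξ (S x)) ∈ K) :
    (fun x ξ => ξ x) ∈ K := by
  by_contra hid
  have hcl' : ∀ t : ℝ, IsClosed (bdd K t) := hcl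
  -- initial finite set
  obtain ⟨G₀, hG₀⟩ : ∃ G₀ : Finset (X × StrongDual ℝ X),
      bdd K ((0 : ℕ) + 2) ∩ near (G₀ : Set (X × StrongDual ℝ X)) = ∅ := by
    have h0 : bdd K ((0 : ℕ) + 2) ∩ near (∅ : Set (X × StrongDual ℝ X)) ∩
        near (Set.univ : Set (X × StrongDual ℝ X)) = ∅ := by
      apply Set.eq_empty_of_forall_notMem
      rintro β ⟨⟨⟨hβ, _⟩, _⟩, hβB⟩
      apply hid
      have : β = fun x ξ => ξ x := by
        funext x ξ
        by_contra hne
        have hpos : 0 < |β x ξ - ξ x| := abs_pos.mpr (sub_ne_zero.mpr hne)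
        have h1 := hβB ⟨(2 / |β x ξ - ξ x|) • x, ξ⟩ (Set.mem_univ _)
        simp only at h1
        rw [hhom β hβ] at h1
        simp only [map_smul, smul_eq_mul] at h1
        rw [← mul_sub, abs_mul, abs_div, abs_abs, div_mul_cancel₀ _ hpos.ne'] at h1
        norm_num at h1
      rw [← this]
      exact hβ
    obtain ⟨F, _, hF⟩ := exists_finite (isCompact_bdd (hcl' _)) _ _ (isClosed_near _) h0
    refine ⟨F, ?_⟩
    rw [← hF]
    ext β
    simp [near]
  -- recursion
  have hrec : ∀ (k : ℕ) (G : {G : Finset (X × StrongDual ℝ X) //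
      bdd K (k + 2) ∩ near (G : Set (X × StrongDual ℝ X)) = ∅}),
      ∃ G' : {G : Finset (X × StrongDual ℝ X) //
        bdd K ((k + 1 : ℕ) + 2) ∩ near (G : Set (X × StrongDual ℝ X)) = ∅},
        ∀ p ∈ G'.1, p ∈ G.1 ∨ (‖p.1‖ ≤ 1 / (k + 1 : ℝ) ∧ ‖p.2‖ ≤ 1) := by
    rintro k ⟨G, hG⟩
    classical
    obtain ⟨F, hF1, hF2⟩ := step hhom hhom' hcl' k G hG
    refine ⟨⟨G ∪ F, ?_⟩, ?_⟩
    · push_cast
      exact hF2
    · intro p hp
      rcases Finset.mem_union.mp hp with hp | hp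
      · exact Or.inl hp
      · exact Or.inr (hF1 p hp)
  choose nxt hnxt using hrec
  let Gs : ∀ k : ℕ, {G : Finset (X × StrongDual ℝ X) //
      bdd K (k + 2) ∩ near (G : Set (X × StrongDual ℝ X)) = ∅} :=
    fun k => Nat.rec ⟨G₀, hG₀⟩ (fun k G => nxt k G) k
  have hGs0 : (Gs 0).1 = G₀ := rfl
  have hGss : ∀ k, Gs (k + 1) = nxt k (Gs k) := fun k => rfl
  have hmem : ∀ k, ∀ p ∈ (Gs k).1, p ∈ G₀ ∨ ‖p.2‖ ≤ 1 := by
    intro k
    induction k with
    | zero => intro p hp; exact Or.inl hp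
    | succ k ih =>
      intro p hp
      rw [hGss] at hp
      rcases hnxt k (Gs k) p hp with h | h
      · exact ih p h
      · exact Or.inr h.2
  have htail : ∀ k : ℕ, ∀ j ≥ k, ∀ p ∈ (Gs j).1, p ∈ (Gs k).1 ∨ ‖p.1‖ ≤ 1 / (k + 1 : ℝ) := by
    intro k j hj
    induction j, hj using Nat.le_induction with
    | base => intro p hp; exact Or.inl hp
    | succ j hj ih =>
      intro p hp
      rw [hGss] at hp
      rcases hnxt j (Gs j) p hp with h | h
      · exact ih p h
      · right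
        refine h.1.trans ?_
        have : (k : ℝ) ≤ j := by exact_mod_cast hj
        gcongr
  -- the compact set
  let M : Set X := {x | x = 0 ∨ ∃ k, ∃ p ∈ (Gs k).1, p.1 = x}
  have hMc : IsCompact M := by
    apply isCompact_of_finite_outside
    · exact Or.inl rfl
    · intro ε hε
      obtain ⟨k, hk⟩ := exists_nat_one_div_lt hε
      classical
      refine Set.Finite.subset
        (((Finset.range (k + 1)).biUnion fun j => (Gs j).1.image Prod.fst).finite_toSet) ?_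
      rintro x ⟨hx, hxε⟩
      rcases hx with rfl | ⟨j, p, hp, rfl⟩
      · exfalso
        simp only [norm_zero, not_lt] at hxε
        linarith
      · rw [Finset.coe_biUnion]
        simp only [Set.mem_iUnion, Finset.mem_coe, Finset.mem_image, Finset.mem_range]
        rcases le_or_gt k j with hkj | hkj
        · rcases htail k j hkj p hp with h | h
          · exact ⟨k, by omega, p, h, rfl⟩
          · exact absurd (h.trans_lt hk) hxε
        · exact ⟨j, by omega, p, hp, rfl⟩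
  -- the bound for the functionals
  set C₀ : ℝ := 1 + ∑ p ∈ G₀, ‖p.2‖ with hC₀
  have hC₀1 : 1 ≤ C₀ := by
    have : 0 ≤ ∑ p ∈ G₀, ‖p.2‖ := Finset.sum_nonneg fun _ _ => norm_nonneg _
    linarith
  have hbd : ∀ k, ∀ p ∈ (Gs k).1, ‖p.2‖ ≤ C₀ := by
    intro k p hp
    rcases hmem k p hp with h | h
    · have := Finset.single_le_sum (f := fun p : X × StrongDual ℝ X => ‖p.2‖)
        (fun _ _ => norm_nonneg _) h
      linarith
    · linarith
  obtain ⟨S, hS, hSM⟩ := hAP M hMc (1 / C₀) (by positivity)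
  obtain ⟨k, hk⟩ := exists_nat_ge ‖S‖
  have hcontra : (fun (x : X) (ξ : StrongDual ℝ X) => ξ (S x)) ∈
      bdd K (k + 2) ∩ near ((Gs k).1 : Set (X × StrongDual ℝ X)) := by
    refine ⟨⟨hfr S hS, ?_⟩, ?_⟩
    · intro x ξ
      calc |ξ (S x)| ≤ ‖ξ‖ * ‖S x‖ := ξ.le_opNorm _
        _ ≤ ‖ξ‖ * (‖S‖ * ‖x‖) := by gcongr; exact S.le_opNorm x
        _ ≤ ‖ξ‖ * ((k + 2) * ‖x‖) := by gcongr; linarith
        _ = (k + 2) * ‖x‖ * ‖ξ‖ := by ring
    · intro p hp
      have hxM : p.1 ∈ M := Or.inr ⟨k, p, hp, rfl⟩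
      have h1 := (hSM p.1 hxM).le
      have h2 : ‖p.2‖ ≤ C₀ := hbd k p hp
      simp only
      rw [← map_sub]
      calc |p.2 (S p.1 - p.1)| ≤ ‖p.2‖ * ‖S p.1 - p.1‖ := p.2.le_opNorm _
        _ ≤ C₀ * (1 / C₀) := by gcongr
        _ = 1 := by field_simp
  rw [(Gs k).2] at hcontra
  exact hcontra

end Crest.Agent.R118.APKS707
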