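import Crest.Agent.R118.Lift_361

/-!
Row 118 (S0158). Theorem C: reduction of the K-convexity of a Banach space with the approximation
property to finite rank operators `T : Z → X`, where `Z` has the fixed-size quadratic lifting
property.
-/

set_option autoImplicit false
open scoped BigOperators
open Crest.AnalysisR

namespace Crest.Agent.R118.APRed485

open Lift361

universe u

/-! ### finite polytopes approximate the unit ball -/

theorem exists_polytope (V : Type*) [NormedAddCommGroup V] [NormedSpace ℝ V]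
    [FiniteDimensional ℝ V] (δ : ℝ) (hδ : 0 < δ) :
    ∃ P : Finset V, (∀ p ∈ P, ‖p‖ ≤ 1) ∧
      ∀ v : V, ‖v‖ ≤ 1 → (1 + δ)⁻¹ • v ∈ convexHull ℝ (P : Set V) := by
  classical
  have : ProperSpace V := FiniteDimensional.proper ℝ V
  have hc : IsCompact (Metric.closedBall (0 : V) 1) := isCompact_closedBall _ _
  set ε : ℝ := δ / (1 + δ) with hε
  have h1δ : 0 < 1 + δ := by linarith
  have hε0 : 0 < ε := by positivity
  have hε1 : 1 - ε = (1 + δ)⁻¹ := by
    rw [hε]; field_simp; ring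
  obtain ⟨t, hts, htf, htc⟩ := hc.finite_cover_balls hε0
  refine ⟨htf.toFinset, ?_, ?_⟩
  · intro p hp
    have := hts (htf.mem_toFinset.1 hp)
    simpa using this
  · intro v hv
    rw [Set.Finite.coe_toFinset]
    by_contra hcon
    have hclosed : IsClosed (convexHull ℝ t) := (htf.isCompact_convexHull (𝕜 := ℝ)).isClosed
    obtain ⟨f, u, hf1, hf2⟩ :=
      geometric_hahn_banach_closed_point (convex_convexHull ℝ t) hclosed hcon
    have hball : ∀ b : V, ‖b‖ ≤ 1 → f b ≤ u + ‖f‖ * ε := by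
      intro b hb
      have hb' : b ∈ Metric.closedBall (0 : V) 1 := by simpa using hb
      have := htc hb'
      simp only [Set.mem_iUnion, Metric.mem_ball, exists_prop] at this
      obtain ⟨n, hn, hbn⟩ := this
      have h1 : f n < u := hf1 n (subset_convexHull ℝ t hn)
      have h2 : f (b - n) ≤ ‖f‖ * ε := by
        calc f (b - n) ≤ ‖f (b - n)‖ := le_abs_self _
          _ ≤ ‖f‖ * ‖b - n‖ := f.le_opNorm _
          _ ≤ ‖f‖ * ε := by
              apply mul_le_mul_of_nonneg_left _ (norm_nonneg _)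
              rw [← dist_eq_norm]; exact hbn.le
      have h3 : f b = f n + f (b - n) := by rw [← map_add]; congr 1; abel
      linarith
    have hC0 : 0 ≤ u + ‖f‖ * ε := by
      have := hball 0 (by simp)
      simpa using this
    have hn : ‖f‖ ≤ u + ‖f‖ * ε := by
      apply ContinuousLinearMap.opNorm_le_of_unit_norm hC0
      intro x hx
      rw [Real.norm_eq_abs, abs_le]
      constructor
      · have := hball (-x) (by rw [norm_neg, hx])
        rw [map_neg] at this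
        linarith
      · exact hball x hx.le
    have h4 : f ((1 + δ)⁻¹ • v) ≤ (1 + δ)⁻¹ * ‖f‖ := by
      rw [map_smul, smul_eq_mul]
      apply mul_le_mul_of_nonneg_left _ (by positivity)
      calc f v ≤ ‖f v‖ := le_abs_self _
        _ ≤ ‖f‖ * ‖v‖ := f.le_opNorm _
        _ ≤ ‖f‖ * 1 := by gcongr
        _ = ‖f‖ := mul_one _
    have h5 : (1 + δ)⁻¹ * ‖f‖ = ‖f‖ - ‖f‖ * ε := by rw [← hε1]; ring
    linarith

/-- Jensen for the squared norm of a convex combination. -/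
theorem norm_sum_sq_le {ι V : Type*} [NormedAddCommGroup V] [NormedSpace ℝ V] (s : Finset ι)
    (w : ι → ℝ) (x : ι → V) (hw : ∀ i ∈ s, 0 ≤ w i) (hw1 : ∑ i ∈ s, w i = 1) :
    ‖∑ i ∈ s, w i • x i‖ ^ 2 ≤ ∑ i ∈ s, w i * ‖x i‖ ^ 2 := by
  have h1 : ‖∑ i ∈ s, w i • x i‖ ≤ ∑ i ∈ s, w i * ‖x i‖ := by
    refine (norm_sum_le _ _).trans (Finset.sum_le_sum fun i hi => ?_)
    rw [norm_smul, Real.norm_of_nonneg (hw i hi)]
  have h2 := (Even.convexOn_pow (𝕜 := ℝ) even_two).map_sum_le (t := s) (w := w)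
    (p := fun i => ‖x i‖) hw hw1 (fun _ _ => Set.mem_univ _)
  simp only [smul_eq_mul] at h2
  exact (pow_le_pow_left₀ (norm_nonneg _) h1 2).trans h2

theorem coef_sum {X : Type*} [NormedAddCommGroup X] [NormedSpace ℝ X] {s : ℕ} {ι : Type*}
    (i : Fin s) (t : Finset ι) (c : ι → ℝ) (f : ι → (Fin s → Bool) → X) :
    coef i (fun η => ∑ k ∈ t, c k • f k η) = ∑ k ∈ t, c k • coef i (f k) := by
  simp only [coef, Finset.smul_sum]
  rw [Finset.sum_comm]
  refine Finset.sum_congr rfl fun k _ => Finset.sum_congr rfl fun η _ => ?_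
  rw [smul_comm (signVal (η i)) (c k), smul_comm ((2 : ℝ) ^ s)⁻¹ (c k)]

/-- Lifts of `M`-tuples of a finite dimensional subspace can be taken in a finite dimensional
subspace, at the cost of an arbitrarily small increase of the constant. -/
theorem lift_fd {X : Type*} [NormedAddCommGroup X] [NormedSpace ℝ X] {M : ℕ} {B B' : ℝ}
    (hB : 0 ≤ B) (hBB : B < B') (hL : HasLift X M B)
    (F : Submodule ℝ X) (hF : FiniteDimensional ℝ F) :
    ∃ G : Submodule ℝ X, FiniteDimensional ℝ G ∧ ∀ z : Fin M → F,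
      ∃ H : (Fin M → Bool) → G, (∀ i, coef i (fun η => (H η : X)) = (z i : X)) ∧
        ((2 : ℝ) ^ M)⁻¹ * ∑ η, ‖H η‖ ^ 2 ≤ B' ^ 2 * ((M : ℝ)⁻¹ * ∑ j, ‖z j‖ ^ 2) := by
  classical
  let V := PiLp 2 (fun _ : Fin M => F)
  have hVfd : FiniteDimensional ℝ V := inferInstance
  obtain ⟨δ, hδ, hδB⟩ : ∃ δ : ℝ, 0 < δ ∧ (1 + δ) * B ≤ B' := by
    refine ⟨(B' - B) / (B + 1), by apply div_pos <;> linarith, ?_⟩
    have h1 : 0 < B + 1 := by linarith
    have h2 : (B' - B) / (B + 1) * B ≤ B' - B := by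
      rw [div_mul_eq_mul_div, div_le_iff₀ h1]
      nlinarith
    linarith [h2, add_mul 1 ((B' - B) / (B + 1)) B]
  obtain ⟨P, hP1, hP2⟩ := exists_polytope V δ hδ
  have hch : ∀ p : V, ∃ Fp : (Fin M → Bool) → X, (∀ i, coef i Fp = (p i : X)) ∧
      ((2 : ℝ) ^ M)⁻¹ * ∑ η, ‖Fp η‖ ^ 2 ≤ B ^ 2 * ((M : ℝ)⁻¹ * ∑ j, ‖(p j : X)‖ ^ 2) :=
    fun p => hL (fun j => (p j : X))
  choose L hL1 hL2 using hch
  let gens : Set X := Set.range (fun x : P × (Fin M → Bool) => L x.1 x.2)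
  have hgf : gens.Finite := Set.finite_range _
  let G : Submodule ℝ X := Submodule.span ℝ gens
  have hG : FiniteDimensional ℝ G := FiniteDimensional.span_of_finite ℝ hgf
  have hmem : ∀ p ∈ P, ∀ η, L p η ∈ G := fun p hp η =>
    Submodule.subset_span ⟨(⟨p, hp⟩, η), rfl⟩
  refine ⟨G, hG, fun z => ?_⟩
  let v : V := WithLp.toLp 2 z
  have hvz : ∀ j, v j = z j := fun j => rfl
  have hvn : ‖v‖ ^ 2 = ∑ j, ‖z j‖ ^ 2 := by
    rw [PiLp.norm_sq_eq_of_L2]
  by_cases hv0 : v = 0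
  · have hz : ∀ j, z j = 0 := fun j => by rw [← hvz, hv0]; rfl
    refine ⟨fun _ => 0, fun i => ?_, ?_⟩
    · rw [hz i]; simp [coef]
    · simp [hz]
  · have hvpos : 0 < ‖v‖ := norm_pos_iff.2 hv0
    have hmemv := hP2 (‖v‖⁻¹ • v) (by
      rw [norm_smul, norm_inv, norm_norm, inv_mul_cancel₀ hvpos.ne'])
    rw [Finset.mem_convexHull] at hmemv
    obtain ⟨w, hw0, hw1, hwc⟩ := hmemv
    rw [Finset.centerMass_eq_of_sum_1 _ _ hw1] at hwc
    simp only [id] at hwc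
    set c : ℝ := (1 + δ) * ‖v‖ with hc
    have hc0 : 0 < c := by positivity
    have hval : ∑ p ∈ P, (c * w p) • p = v := by
      have : ∑ p ∈ P, (c * w p) • p = c • ∑ p ∈ P, w p • p := by
        rw [Finset.smul_sum]
        exact Finset.sum_congr rfl fun p _ => mul_smul _ _ _
      rw [this, hwc, smul_smul, smul_smul]
      have : c * (1 + δ)⁻¹ * ‖v‖⁻¹ = 1 := by
        rw [hc]; field_simp
      rw [this, one_smul]
    have hHmem : ∀ η, (∑ p ∈ P, (c * w p) • L p η) ∈ G := fun η =>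
      Submodule.sum_mem _ fun p hp => Submodule.smul_mem _ _ (hmem p hp η)
    refine ⟨fun η => ⟨_, hHmem η⟩, fun i => ?_, ?_⟩
    · simp only
      rw [coef_sum]
      have h1 : ∑ p ∈ P, (c * w p) • coef i (L p) = ∑ p ∈ P, (c * w p) • (p i : X) :=
        Finset.sum_congr rfl fun p _ => by rw [hL1 p i]
      rw [h1]
      have h2 : (∑ p ∈ P, (c * w p) • p) i = z i := by rw [hval]
      have h3 : ((∑ p ∈ P, (c * w p) • p : V) i : X) = ∑ p ∈ P, (c * w p) • (p i : X) := by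
        have : (∑ p ∈ P, (c * w p) • p : V) i = ∑ p ∈ P, (c * w p) • (p i) := by
          rw [WithLp.ofLp_sum, Finset.sum_apply]
          rfl
        rw [this]
        simp
      rw [← h3, h2]
    · have hb : ∀ η, ‖(⟨_, hHmem η⟩ : G)‖ ^ 2 ≤ c ^ 2 * ∑ p ∈ P, w p * ‖L p η‖ ^ 2 := by
        intro η
        have e1 : ‖(⟨_, hHmem η⟩ : G)‖ = ‖∑ p ∈ P, (c * w p) • L p η‖ := rfl
        have e2 : ∑ p ∈ P, (c * w p) • L p η = c • ∑ p ∈ P, w p • L p η := by
          rw [Finset.smul_sum]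
          exact Finset.sum_congr rfl fun p _ => mul_smul _ _ _
        rw [e1, e2, norm_smul, mul_pow, Real.norm_of_nonneg hc0.le]
        exact mul_le_mul_of_nonneg_left (norm_sum_sq_le P w (fun p => L p η) hw0 hw1)
          (by positivity)
      have hM0 : (0 : ℝ) ≤ (M : ℝ)⁻¹ := by positivity
      calc ((2 : ℝ) ^ M)⁻¹ * ∑ η, ‖(⟨_, hHmem η⟩ : G)‖ ^ 2
          ≤ ((2 : ℝ) ^ M)⁻¹ * ∑ η, c ^ 2 * ∑ p ∈ P, w p * ‖L p η‖ ^ 2 := by
            apply mul_le_mul_of_nonneg_left (Finset.sum_le_sum fun η _ => hb η) (by positivity)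
        _ = c ^ 2 * ∑ p ∈ P, w p * (((2 : ℝ) ^ M)⁻¹ * ∑ η, ‖L p η‖ ^ 2) := by
            rw [← Finset.mul_sum, Finset.sum_comm, ← mul_assoc, mul_comm (((2 : ℝ) ^ M)⁻¹) (c ^ 2),
              mul_assoc, Finset.mul_sum]
            congr 1
            refine Finset.sum_congr rfl fun p _ => ?_
            rw [← Finset.mul_sum]
            ring
        _ ≤ c ^ 2 * ∑ p ∈ P, w p * (B ^ 2 * ((M : ℝ)⁻¹ * 1)) := by
            apply mul_le_mul_of_nonneg_left _ (by positivity)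
            refine Finset.sum_le_sum fun p hp => mul_le_mul_of_nonneg_left ?_ (hw0 p hp)
            refine (hL2 p).trans ?_
            apply mul_le_mul_of_nonneg_left _ (by positivity)
            apply mul_le_mul_of_nonneg_left _ hM0
            have h1 : ∑ j, ‖(p j : X)‖ ^ 2 = ‖p‖ ^ 2 := by
              rw [PiLp.norm_sq_eq_of_L2]
              rfl
            rw [h1]
            have := hP1 p hp
            have h0 := norm_nonneg p
            nlinarith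
        _ = c ^ 2 * (B ^ 2 * (M : ℝ)⁻¹) := by
            rw [← Finset.sum_mul, hw1]; ring
        _ = ((1 + δ) * B) ^ 2 * ((M : ℝ)⁻¹ * ‖v‖ ^ 2) := by rw [hc]; ring
        _ ≤ B' ^ 2 * ((M : ℝ)⁻¹ * ∑ j, ‖z j‖ ^ 2) := by
            rw [← hvn]
            apply mul_le_mul_of_nonneg_right _ (by positivity)
            apply pow_le_pow_left₀ (by positivity) hδB


theorem exists_sum_op {R X : Type*} [NormedAddCommGroup R] [NormedSpace ℝ R]
    [NormedAddCommGroup X] [NormedSpace ℝ X] [CompleteSpace X] (t : ℕ → R →L[ℝ] X)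
    (h : ∀ m, ‖t m‖ ≤ (1 / 2 : ℝ) ^ m) :
    ∃ L : R →L[ℝ] X, (∀ c, HasSum (fun m => t m c) (L c)) ∧ ‖L‖ ≤ 2 ∧
      ((∀ m, IsCompactOperator (t m)) → IsCompactOperator L) := by
  have hs : Summable t := Summable.of_norm_bounded summable_geometric_two h
  refine ⟨∑' m, t m, fun c => ?_, ?_, fun hc => ?_⟩
  · exact hs.hasSum.mapL (ContinuousLinearMap.apply ℝ X c)
  · exact tsum_of_norm_bounded hasSum_geometric_two h
  · refine isCompactOperator_of_tendsto hs.hasSum.tendsto_sum_nat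
      (Filter.Eventually.of_forall fun n => ?_)
    have key : ∀ n : ℕ, IsCompactOperator (∑ i ∈ Finset.range n, t i : R →L[ℝ] X) := by
      intro n
      induction n with
      | zero =>
        simp only [Finset.range_zero, Finset.sum_empty]
        exact isCompactOperator_zero
      | succ n ih =>
        rw [Finset.sum_range_succ]
        exact ih.add (hc n)
    exact key n

/-! ### the space `Z` -/

section Space

variable {X : Type u} [NormedAddCommGroup X] [NormedSpace ℝ X] [CompleteSpace X]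
variable (Fs : ℕ → Submodule ℝ X)

/-- `ℓ₂`-sum of the subspaces. -/
abbrev RS : Type u := lp (fun m => (Fs m : Type u)) 2

/-- evaluation composed with the inclusion -/
noncomputable def ev (m : ℕ) : RS Fs →L[ℝ] X :=
  (Fs m).subtypeL.comp (lp.evalCLM ℝ (fun m => (Fs m : Type u)) 2 m)

theorem ev_apply (m : ℕ) (c : RS Fs) : ev Fs m c = (c m : X) := rfl

theorem norm_coord_le (m : ℕ) (c : RS Fs) : ‖c m‖ ≤ ‖c‖ :=
  lp.norm_apply_le_norm (by norm_num) c m

theorem norm_ev_le (m : ℕ) : ‖ev Fs m‖ ≤ 1 := by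
  apply ContinuousLinearMap.opNorm_le_bound _ zero_le_one
  intro c
  rw [ev_apply, one_mul]
  exact norm_coord_le Fs m c

/-- weighted evaluation -/
noncomputable def tm (m : ℕ) : RS Fs →L[ℝ] X := ((1 / 2 : ℝ) ^ m) • ev Fs m

theorem tm_apply (m : ℕ) (c : RS Fs) : tm Fs m c = ((1 / 2 : ℝ) ^ m) • (c m : X) := rfl

theorem norm_tm_le (m : ℕ) : ‖tm Fs m‖ ≤ (1 / 2 : ℝ) ^ m := by
  apply ContinuousLinearMap.opNorm_le_bound _ (by positivity)
  intro c
  rw [tm_apply, norm_smul, Real.norm_of_nonneg (by positivity)]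
  exact mul_le_mul_of_nonneg_left (norm_coord_le Fs m c) (by positivity)

theorem tm_compact (hfd : ∀ m, FiniteDimensional ℝ (Fs m)) (n : ℕ) :
    IsCompactOperator (tm Fs n) := by
  have hfdn := hfd n
  have : ProperSpace (Fs n) := FiniteDimensional.proper ℝ (Fs n)
  have h0 : IsCompactOperator (lp.evalCLM ℝ (fun m => (Fs m : Type u)) 2 n) :=
    isCompactOperator_of_locallyCompactSpace_dom _
  have h1 := h0.clm_comp ((Fs n).subtypeL)
  exact h1.smul ((1 / 2 : ℝ) ^ n)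

theorem exists_Lop : ∃ L : RS Fs →L[ℝ] X,
    (∀ c, HasSum (fun m => tm Fs m c) (L c)) ∧ ‖L‖ ≤ 2 ∧
      ((∀ m, IsCompactOperator (tm Fs m)) → IsCompactOperator L) :=
  exists_sum_op (tm Fs) (norm_tm_le Fs)

/-- The map `L c = ∑ 2^{-m} c_m`. -/
noncomputable def Lop : RS Fs →L[ℝ] X := (exists_Lop Fs).choose

theorem hasSum_Lop (c : RS Fs) :
    HasSum (fun m : ℕ => ((1 / 2 : ℝ) ^ m) • (c m : X)) (Lop Fs c) :=
  (exists_Lop Fs).choose_spec.1 c

theorem norm_Lop_le : ‖Lop Fs‖ ≤ 2 := (exists_Lop Fs).choose_spec.2.1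

theorem isCompactOperator_Lop (hfd : ∀ m, FiniteDimensional ℝ (Fs m)) :
    IsCompactOperator (Lop Fs) :=
  (exists_Lop Fs).choose_spec.2.2 (tm_compact Fs hfd)

instance isClosed_ker_Lop : IsClosed ((LinearMap.ker (Lop Fs).toLinearMap : Submodule ℝ (RS Fs)) : Set (RS Fs)) :=
  (Lop Fs).isClosed_ker

/-- The space `Z`. -/
abbrev ZS : Type u := RS Fs ⧸ (LinearMap.ker (Lop Fs).toLinearMap : Submodule ℝ (RS Fs))

noncomputable example : NormedAddCommGroup (ZS Fs) := inferInstance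
noncomputable example : NormedSpace ℝ (ZS Fs) := inferInstance

/-- The canonical injection `Z → X` as a linear map. -/
noncomputable def jlin : ZS Fs →ₗ[ℝ] X :=
  (LinearMap.ker (Lop Fs).toLinearMap).liftQ (Lop Fs).toLinearMap le_rfl

theorem jlin_mk (c : RS Fs) : jlin Fs (Submodule.Quotient.mk c) = Lop Fs c := rfl

theorem jlin_injective : Function.Injective (jlin Fs) := by
  rw [← LinearMap.ker_eq_bot]
  exact Submodule.ker_liftQ_eq_bot _ _ _ le_rfl

theorem norm_jlin_le (z : ZS Fs) : ‖jlin Fs z‖ ≤ 2 * ‖z‖ := by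
  apply le_of_forall_pos_le_add
  intro ε hε
  obtain ⟨c, rfl, hc⟩ := Submodule.Quotient.norm_mk_lt z (half_pos hε)
  rw [jlin_mk]
  calc ‖Lop Fs c‖ ≤ ‖Lop Fs‖ * ‖c‖ := (Lop Fs).le_opNorm c
    _ ≤ 2 * ‖c‖ := by gcongr; exact norm_Lop_le Fs
    _ ≤ 2 * (‖(Submodule.Quotient.mk c : ZS Fs)‖ + ε / 2) := by gcongr
    _ = _ := by ring

/-- representation with norm control -/
theorem exists_rep {ρ : ℝ} (hρ : 1 < ρ) (z : ZS Fs) :
    ∃ c : RS Fs, Submodule.Quotient.mk c = z ∧ ‖c‖ ≤ ρ * ‖z‖ := by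
  by_cases hz : z = 0
  · refine ⟨0, ?_, ?_⟩
    · rw [hz]; rfl
    · simp [hz]
  · have hpos : 0 < ‖z‖ := norm_pos_iff.2 hz
    obtain ⟨c, hc, hc2⟩ := Submodule.Quotient.norm_mk_lt z (mul_pos (sub_pos.2 hρ) hpos)
    refine ⟨c, hc, ?_⟩
    have : ‖z‖ + (ρ - 1) * ‖z‖ = ρ * ‖z‖ := by ring
    linarith

theorem coef_map {V W : Type*} [NormedAddCommGroup V] [NormedSpace ℝ V] [NormedAddCommGroup W]
    [NormedSpace ℝ W] (T : V →ₗ[ℝ] W) {s : ℕ} (i : Fin s) (f : (Fin s → Bool) → V) :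
    T (coef i f) = coef i (fun η => T (f η)) := by
  simp [coef, map_sum]

theorem hasSum_norm_sq (c : RS Fs) : HasSum (fun m => ‖c m‖ ^ 2) (‖c‖ ^ 2) := by
  have h := lp.hasSum_norm (p := 2) (by norm_num) c
  simpa using h

/-- `Z` has the lifting property with twice the constant. -/
theorem hasLift_ZS {M : ℕ} {B B' : ℝ} (hB : 0 < B) (hBB : B < B')
    (hlift : ∀ m, ∀ z : Fin M → Fs m, ∃ H : (Fin M → Bool) → Fs (m + 1),
      (∀ i, coef i (fun η => (H η : X)) = (z i : X)) ∧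
        ((2 : ℝ) ^ M)⁻¹ * ∑ η, ‖H η‖ ^ 2 ≤ B ^ 2 * ((M : ℝ)⁻¹ * ∑ j, ‖z j‖ ^ 2)) :
    HasLift (ZS Fs) M (2 * B') := by
  intro z
  have hρ : 1 < B' / B := by rw [lt_div_iff₀ hB]; linarith
  choose c hc hcn using fun j => exists_rep Fs hρ (z j)
  choose H hH1 hH2 using fun m => hlift m (fun j => c j m)
  have h2M : (0 : ℝ) < 2 ^ M := by positivity
  -- pointwise bound
  have hpt : ∀ m η, ‖H m η‖ ^ 2 ≤ 2 ^ M * (B ^ 2 * ((M : ℝ)⁻¹ * ∑ j, ‖c j m‖ ^ 2)) := by
    intro m η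
    have h1 := hH2 m
    rw [inv_mul_le_iff₀ h2M] at h1
    refine le_trans ?_ h1
    exact Finset.single_le_sum (f := fun η => ‖H m η‖ ^ 2) (fun _ _ => by positivity)
      (Finset.mem_univ η)
  have hsumc : ∀ j, HasSum (fun m => ‖c j m‖ ^ 2) (‖c j‖ ^ 2) := fun j => hasSum_norm_sq Fs (c j)
  have hsumcc : HasSum (fun m => ∑ j, ‖c j m‖ ^ 2) (∑ j, ‖c j‖ ^ 2) :=
    hasSum_sum fun j _ => hsumc j
  let D : (Fin M → Bool) → (m : ℕ) → Fs m := fun η m =>
    match m with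
    | 0 => 0
    | m + 1 => (2 : ℝ) • H m η
  have hD0 : ∀ η, D η 0 = 0 := fun η => rfl
  have hD1 : ∀ η m, D η (m + 1) = (2 : ℝ) • H m η := fun η m => rfl
  have hDn : ∀ η m, ‖D η (m + 1)‖ ^ 2 = 4 * ‖H m η‖ ^ 2 := by
    intro η m
    rw [hD1, norm_smul, mul_pow]
    norm_num
  have hsumH : ∀ η, Summable fun m => ‖H m η‖ ^ 2 := by
    intro η
    refine Summable.of_nonneg_of_le (fun m => by positivity) (fun m => hpt m η) ?_
    exact ((hsumcc.summable.mul_left _).mul_left _).mul_left _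
  have hsumD : ∀ η, Summable fun m => ‖D η m‖ ^ 2 := by
    intro η
    rw [← summable_nat_add_iff 1]
    simp only [hDn]
    exact (hsumH η).mul_left 4
  have hmem : ∀ η, Memℓp (D η) 2 := by
    intro η
    apply memℓp_gen
    have := hsumD η
    simpa using this
  let C : (Fin M → Bool) → RS Fs := fun η => ⟨D η, hmem η⟩
  have hCap : ∀ η m, C η m = D η m := fun η m => rfl
  have hCn : ∀ η, ‖C η‖ ^ 2 = 4 * ∑' m, ‖H m η‖ ^ 2 := by
    intro η
    have h1 : HasSum (fun m => ‖D η m‖ ^ 2) (‖C η‖ ^ 2) := hasSum_norm_sq Fs (C η)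
    have h2 : HasSum (fun m => ‖D η (m + 1)‖ ^ 2) (4 * ∑' m, ‖H m η‖ ^ 2) := by
      simp only [hDn]
      exact (hsumH η).hasSum.mul_left 4
    have h3 := (hasSum_nat_add_iff' (f := fun m => ‖D η m‖ ^ 2) (g := ‖C η‖ ^ 2) 1).2 h1
    simp only [Finset.range_one, Finset.sum_singleton, hD0, norm_zero] at h3
    have h4 := h3.unique h2
    rw [← h4]; ring
  have hLC : ∀ η, HasSum (fun m : ℕ => ((1 / 2 : ℝ) ^ m) • (H m η : X)) (Lop Fs (C η)) := by
    intro η
    have h1 := hasSum_Lop Fs (C η)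
    have h3 := (hasSum_nat_add_iff' (f := fun m : ℕ => ((1 / 2 : ℝ) ^ m) • (D η m : X))
      (g := Lop Fs (C η)) 1).2 h1
    simp only [Finset.range_one, Finset.sum_singleton, hD0, ZeroMemClass.coe_zero, smul_zero,
      sub_zero] at h3
    have h4 : (fun m : ℕ => ((1 / 2 : ℝ) ^ (m + 1)) • (D η (m + 1) : X)) =
        fun m : ℕ => ((1 / 2 : ℝ) ^ m) • (H m η : X) := by
      funext m
      rw [hD1, Submodule.coe_smul, smul_smul]
      congr 1
      rw [pow_succ]; ring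
    rwa [h4] at h3
  refine ⟨fun η => Submodule.Quotient.mk (C η), fun i => ?_, ?_⟩
  · apply jlin_injective Fs
    rw [coef_map]
    have h1 : ∀ η, jlin Fs (Submodule.Quotient.mk (C η)) = Lop Fs (C η) := fun η => rfl
    have h2 : jlin Fs (z i) = Lop Fs (c i) := by rw [← hc i]; rfl
    rw [h2]
    have h3 : HasSum (fun m : ℕ => ((1 / 2 : ℝ) ^ m) • (c i m : X))
        (coef i (fun η => Lop Fs (C η))) := by
      have h4 : HasSum (fun m : ℕ => ((2 : ℝ) ^ M)⁻¹ • ∑ η : Fin M → Bool,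
          signVal (η i) • (((1 / 2 : ℝ) ^ m) • (H m η : X)))
          (coef i (fun η => Lop Fs (C η))) := by
        unfold coef
        refine HasSum.const_smul _ (hasSum_sum fun η _ => ?_)
        exact (hLC η).const_smul _
      have h5 : (fun m : ℕ => ((2 : ℝ) ^ M)⁻¹ • ∑ η : Fin M → Bool,
          signVal (η i) • (((1 / 2 : ℝ) ^ m) • (H m η : X))) =
          fun m : ℕ => ((1 / 2 : ℝ) ^ m) • (c i m : X) := by
        funext m
        rw [← hH1 m i, coef]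
        rw [smul_comm ((1 / 2 : ℝ) ^ m), Finset.smul_sum (r := (1 / 2 : ℝ) ^ m)]
        congr 1
        refine Finset.sum_congr rfl fun η _ => ?_
        rw [smul_comm]
      rwa [h5] at h4
    exact h3.unique (hasSum_Lop Fs (c i))
  · have hn : ∀ η, ‖(Submodule.Quotient.mk (C η) : ZS Fs)‖ ^ 2 ≤ ‖C η‖ ^ 2 := by
      intro η
      exact pow_le_pow_left₀ (norm_nonneg _) (Submodule.Quotient.norm_mk_le _ _) 2
    have hsumHH : HasSum (fun m => ((2 : ℝ) ^ M)⁻¹ * ∑ η, ‖H m η‖ ^ 2)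
        (((2 : ℝ) ^ M)⁻¹ * ∑ η, ∑' m, ‖H m η‖ ^ 2) :=
      (hasSum_sum fun η _ => (hsumH η).hasSum).mul_left _
    have hle : ((2 : ℝ) ^ M)⁻¹ * ∑ η, ∑' m, ‖H m η‖ ^ 2 ≤
        B ^ 2 * ((M : ℝ)⁻¹ * ∑ j, ‖c j‖ ^ 2) :=
      hasSum_le hH2 hsumHH ((hsumcc.mul_left _).mul_left _)
    calc ((2 : ℝ) ^ M)⁻¹ * ∑ η, ‖(Submodule.Quotient.mk (C η) : ZS Fs)‖ ^ 2
        ≤ ((2 : ℝ) ^ M)⁻¹ * ∑ η, ‖C η‖ ^ 2 := by
          apply mul_le_mul_of_nonneg_left (Finset.sum_le_sum fun η _ => hn η) (by positivity)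
      _ = 4 * (((2 : ℝ) ^ M)⁻¹ * ∑ η, ∑' m, ‖H m η‖ ^ 2) := by
          simp only [hCn]
          rw [← Finset.mul_sum]; ring
      _ ≤ 4 * (B ^ 2 * ((M : ℝ)⁻¹ * ∑ j, ‖c j‖ ^ 2)) := by gcongr
      _ ≤ 4 * (B ^ 2 * ((M : ℝ)⁻¹ * ∑ j, (B' / B * ‖z j‖) ^ 2)) := by
          gcongr with j
          exact hcn j
      _ = (2 * B') ^ 2 * ((M : ℝ)⁻¹ * ∑ j, ‖z j‖ ^ 2) := by
          have : ∑ j, (B' / B * ‖z j‖) ^ 2 = (B' / B) ^ 2 * ∑ j, ‖z j‖ ^ 2 := by
            rw [Finset.mul_sum]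
            exact Finset.sum_congr rfl fun j _ => mul_pow _ _ _
          rw [this]
          field_simp
          ring

theorem isCompactOperator_cl (hfd : ∀ m, FiniteDimensional ℝ (Fs m)) :
    IsCompact (closure (Lop Fs '' Metric.closedBall 0 2)) :=
  (isCompactOperator_Lop Fs hfd).isCompact_closure_image_closedBall 2

/-- finite rank approximations of the injection -/
theorem approx_j (hAP : HasApproximationProperty X) (hfd : ∀ m, FiniteDimensional ℝ (Fs m))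
    (δ : ℝ) (hδ : 0 < δ) :
    ∃ S : X →L[ℝ] X, FiniteDimensional ℝ (LinearMap.range (S : X →ₗ[ℝ] X)) ∧
      ∀ z : ZS Fs, ‖S (jlin Fs z) - jlin Fs z‖ ≤ δ * ‖z‖ := by
  obtain ⟨S, hS1, hS2⟩ := hAP _ (isCompactOperator_cl Fs hfd) δ hδ
  refine ⟨S, hS1, fun z => ?_⟩
  by_cases hz : z = 0
  · simp [hz]
  · have hpos : 0 < ‖z‖ := norm_pos_iff.2 hz
    obtain ⟨c, hc, hcn⟩ := exists_rep Fs (ρ := 2) (by norm_num) (‖z‖⁻¹ • z)
    have h1 : ‖(‖z‖⁻¹ • z)‖ = 1 := by
      rw [norm_smul, norm_inv, norm_norm, inv_mul_cancel₀ hpos.ne']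
    rw [h1, mul_one] at hcn
    have hmem : Lop Fs c ∈ closure (Lop Fs '' Metric.closedBall 0 2) :=
      subset_closure ⟨c, by simpa using hcn, rfl⟩
    have h2 := (hS2 _ hmem).le
    have h3 : Lop Fs c = ‖z‖⁻¹ • jlin Fs z := by
      rw [← jlin_mk, hc, map_smul]
    rw [h3, map_smul, ← smul_sub, norm_smul, norm_inv, norm_norm, inv_mul_le_iff₀ hpos] at h2
    linarith

end Space

/-- The quantity in the definition of K-convexity. -/
noncomputable def Phi {X : Type*} [NormedAddCommGroup X] [NormedSpace ℝ X] {s : ℕ}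
    (f : (Fin s → Bool) → X) : ℝ :=
  signAverage fun ε : Fin s → Bool =>
    ‖∑ i : Fin s, signVal (ε i) •
      (((2 : ℝ) ^ s)⁻¹ • ∑ η : Fin s → Bool, signVal (η i) • f η)‖ ^ (2 : ℝ)

theorem continuous_Phi {X : Type*} [NormedAddCommGroup X] [NormedSpace ℝ X] {s : ℕ} :
    Continuous (fun f : (Fin s → Bool) → X => Phi f) := by
  unfold Phi signAverage
  simp only [Real.rpow_two]
  fun_prop

theorem Phi_smul {X : Type*} [NormedAddCommGroup X] [NormedSpace ℝ X] {s : ℕ} (c : ℝ)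
    (f : (Fin s → Bool) → X) : Phi (fun η => c • f η) = c ^ 2 * Phi f := by
  unfold Phi signAverage
  simp only [Real.rpow_two]
  have h : ∀ ε : Fin s → Bool, ∑ i : Fin s, signVal (ε i) •
      (((2 : ℝ) ^ s)⁻¹ • ∑ η : Fin s → Bool, signVal (η i) • (c • f η)) =
      c • ∑ i : Fin s, signVal (ε i) •
      (((2 : ℝ) ^ s)⁻¹ • ∑ η : Fin s → Bool, signVal (η i) • f η) := by
    intro ε
    rw [Finset.smul_sum]
    refine Finset.sum_congr rfl fun i _ => ?_
    rw [smul_comm c, smul_comm c, Finset.smul_sum (r := c)]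
    congr 2
    refine Finset.sum_congr rfl fun η _ => ?_
    rw [smul_comm]
  simp only [h, norm_smul, mul_pow, Real.norm_eq_abs, sq_abs]
  rw [← Finset.mul_sum]
  ring

/-- **Theorem C** (reduction by the approximation property). -/
theorem ap_reduction {X : Type u} [NormedAddCommGroup X] [NormedSpace ℝ X] [CompleteSpace X]
    (hAP : HasApproximationProperty X) {M : ℕ} {B B' : ℝ} (hB : 0 ≤ B) (hBB : B < B')
    (hL : HasLift X M B) {k : ℝ}
    (hMain : ∀ (Z : Type u) [NormedAddCommGroup Z] [NormedSpace ℝ Z] (T : Z →L[ℝ] X),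
      FiniteDimensional ℝ (LinearMap.range (T : Z →ₗ[ℝ] X)) → ‖T‖ ≤ 1 →
      HasLift Z M (2 * B') → ∀ (s : ℕ) (g : (Fin s → Bool) → Z),
      Phi (fun η => T (g η)) ≤ k ^ 2 * signAverage fun ε => ‖g ε‖ ^ (2 : ℝ)) :
    IsKConvex X := by
  refine ⟨3 * k, fun s f => ?_⟩
  -- the sequence of subspaces
  obtain ⟨B₁, hB₁, hB₁'⟩ := exists_between hBB
  have hB₁0 : 0 < B₁ := lt_of_le_of_lt hB hB₁
  have hstep : ∀ F : {F : Submodule ℝ X // FiniteDimensional ℝ F},
      ∃ G : {F : Submodule ℝ X // FiniteDimensional ℝ F}, ∀ z : Fin M → F.1,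
      ∃ H : (Fin M → Bool) → G.1, (∀ i, coef i (fun η => (H η : X)) = (z i : X)) ∧
        ((2 : ℝ) ^ M)⁻¹ * ∑ η, ‖H η‖ ^ 2 ≤ B₁ ^ 2 * ((M : ℝ)⁻¹ * ∑ j, ‖z j‖ ^ 2) := by
    intro F
    obtain ⟨G, hG, h⟩ := lift_fd hB hB₁ hL F.1 F.2
    exact ⟨⟨G, hG⟩, h⟩
  choose step hst using hstep
  let F0 : {F : Submodule ℝ X // FiniteDimensional ℝ F} :=
    ⟨Submodule.span ℝ (Set.range f), FiniteDimensional.span_of_finite ℝ (Set.finite_range f)⟩
  let Fq : ℕ → {F : Submodule ℝ X // FiniteDimensional ℝ F} := fun m =>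
    Nat.rec F0 (fun _ F => step F) m
  let Fs : ℕ → Submodule ℝ X := fun m => (Fq m).1
  have hfd : ∀ m, FiniteDimensional ℝ (Fs m) := fun m => (Fq m).2
  have hlift : ∀ m, ∀ z : Fin M → Fs m, ∃ H : (Fin M → Bool) → Fs (m + 1),
      (∀ i, coef i (fun η => (H η : X)) = (z i : X)) ∧
        ((2 : ℝ) ^ M)⁻¹ * ∑ η, ‖H η‖ ^ 2 ≤ B₁ ^ 2 * ((M : ℝ)⁻¹ * ∑ j, ‖z j‖ ^ 2) :=
    fun m => hst (Fq m)
  have hZ : HasLift (ZS Fs) M (2 * B') := hasLift_ZS Fs hB₁0 hB₁' hlift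
  -- the lift of f
  have hf0 : ∀ ε, f ε ∈ Fs 0 := fun ε => Submodule.subset_span ⟨ε, rfl⟩
  let c : (Fin s → Bool) → RS Fs := fun ε => lp.single 2 0 (⟨f ε, hf0 ε⟩ : Fs 0)
  let g : (Fin s → Bool) → ZS Fs := fun ε => Submodule.Quotient.mk (c ε)
  have hgn : ∀ ε, ‖g ε‖ ≤ ‖f ε‖ := by
    intro ε
    refine (Submodule.Quotient.norm_mk_le _ _).trans ?_
    have : ‖c ε‖ = ‖(⟨f ε, hf0 ε⟩ : Fs 0)‖ := lp.norm_single (by norm_num) _ _
    rw [this]
    rfl
  have hjg : ∀ ε, jlin Fs (g ε) = f ε := by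
    intro ε
    have h1 : jlin Fs (g ε) = Lop Fs (c ε) := rfl
    rw [h1]
    have h2 := hasSum_Lop Fs (c ε)
    have h3 : HasSum (fun m : ℕ => ((1 / 2 : ℝ) ^ m) • (c ε m : X))
        (((1 / 2 : ℝ) ^ 0) • (c ε 0 : X)) := by
      apply hasSum_single 0
      intro m hm
      have : c ε m = 0 := lp.single_apply_ne 2 0 _ hm
      rw [this]
      simp
    have h4 : (c ε 0 : X) = f ε := by
      have : c ε 0 = (⟨f ε, hf0 ε⟩ : Fs 0) := lp.single_apply_self 2 0 _
      rw [this]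
    rw [h2.unique h3, h4]
    simp
  -- the main estimate for the approximations
  have hkey : ∀ δ : ℝ, 0 < δ → δ ≤ 1 → ∃ h : (Fin s → Bool) → X,
      (∀ ε, ‖h ε - f ε‖ ≤ δ * ‖f ε‖) ∧
      Phi h ≤ (3 * k) ^ 2 * signAverage fun ε => ‖f ε‖ ^ (2 : ℝ) := by
    intro δ hδ hδ1
    obtain ⟨S, hS1, hS2⟩ := approx_j Fs hAP hfd δ hδ
    refine ⟨fun ε => S (f ε), fun ε => ?_, ?_⟩
    · have := hS2 (g ε)
      rw [hjg] at this
      exact this.trans (mul_le_mul_of_nonneg_left (hgn ε) hδ.le)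
    · let T0 : ZS Fs →ₗ[ℝ] X := (3 : ℝ)⁻¹ • ((S : X →ₗ[ℝ] X) ∘ₗ jlin Fs)
      have hT0 : ∀ z, T0 z = (3 : ℝ)⁻¹ • S (jlin Fs z) := fun z => rfl
      have hT0n : ∀ z, ‖T0 z‖ ≤ 1 * ‖z‖ := by
        intro z
        rw [hT0, norm_smul, norm_inv, Real.norm_of_nonneg (by norm_num : (0:ℝ) ≤ 3)]
        have h1 := hS2 z
        have h2 := norm_jlin_le Fs z
        have h3 : ‖S (jlin Fs z)‖ ≤ ‖S (jlin Fs z) - jlin Fs z‖ + ‖jlin Fs z‖ := by
          calc ‖S (jlin Fs z)‖ = ‖(S (jlin Fs z) - jlin Fs z) + jlin Fs z‖ := by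
                rw [sub_add_cancel]
            _ ≤ _ := norm_add_le _ _
        have h4 : δ * ‖z‖ ≤ 1 * ‖z‖ := mul_le_mul_of_nonneg_right hδ1 (norm_nonneg _)
        rw [inv_mul_le_iff₀ (by norm_num)]
        linarith
      let T : ZS Fs →L[ℝ] X := T0.mkContinuous 1 hT0n
      have hT : ∀ z, T z = (3 : ℝ)⁻¹ • S (jlin Fs z) := fun z => rfl
      have hTn : ‖T‖ ≤ 1 := T0.mkContinuous_norm_le zero_le_one hT0n
      have hTr : FiniteDimensional ℝ (LinearMap.range (T : ZS Fs →ₗ[ℝ] X)) := by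
        have hle : LinearMap.range (T : ZS Fs →ₗ[ℝ] X) ≤ LinearMap.range (S : X →ₗ[ℝ] X) := by
          rintro _ ⟨z, rfl⟩
          refine ⟨(3 : ℝ)⁻¹ • jlin Fs z, ?_⟩
          change S ((3 : ℝ)⁻¹ • jlin Fs z) = T z
          rw [map_smul, hT]
        exact Submodule.finiteDimensional_of_le hle
      have h1 := hMain (ZS Fs) T hTr hTn hZ s g
      have h2 : (fun η => T (g η)) = fun η => (3 : ℝ)⁻¹ • S (f η) := by
        funext η
        rw [hT, hjg]
      rw [h2, Phi_smul] at h1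
      have h3 : signAverage (fun ε => ‖g ε‖ ^ (2 : ℝ)) ≤ signAverage fun ε => ‖f ε‖ ^ (2 : ℝ) := by
        unfold signAverage
        simp only [Real.rpow_two]
        gcongr with ε
        exact hgn ε
      have h4 : k ^ 2 * signAverage (fun ε => ‖g ε‖ ^ (2 : ℝ)) ≤
          k ^ 2 * signAverage fun ε => ‖f ε‖ ^ (2 : ℝ) :=
        mul_le_mul_of_nonneg_left h3 (by positivity)
      have h5 : ((3 : ℝ)⁻¹) ^ 2 * Phi (fun η => S (f η)) ≤
          k ^ 2 * signAverage fun ε => ‖f ε‖ ^ (2 : ℝ) := h1.trans h4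
      have h6 : Phi (fun η => S (f η)) = 9 * (((3 : ℝ)⁻¹) ^ 2 * Phi (fun η => S (f η))) := by ring
      rw [h6]
      calc 9 * (((3 : ℝ)⁻¹) ^ 2 * Phi (fun η => S (f η)))
          ≤ 9 * (k ^ 2 * signAverage fun ε => ‖f ε‖ ^ (2 : ℝ)) := by gcongr
        _ = _ := by ring
  -- passage to the limit
  choose h hh1 hh2 using fun n : ℕ => hkey (1 / ((n : ℝ) + 1)) (by positivity)
    (by rw [div_le_one (by positivity)]; linarith [(Nat.cast_nonneg n : (0:ℝ) ≤ n)])
  have htend : Filter.Tendsto h Filter.atTop (nhds f) := by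
    rw [tendsto_pi_nhds]
    intro ε
    rw [tendsto_iff_norm_sub_tendsto_zero]
    have h0 : Filter.Tendsto (fun n : ℕ => 1 / ((n : ℝ) + 1) * ‖f ε‖) Filter.atTop (nhds 0) := by
      have := (tendsto_one_div_add_atTop_nhds_zero_nat (𝕜 := ℝ)).mul_const ‖f ε‖
      simpa using this
    exact squeeze_zero (fun n => norm_nonneg _) (fun n => hh1 n ε) h0
  have hlim : Filter.Tendsto (fun n => Phi (h n)) Filter.atTop (nhds (Phi f)) :=
    (continuous_Phi.tendsto f).comp htend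
  exact le_of_tendsto' hlim hh2

end Crest.Agent.R118.APRed485
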