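import Crest.Agent.R118.KNorm_324

/-!
Concrete row types and kernels for Theorem A of row 118 (S0158).
-/

namespace Crest.Agent.R118.Core324

open Finset Base324 KNorm324

/-- `q`-part and `Ω`-part of a row -/
abbrev Ro (L I : ℕ) : Type := (Fin L → ZMod 2) × (Fin I → ZMod 2)

/-- the row space `F₂(p) × F₂^L(q) × F₂^I(Ω)` -/
abbrev R (L I : ℕ) : Type := ZMod 2 × Ro L I

/-- `F`-side row variables `(v, d'', ε)`, where `d = (1, d'')` -/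
abbrev Pf (L I : ℕ) : Type := R L I × Ro L I × ZMod 2

/-- `G`-side row variables `(t, (β_j, e'_j)_j)`, where `e_j = (β_j, δ_j, e'_j)` -/
abbrev Qg (L I : ℕ) : Type := R L I × (Fin L → ZMod 2 × (Fin I → ZMod 2))

variable {L I : ℕ}

/-- `d = (1, d'')` -/
def dvec (d : Ro L I) : R L I := (1, d)

/-- `e_j = (β_j, δ_j, e'_j)` -/
def evec (j : Fin L) (b : ZMod 2 × (Fin I → ZMod 2)) : R L I := (b.1, Pi.single j 1, b.2)

/-- `κ⁰ = χ(v,t)` -/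
noncomputable def k0 (x : Pf L I) (t : R L I) : ℝ := χ x.1 t

/-- `κ¹ = ε χ(v+d,t)` -/
noncomputable def k1 (x : Pf L I) (t : R L I) : ℝ := sg x.2.2 * χ (x.1 + dvec x.2.1) t

/-- homogeneous part of degree `i` of `∏_{l ∈ J} (u_l + x w_l)` -/
def hom {ι : Type} [DecidableEq ι] (J : Finset ι) (u w : ι → ℝ) (i : ℕ) : ℝ :=
  ∑ S ∈ J.powersetCard i, (∏ l ∈ S, w l) * ∏ l ∈ J \ S, u l

/-- the kernel `Hom_i` on `ι` rows built from row kernels `κ0 κ1 : P → Q → ℝ` -/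
def homK {P Q : Type} (κ0 κ1 : P → Q → ℝ) (ι : Type) [Fintype ι] [DecidableEq ι] (i : ℕ)
    (x : ι → P) (y : ι → Q) : ℝ :=
  hom Finset.univ (fun l => κ0 (x l) (y l)) (fun l => κ1 (x l) (y l)) i

/-- the kernel `U_s = ∏_l (κ⁰ + s κ¹)` -/
def prodK {P Q : Type} (κ0 κ1 : P → Q → ℝ) (ι : Type) [Fintype ι] (s : ℝ)
    (x : ι → P) (y : ι → Q) : ℝ :=
  ∏ l, (κ0 (x l) (y l) + s * κ1 (x l) (y l))

/-- row factor of the resonance kernel -/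
noncomputable def rowK (τ : ℝ) (x : Pf L I) (y : Qg L I) : ℝ :=
  χ x.1 y.1 * (1 + sg x.2.2 * χ (dvec x.2.1) y.1) * ∏ j, (1 + τ * χ (dvec x.2.1) (evec j (y.2 j)))

/-- the resonance kernel `K_τ` -/
noncomputable def resK (ι : Type) [Fintype ι] (τ : ℝ) (x : ι → Pf L I)
    (y : (Fin L → ZMod 2) × (ι → Qg L I)) : ℝ :=
  (∏ l, rowK τ (x l) (y.2 l)) * ∏ j, (1 + sg (y.1 j) * ∏ l, χ (x l).1 (evec j ((y.2 l).2 j)))

/-- `e_T = ∑_{j ∈ T} e_j` -/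
def eT (T : Finset (Fin L)) (y : Qg L I) : R L I := ∑ j ∈ T, evec j (y.2 j)

/-- `k_τ^T = χ(v,t+e_T)(1+εχ(d,t))∏_j(1+τχ(d,e_j))` -/
noncomputable def rowT (τ : ℝ) (T : Finset (Fin L)) (x : Pf L I) (y : Qg L I) : ℝ :=
  rowK τ x y * χ x.1 (eT T y)

/-- `χ(v,t+e_T)(1+s ε χ(d,t+e_T))` -/
noncomputable def mainT (s : ℝ) (T : Finset (Fin L)) (x : Pf L I) (y : Qg L I) : ℝ :=
  k0 x (y.1 + eT T y) + s * k1 x (y.1 + eT T y)

/-- the product of the `η_j`, `j ∈ T` -/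
noncomputable def sgT (T : Finset (Fin L)) (η : Fin L → ZMod 2) : ℝ := ∏ j ∈ T, sg (η j)

end Crest.Agent.R118.Core324
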