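import Crest.Agent.R118.EndConv_827

set_option linter.unusedSectionVars false

open Finset
open Crest.Agent.R118.Base324
open Crest.AnalysisR

namespace Crest.Agent.R118.Endgame827

section Cube4

variable {ι : Type} [Fintype ι] [DecidableEq ι]
variable {X Y : Type*} [NormedAddCommGroup X] [NormedSpace ℝ X] [NormedAddCommGroup Y]
  [NormedSpace ℝ Y]

theorem norm_toLp_sq {A : Type} [Fintype A] [Nonempty A] (F : A → Y) :
    ‖(WithLp.toLp 2 F : PiLp 2 fun _ : A => Y)‖ ^ 2 = Fintype.card A * sq F := by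
  rw [PiLp.norm_sq_eq_of_L2]
  unfold sq avg
  rw [smul_eq_mul, ← mul_assoc, mul_inv_cancel₀, one_mul]
  exact_mod_cast Fintype.card_ne_zero

/-- level-one projection -/
theorem endgame_level (T : X →ₗ[ℝ] Y) {q : ℝ} (hq0 : 0 < q) (hq1 : q < 1) {S0 : ℝ} (hS0 : 0 ≤ S0)
    (H : ∀ (j : ℕ) (f : (Fin j → ZMod 2) → X),
      (avg fun b : Fin j → ZMod 2 => ‖avg fun a : Fin j → ZMod 2 => χ a b • T (f a)‖ ^ 2)
        ≤ (S0 * q ^ j) ^ 2 * avg (fun a => ‖f a‖ ^ 2))
    (f : (ι → ZMod 2) → X) :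
    sq (Mm (fun S => if S.card = 1 then 1 else 0) (fun ε => T (f ε))) ≤
      (2 * Real.exp (s0 q) * S0) ^ 2 * sq f := by
  classical
  set c : ℝ := ((Fintype.card (ι → ZMod 2) : ℕ) : ℝ) with hc
  have hcpos : 0 < c := by rw [hc]; exact_mod_cast Fintype.card_pos
  set TF : (ι → ZMod 2) → Y := fun ε => T (f ε) with hTF
  set G : (ι → ZMod 2) → Y := Mm (fun S => if S.card = 1 then 1 else 0) TF with hG
  obtain ⟨φ, hφ1, hφ2⟩ := exists_dual_vector'' ℝ (WithLp.toLp 2 G : PiLp 2 fun _ : ι → ZMod 2 => Y)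
  set N : ℝ := ‖(WithLp.toLp 2 f : PiLp 2 fun _ : ι → ZMod 2 => X)‖ with hN
  have hN2 : N ^ 2 = c * sq f := norm_toLp_sq f
  -- the sequence
  set a : ℕ → ℝ := fun k => φ (WithLp.toLp 2 (Mm (fun S => if S.card = k then 1 else 0) TF)) with ha
  have ha1 : a 1 = ‖(WithLp.toLp 2 G : PiLp 2 fun _ : ι → ZMod 2 => Y)‖ := by
    rw [ha]
    simpa using hφ2
  have key : |a 1| ≤ 2 * Real.exp (s0 q) * (S0 * N) := by
    refine scalar_endgame hq0 hq1 (Fintype.card ι + 1) (by omega) a (S0 * N) ?_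
    intro r L hr hL
    have e1 : ∑ k ∈ range (Fintype.card ι + 1 + 1), gen r L k * a k =
        φ (WithLp.toLp 2 (Mm (fun S => gen r L S.card) TF)) := by
      have e2 : Mm (fun S : Finset ι => gen r L S.card) TF =
          fun ε => ∑ k ∈ range (Fintype.card ι + 1 + 1),
            gen r L k • Mm (fun S : Finset ι => if S.card = k then 1 else 0) TF ε := by
        funext ε
        rw [← Mm_sum]
        congr 1
        funext S
        rw [Finset.sum_eq_single S.card]
        · simp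
        · intro k _ hk
          rw [if_neg (Ne.symm hk), mul_zero]
        · intro h
          exfalso
          apply h
          rw [Finset.mem_range]
          have := Finset.card_le_univ S
          omega
      rw [e2]
      have e3 : (WithLp.toLp 2 (fun ε => ∑ k ∈ range (Fintype.card ι + 1 + 1),
            gen r L k • Mm (fun S : Finset ι => if S.card = k then 1 else 0) TF ε) :
              PiLp 2 fun _ : ι → ZMod 2 => Y) =
          ∑ k ∈ range (Fintype.card ι + 1 + 1), gen r L k •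
            WithLp.toLp 2 (Mm (fun S : Finset ι => if S.card = k then 1 else 0) TF) := by
        ext ε
        simp [Finset.sum_apply]
      rw [e3, map_sum]
      refine Finset.sum_congr rfl (fun k _ => ?_)
      rw [map_smul, smul_eq_mul]
    rw [e1]
    have h1 := gen_bound T L hL r hr (H L.length) f
    have h2 : ‖(WithLp.toLp 2 (Mm (fun S => gen r L S.card) TF) :
        PiLp 2 fun _ : ι → ZMod 2 => Y)‖ ≤ q ^ L.length * (S0 * N) := by
      have hR : 0 ≤ q ^ L.length * (S0 * N) := by positivity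
      refine le_of_sq_le_sq ?_ hR
      rw [norm_toLp_sq]
      calc c * sq (Mm (fun S => gen r L S.card) TF)
          ≤ c * ((S0 * q ^ L.length) ^ 2 * sq f) := by gcongr
        _ = (q ^ L.length * (S0 * N)) ^ 2 := by
          rw [mul_pow, mul_pow, mul_pow, hN2]; ring
    calc |φ (WithLp.toLp 2 (Mm (fun S => gen r L S.card) TF))|
        = ‖φ (WithLp.toLp 2 (Mm (fun S => gen r L S.card) TF))‖ := (Real.norm_eq_abs _).symm
      _ ≤ ‖φ‖ * ‖(WithLp.toLp 2 (Mm (fun S => gen r L S.card) TF) :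
        PiLp 2 fun _ : ι → ZMod 2 => Y)‖ := φ.le_opNorm _
      _ ≤ 1 * ‖(WithLp.toLp 2 (Mm (fun S => gen r L S.card) TF) :
        PiLp 2 fun _ : ι → ZMod 2 => Y)‖ := by gcongr
      _ ≤ q ^ L.length * (S0 * N) := by rw [one_mul]; exact h2
  rw [ha1, abs_of_nonneg (norm_nonneg _)] at key
  have h3 : c * sq G ≤ c * ((2 * Real.exp (s0 q) * S0) ^ 2 * sq f) := by
    rw [← norm_toLp_sq]
    calc ‖(WithLp.toLp 2 G : PiLp 2 fun _ : ι → ZMod 2 => Y)‖ ^ 2
        ≤ (2 * Real.exp (s0 q) * (S0 * N)) ^ 2 := by gcongr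
      _ = (2 * Real.exp (s0 q) * S0) ^ 2 * N ^ 2 := by ring
      _ = _ := by rw [hN2]; ring
  exact le_of_mul_le_mul_left h3 hcpos

theorem Mm_level_one (F : (ι → ZMod 2) → Y) (ε : ι → ZMod 2) :
    Mm (fun S => if S.card = 1 then 1 else 0) F ε =
      ∑ i, sg (ε i) • avg fun η => sg (η i) • F η := by
  unfold Mm
  have h1 : ∀ S : Finset ι, ((if S.card = 1 then (1:ℝ) else 0) * w S ε) • co S F =
      if S ∈ Finset.powersetCard 1 (Finset.univ : Finset ι) then w S ε • co S F else 0 := by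
    intro S
    by_cases h : S.card = 1
    · rw [if_pos h, if_pos, one_mul]
      rw [Finset.mem_powersetCard]
      exact ⟨Finset.subset_univ _, h⟩
    · rw [if_neg h, if_neg, zero_mul, zero_smul]
      rw [Finset.mem_powersetCard]
      exact fun h' => h h'.2
  simp only [h1]
  rw [Finset.sum_ite_mem, Finset.univ_inter, Finset.powersetCard_one, Finset.sum_map]
  refine Finset.sum_congr rfl (fun i _ => ?_)
  simp [w, co]

/-- Endgame in `ZMod 2` form. -/
theorem endgame_zmod (T : X →ₗ[ℝ] Y) {q : ℝ} (hq0 : 0 < q) (hq1 : q < 1) {S0 : ℝ} (hS0 : 0 ≤ S0)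
    (H : ∀ (j : ℕ) (f : (Fin j → ZMod 2) → X),
      (avg fun b : Fin j → ZMod 2 => ‖avg fun a : Fin j → ZMod 2 => χ a b • T (f a)‖ ^ 2)
        ≤ (S0 * q ^ j) ^ 2 * avg (fun a => ‖f a‖ ^ 2))
    (f : (ι → ZMod 2) → X) :
    (avg fun ε : ι → ZMod 2 => ‖∑ i, sg (ε i) • avg fun η : ι → ZMod 2 => sg (η i) • T (f η)‖ ^ 2)
      ≤ (2 * Real.exp (s0 q) * S0) ^ 2 * avg fun ε => ‖f ε‖ ^ 2 := by
  have h := endgame_level T hq0 hq1 hS0 H f
  unfold sq at h
  simp only [Mm_level_one] at h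
  exact h

end Cube4

/-- the bijection of sign codings -/
def cod : ZMod 2 ≃ Bool where
  toFun x := if x = 0 then true else false
  invFun b := if b then 0 else 1
  left_inv := by intro x; revert x; decide
  right_inv := by intro b; revert b; decide

theorem signVal_cod (x : ZMod 2) : signVal (cod x) = sg x := by
  unfold signVal sg cod
  rcases zmod2_cases x with h | h <;> subst h <;> simp

theorem signAverage_eq {s : ℕ} (g : (Fin s → Bool) → ℝ) :
    signAverage g = avg fun ε : Fin s → ZMod 2 => g (fun i => cod (ε i)) := by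
  unfold signAverage avg
  rw [smul_eq_mul]
  congr 1
  · simp [ZMod.card]
  · exact (Equiv.sum_comp (Equiv.piCongrRight fun _ : Fin s => cod) g).symm

theorem sum_bool_eq {s : ℕ} {E : Type*} [AddCommGroup E] [Module ℝ E] (g : (Fin s → Bool) → E) :
    ((2 : ℝ) ^ s)⁻¹ • ∑ η : Fin s → Bool, g η =
      avg fun ε : Fin s → ZMod 2 => g (fun i => cod (ε i)) := by
  unfold avg
  congr 1
  · simp [ZMod.card]
  · exact (Equiv.sum_comp (Equiv.piCongrRight fun _ : Fin s => cod) g).symm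

/-- Endgame in the form of `IsKConvex`. -/
theorem endgame_bool {X Y : Type*} [NormedAddCommGroup X] [NormedSpace ℝ X]
    [NormedAddCommGroup Y] [NormedSpace ℝ Y]
    (T : X →ₗ[ℝ] Y) {q : ℝ} (hq0 : 0 < q) (hq1 : q < 1) {S0 : ℝ} (hS0 : 0 ≤ S0)
    (H : ∀ (j : ℕ) (f : (Fin j → ZMod 2) → X),
      (avg fun b : Fin j → ZMod 2 => ‖avg fun a : Fin j → ZMod 2 => χ a b • T (f a)‖ ^ 2)
        ≤ (S0 * q ^ j) ^ 2 * avg (fun a => ‖f a‖ ^ 2))
    (s : ℕ) (f : (Fin s → Bool) → X) :
    (signAverage fun ε : Fin s → Bool =>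
        ‖∑ i : Fin s, signVal (ε i) •
            (((2 : ℝ) ^ s)⁻¹ • ∑ η : Fin s → Bool, signVal (η i) • T (f η))‖ ^ (2 : ℝ)) ≤
      (2 * Real.exp (s0 q) * S0) ^ 2 * signAverage fun ε : Fin s → Bool => ‖f ε‖ ^ (2 : ℝ) := by
  have h := endgame_zmod T hq0 hq1 hS0 H (fun ε : Fin s → ZMod 2 => f (fun i => cod (ε i)))
  rw [signAverage_eq, signAverage_eq]
  simp only [sum_bool_eq, signVal_cod, Real.rpow_ofNat]
  exact h

/-- Endgame for the identity: K-convexity. -/
theorem isKConvex_of_gain {X : Type*} [NormedAddCommGroup X] [NormedSpace ℝ X]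
    {q : ℝ} (hq0 : 0 < q) (hq1 : q < 1) {S0 : ℝ} (hS0 : 0 ≤ S0)
    (H : ∀ (j : ℕ) (f : (Fin j → ZMod 2) → X),
      (avg fun b : Fin j → ZMod 2 => ‖avg fun a : Fin j → ZMod 2 => χ a b • f a‖ ^ 2)
        ≤ (S0 * q ^ j) ^ 2 * avg (fun a => ‖f a‖ ^ 2)) : IsKConvex X := by
  refine ⟨2 * Real.exp (s0 q) * S0, fun s f => ?_⟩
  exact endgame_bool (LinearMap.id : X →ₗ[ℝ] X) hq0 hq1 hS0 (fun j f => H j f) s f

end Crest.Agent.R118.Endgame827
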