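import Crest.Agent.R118.Glue_324
import Crest.Agent.R118.Endgame_827

/-!
Row 118 (S0158): the endgame in the exact shape of the hypothesis `hEnd` of `Glue324.glue`.
-/

set_option autoImplicit false

open Finset
open Crest.Agent.R118.Base324
open Crest.AnalysisR

namespace Crest.Agent.R118.Endgame827

universe u

open Crest.Agent.R118.Glue324 in
theorem walshZ_of_walshB {X Y : Type*} [NormedAddCommGroup X] [NormedSpace ℝ X]
    [NormedAddCommGroup Y] [NormedSpace ℝ Y] (T : X →ₗ[ℝ] Y) (S β : ℝ) (h : WalshB T S β) :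
    WalshZ T S β := by
  intro j f
  let e : (Fin j → Bool) ≃ (Fin j → ZMod 2) := Equiv.arrowCongr (Equiv.refl _) bz
  have h1 := h j (fun v => f (e v))
  rw [signAverage_eq_avg, signAverage_eq_avg] at h1
  rw [← avg_equiv e, ← avg_equiv e (fun v => ‖f v‖ ^ 2)]
  have h2 : ∀ a : Fin j → Bool, (avg fun v : Fin j → ZMod 2 => χ v (e a) • T (f v))
      = ((2 : ℝ) ^ j)⁻¹ • ∑ b : Fin j → Bool,
        (∏ i, if a i && b i then (-1 : ℝ) else 1) • T (f (e b)) := by
    intro a
    rw [← avg_equiv e]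
    have h3 : ∀ b : Fin j → Bool, χ (e b) (e a) = ∏ i, if a i && b i then (-1 : ℝ) else 1 := by
      intro b
      rw [χ_pi]
      apply Finset.prod_congr rfl
      intro i _
      rw [χ_zmod2]
      have ha : e a i = bz (a i) := rfl
      have hb : e b i = bz (b i) := rfl
      rw [ha, hb]
      cases a i <;> cases b i <;> simp [bz]
    simp only [h3, avg]
    simp
  simpa [h2] using h1

theorem hEnd : ∀ (S0 β : ℝ), 0 < β → β < 1 → 0 ≤ S0 → ∃ k : ℝ, ∀ (Z : Type u) (X : Type u)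
      [NormedAddCommGroup Z] [NormedSpace ℝ Z] [NormedAddCommGroup X] [NormedSpace ℝ X]
      (T : Z →ₗ[ℝ] X), Glue324.WalshB T S0 β → ∀ (s : ℕ) (g : (Fin s → Bool) → Z),
        signAverage (fun ε : Fin s → Bool =>
          ‖∑ i : Fin s, signVal (ε i) •
            (((2 : ℝ) ^ s)⁻¹ • ∑ η : Fin s → Bool, signVal (η i) • T (g η))‖ ^ 2)
          ≤ k ^ 2 * signAverage fun ε => ‖g ε‖ ^ 2 := by
  intro S0 β hβ0 hβ1 hS0
  refine ⟨2 * Real.exp (s0 β) * S0, ?_⟩
  intro Z X _ _ _ _ T hT s g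
  have h := endgame_bool T hβ0 hβ1 hS0 (walshZ_of_walshB T S0 β hT) s g
  simpa only [Real.rpow_ofNat] using h

end Crest.Agent.R118.Endgame827
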