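import Crest.Agent.R118.EndKey_827

set_option linter.unusedSectionVars false

open Finset
open Crest.Agent.R118.Base324
open Crest.AnalysisR

namespace Crest.Agent.R118.Endgame827

section Cube3

variable {ι : Type} [Fintype ι] [DecidableEq ι]
variable {X Y : Type*} [NormedAddCommGroup X] [NormedSpace ℝ X] [NormedAddCommGroup Y]
  [NormedSpace ℝ Y]

/-- weights of the random set -/
noncomputable def wt (r : ℝ) (A : Finset ι) : ℝ :=
  (1 - Real.exp (-r)) ^ A.card * Real.exp (-r) ^ (Fintype.card ι - A.card)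

theorem wt_nonneg {r : ℝ} (hr : 0 ≤ r) (A : Finset ι) : 0 ≤ wt r A := by
  unfold wt
  have : Real.exp (-r) ≤ 1 := Real.exp_le_one_iff.mpr (by linarith)
  have h2 : 0 ≤ 1 - Real.exp (-r) := by linarith
  have h3 := Real.exp_pos (-r)
  positivity

theorem sum_wt_dj (r : ℝ) (S : Finset ι) :
    ∑ A : Finset ι, wt r A * dj A S = Real.exp (-(r * S.card)) := by
  have h1 : ∑ A : Finset ι, wt r A * dj A S = ∑ A ∈ (Sᶜ).powerset, wt r A := by
    have h0 : ∀ A : Finset ι, wt r A * dj A S = if A ∈ (Sᶜ).powerset then wt r A else 0 := by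
      intro A
      unfold dj
      by_cases h : Disjoint A S
      · rw [if_pos h, if_pos, mul_one]
        rw [Finset.mem_powerset]
        exact Finset.subset_compl_iff_disjoint_right.mpr h
      · rw [if_neg h, if_neg, mul_zero]
        rw [Finset.mem_powerset]
        intro h'
        exact h (Finset.subset_compl_iff_disjoint_right.mp h')
    simp only [h0]
    rw [Finset.sum_ite_mem, Finset.univ_inter]
  rw [h1]
  have h2 : ∀ A ∈ (Sᶜ).powerset, wt r A = Real.exp (-r) ^ S.card *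
      ((1 - Real.exp (-r)) ^ A.card * Real.exp (-r) ^ ((Sᶜ).card - A.card)) := by
    intro A hA
    unfold wt
    have hA' : A.card ≤ (Sᶜ).card := Finset.card_le_card (Finset.mem_powerset.mp hA)
    have hc : Fintype.card ι - A.card = S.card + ((Sᶜ).card - A.card) := by
      rw [Finset.card_compl] at hA' ⊢
      have := Finset.card_le_univ S
      omega
    rw [hc, pow_add]
    ring
  rw [Finset.sum_congr rfl h2, ← Finset.mul_sum, Finset.sum_pow_mul_eq_add_pow]
  rw [sub_add_cancel, one_pow, mul_one, ← Real.exp_nat_mul]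
  congr 1
  ring

theorem sum_wt (r : ℝ) : ∑ A : Finset ι, wt r A = 1 := by
  have h := sum_wt_dj (ι := ι) r ∅
  simpa [dj] using h

/-- Jensen for weighted sums -/
theorem norm_sum_sq_le {κ : Type*} [Fintype κ] (c : κ → ℝ) (hc : ∀ k, 0 ≤ c k)
    (h1 : ∑ k, c k = 1) (y : κ → Y) : ‖∑ k, c k • y k‖ ^ 2 ≤ ∑ k, c k * ‖y k‖ ^ 2 := by
  have h2 : ‖∑ k, c k • y k‖ ≤ ∑ k, c k * ‖y k‖ := by
    refine (norm_sum_le _ _).trans (le_of_eq ?_)
    refine Finset.sum_congr rfl (fun k _ => ?_)
    rw [norm_smul, Real.norm_of_nonneg (hc k)]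
  have h3 : (∑ k, c k * ‖y k‖) ^ 2 ≤ ∑ k, c k * ‖y k‖ ^ 2 := by
    have h4 := Finset.sum_mul_sq_le_sq_mul_sq Finset.univ (fun k => Real.sqrt (c k))
      (fun k => Real.sqrt (c k) * ‖y k‖)
    have e1 : ∀ k, Real.sqrt (c k) * (Real.sqrt (c k) * ‖y k‖) = c k * ‖y k‖ := by
      intro k; rw [← mul_assoc, Real.mul_self_sqrt (hc k)]
    have e2 : ∀ k, Real.sqrt (c k) ^ 2 = c k := fun k => Real.sq_sqrt (hc k)
    simp only [e1, e2, mul_pow, h1, one_mul] at h4
    exact h4
  calc ‖∑ k, c k • y k‖ ^ 2 ≤ (∑ k, c k * ‖y k‖) ^ 2 := by gcongr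
    _ ≤ _ := h3

theorem sq_sum_le {κ : Type*} [Fintype κ] {A : Type} [Fintype A] (c : κ → ℝ) (hc : ∀ k, 0 ≤ c k)
    (h1 : ∑ k, c k = 1) (F : κ → A → Y) {B : ℝ} (hB : ∀ k, sq (F k) ≤ B) :
    sq (fun a => ∑ k, c k • F k a) ≤ B := by
  have h2 : sq (fun a => ∑ k, c k • F k a) ≤ avg fun a => ∑ k, c k * ‖F k a‖ ^ 2 := by
    unfold sq
    exact avg_mono fun a => norm_sum_sq_le c hc h1 _
  refine h2.trans ?_
  rw [avg_sum]
  calc ∑ k, avg (fun a => c k * ‖F k a‖ ^ 2) = ∑ k, c k * sq (F k) := by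
        refine Finset.sum_congr rfl (fun k _ => ?_)
        rw [avg_mul_left]
        rfl
    _ ≤ ∑ k, c k * B := Finset.sum_le_sum fun k _ => mul_le_mul_of_nonneg_left (hB k) (hc k)
    _ = B := by rw [← Finset.sum_mul, h1, one_mul]

/-- replace the disjointness factors by exponentials one at a time -/
theorem mixed (T : X →ₗ[ℝ] Y) {j : ℕ} {R : ℝ}
    (H : ∀ (f : (Fin j → ZMod 2) → X),
      (avg fun b : Fin j → ZMod 2 => ‖avg fun a : Fin j → ZMod 2 => χ a b • T (f a)‖ ^ 2)
        ≤ R ^ 2 * avg (fun a => ‖f a‖ ^ 2))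
    (f : (ι → ZMod 2) → X) (L : List ℝ) (hL : ∀ t ∈ L, 0 < t) :
    ∀ (L2 : List (Finset ι)), L.length + L2.length = j →
    sq (Mm (fun S => (L.map fun t => (1/4 - 3/4 * Real.exp (-(t * S.card)))).prod *
      (L2.map fun A => (1/4 - 3/4 * dj A S)).prod) (fun ε => T (f ε))) ≤ R ^ 2 * sq f := by
  induction L with
  | nil =>
    intro L2 hlen
    simp only [List.length_nil, zero_add] at hlen
    subst hlen
    have h := key T H (fun i => L2.get i) f
    have h2 : (fun S : Finset ι => (List.map (fun t : ℝ => (1/4 - 3/4 * Real.exp (-(t * S.card)))) []).prod *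
      (L2.map fun A => (1/4 - 3/4 * dj A S)).prod) =
        fun S => ∏ i, (1/4 - 3/4 * dj (L2.get i) S) := by
      funext S
      simp only [List.map_nil, List.prod_nil, one_mul]
      rw [← Fin.prod_univ_fun_getElem L2 (fun A => (1/4 - 3/4 * dj A S))]
      rfl
    rw [h2]
    exact h
  | cons t L ih =>
    intro L2 hlen
    have ht : 0 < t := hL t (by simp)
    have hL' : ∀ t ∈ L, 0 < t := fun t' h' => hL t' (by simp [h'])
    have h2 : (fun S : Finset ι => ((t :: L).map fun t => (1/4 - 3/4 * Real.exp (-(t * S.card)))).prod *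
      (L2.map fun A => (1/4 - 3/4 * dj A S)).prod) =
        fun S => ∑ A : Finset ι, wt t A * ((L.map fun t => (1/4 - 3/4 * Real.exp (-(t * S.card)))).prod *
      ((A :: L2).map fun A => (1/4 - 3/4 * dj A S)).prod) := by
      funext S
      simp only [List.map_cons, List.prod_cons]
      rw [← sum_wt_dj t S]
      have e : (1/4 - 3/4 * ∑ A : Finset ι, wt t A * dj A S) =
          ∑ A : Finset ι, wt t A * (1/4 - 3/4 * dj A S) := by
        have : ∀ A : Finset ι, wt t A * (1/4 - 3/4 * dj A S) =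
            1/4 * wt t A - 3/4 * (wt t A * dj A S) := by
          intro A; ring
        simp only [this]
        rw [Finset.sum_sub_distrib, ← Finset.mul_sum, ← Finset.mul_sum, sum_wt]
        ring
      rw [e, Finset.sum_mul, Finset.sum_mul]
      refine Finset.sum_congr rfl (fun A _ => ?_)
      ring
    rw [h2]
    have h3 : Mm (fun S => ∑ A : Finset ι, wt t A * ((L.map fun t => (1/4 - 3/4 * Real.exp (-(t * S.card)))).prod *
      ((A :: L2).map fun A => (1/4 - 3/4 * dj A S)).prod)) (fun ε => T (f ε)) =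
      fun ε => ∑ A : Finset ι, wt t A • Mm (fun S => (L.map fun t => (1/4 - 3/4 * Real.exp (-(t * S.card)))).prod *
      ((A :: L2).map fun A => (1/4 - 3/4 * dj A S)).prod) (fun ε => T (f ε)) ε := by
      funext ε
      exact Mm_sum Finset.univ (wt t) _ _ ε
    rw [h3]
    refine sq_sum_le (wt t) (wt_nonneg ht.le) (sum_wt t) _ (fun A => ?_)
    refine ih hL' (A :: L2) ?_
    simp only [List.length_cons] at hlen ⊢
    omega

/-- the bound for the generator multipliers -/
theorem gen_bound (T : X →ₗ[ℝ] Y) {R : ℝ} (L : List ℝ) (hL : ∀ t ∈ L, 0 < t) (r : ℝ) (hr : 0 ≤ r)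
    (H : ∀ (f : (Fin L.length → ZMod 2) → X),
      (avg fun b : Fin L.length → ZMod 2 =>
        ‖avg fun a : Fin L.length → ZMod 2 => χ a b • T (f a)‖ ^ 2)
        ≤ R ^ 2 * avg (fun a => ‖f a‖ ^ 2))
    (f : (ι → ZMod 2) → X) :
    sq (Mm (fun S => gen r L S.card) (fun ε => T (f ε))) ≤ R ^ 2 * sq f := by
  have h1 := mixed T H f L hL [] (by simp)
  simp only [List.map_nil, List.prod_nil, mul_one] at h1
  have h2 : Mm (fun S => gen r L S.card) (fun ε => T (f ε)) =
      fun ε => ∑ A : Finset ι, wt r A •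
        PA A (Mm (fun S => (L.map fun t => (1/4 - 3/4 * Real.exp (-(t * S.card)))).prod)
          (fun ε => T (f ε))) ε := by
    funext ε
    simp only [PA_eq, Mm_Mm]
    rw [← Mm_sum]
    congr 1
    funext S
    unfold gen
    rw [← sum_wt_dj r S, Finset.sum_mul]
    refine Finset.sum_congr rfl (fun A _ => ?_)
    ring
  rw [h2]
  refine sq_sum_le (wt r) (wt_nonneg hr) (sum_wt r) _ (fun A => ?_)
  exact (sq_PA_le A _).trans h1

end Cube3

end Crest.Agent.R118.Endgame827
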