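import Crest.Agent.R118.EndScalar_827
import Crest.Agent.R118.Base_324
import Crest.Prelude.Def_Rademacher

set_option linter.unusedSectionVars false

open Finset
open Crest.Agent.R118.Base324

namespace Crest.Agent.R118.Endgame827

section Cube

variable {ι : Type} [Fintype ι] [DecidableEq ι]
variable {X Y : Type*} [NormedAddCommGroup X] [NormedSpace ℝ X] [NormedAddCommGroup Y]
  [NormedSpace ℝ Y]

/-- Walsh functions -/
noncomputable def w (S : Finset ι) (ε : ι → ZMod 2) : ℝ := ∏ i ∈ S, sg (ε i)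

/-- Walsh coefficients -/
noncomputable def co (S : Finset ι) (F : (ι → ZMod 2) → Y) : Y := avg fun η => w S η • F η

/-- Fourier multiplier -/
noncomputable def Mm (m : Finset ι → ℝ) (F : (ι → ZMod 2) → Y) (ε : ι → ZMod 2) : Y :=
  ∑ S : Finset ι, (m S * w S ε) • co S F

theorem sum_w_mul (ε η : ι → ZMod 2) :
    ∑ S : Finset ι, w S ε * w S η = if ε = η then (2:ℝ) ^ Fintype.card ι else 0 := by
  have h1 : ∑ S : Finset ι, w S ε * w S η = ∏ i, (1 + sg (ε i) * sg (η i)) := by
    rw [Finset.prod_one_add]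
    rw [← Finset.powerset_univ]
    refine Finset.sum_congr rfl (fun S _ => ?_)
    simp only [w, Finset.prod_mul_distrib]
  rw [h1]
  split_ifs with h
  · subst h
    simp only [sg_mul_self]
    rw [Finset.prod_const, Finset.card_univ]
    norm_num
  · obtain ⟨i, hi⟩ := Function.ne_iff.mp h
    apply Finset.prod_eq_zero (Finset.mem_univ i)
    rcases zmod2_cases (ε i) with h1 | h1 <;> rcases zmod2_cases (η i) with h2 | h2
    · exact absurd (h1.trans h2.symm) hi
    · rw [h1, h2]; simp
    · rw [h1, h2]; simp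
    · exact absurd (h1.trans h2.symm) hi

theorem inversion (F : (ι → ZMod 2) → Y) (ε : ι → ZMod 2) :
    ∑ S : Finset ι, w S ε • co S F = F ε := by
  have h1 : ∑ S : Finset ι, w S ε • co S F = avg fun η => (∑ S : Finset ι, w S ε * w S η) • F η := by
    unfold co
    simp only [← avg_smul, smul_smul, Finset.sum_smul]
    rw [← avg_sum]
  rw [h1]
  simp only [sum_w_mul, avg]
  have hc : Fintype.card (ι → ZMod 2) = 2 ^ Fintype.card ι := by
    simp [ZMod.card]
  rw [hc]
  simp only [ite_smul, zero_smul, Finset.sum_ite_eq, Finset.mem_univ, if_true]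
  rw [smul_smul]
  push_cast
  rw [inv_mul_cancel₀ (by positivity), one_smul]

theorem avg_w (S : Finset ι) : avg (fun ε : ι → ZMod 2 => w S ε) = if S = ∅ then 1 else 0 := by
  split_ifs with h
  · subst h
    simp only [w, Finset.prod_empty]
    exact avg_const _
  · obtain ⟨i, hi⟩ := Finset.nonempty_iff_ne_empty.mpr h
    -- translate coordinate i by one
    have h1 : avg (fun ε : ι → ZMod 2 => w S ε) =
        avg (fun ε : ι → ZMod 2 => w S (ε + Pi.single i 1)) :=
      (avg_equiv (Equiv.addRight (Pi.single i 1)) (fun ε : ι → ZMod 2 => w S ε)).symm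
    have h2 : ∀ ε : ι → ZMod 2, w S (ε + Pi.single i 1) = - w S ε := by
      intro ε
      unfold w
      rw [← Finset.mul_prod_erase _ _ hi, ← Finset.mul_prod_erase _ (fun j => sg (ε j)) hi]
      have h3 : ∏ j ∈ S.erase i, sg ((ε + Pi.single i 1 : ι → ZMod 2) j) = ∏ j ∈ S.erase i, sg (ε j) := by
        refine Finset.prod_congr rfl (fun j hj => ?_)
        have : j ≠ i := Finset.ne_of_mem_erase hj
        simp [Pi.single_eq_of_ne this]
      rw [h3]
      simp [sg_add]
    simp only [h2, avg_neg] at h1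
    linarith

/-- indicator of disjointness -/
noncomputable def dj (A S : Finset ι) : ℝ := if Disjoint A S then 1 else 0

/-- resample the coordinates in `A` -/
def mix (A : Finset ι) (η ε : ι → ZMod 2) : ι → ZMod 2 := fun i => if i ∈ A then η i else ε i

theorem w_mix (A S : Finset ι) (η ε : ι → ZMod 2) :
    w S (mix A η ε) = w (S ∩ A) η * w (S \ A) ε := by
  unfold w
  rw [← Finset.prod_inter_mul_prod_sdiff S A]
  congr 1
  · refine Finset.prod_congr rfl (fun i hi => ?_)
    simp [mix, (Finset.mem_inter.mp hi).2]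
  · refine Finset.prod_congr rfl (fun i hi => ?_)
    simp [mix, (Finset.mem_sdiff.mp hi).2]

/-- conditional expectation -/
noncomputable def PA (A : Finset ι) (F : (ι → ZMod 2) → Y) (ε : ι → ZMod 2) : Y :=
  avg fun η => F (mix A η ε)

theorem PA_eq (A : Finset ι) (F : (ι → ZMod 2) → Y) (ε : ι → ZMod 2) :
    PA A F ε = Mm (dj A) F ε := by
  unfold PA Mm
  have h1 : (fun η => F (mix A η ε)) =
      fun η => ∑ S : Finset ι, (w (S ∩ A) η * w (S \ A) ε) • co S F := by
    funext η
    rw [← inversion F (mix A η ε)]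
    simp only [w_mix]
  rw [h1, avg_sum]
  refine Finset.sum_congr rfl (fun S _ => ?_)
  rw [avg_smul_const, avg_mul_right, avg_w]
  congr 1
  unfold dj
  by_cases h : Disjoint A S
  · have h2 : S ∩ A = ∅ := by rw [← Finset.disjoint_iff_inter_eq_empty]; exact h.symm
    have h3 : S \ A = S := by rw [sdiff_eq_left]; exact h.symm
    rw [if_pos h2, if_pos h, h3]
  · have h2 : ¬ (S ∩ A = ∅) := by
      rw [← Finset.disjoint_iff_inter_eq_empty]; exact fun h' => h h'.symm
    rw [if_neg h2, if_neg h]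
    simp

/-- square of the `L²` norm -/
noncomputable def sq {A : Type} [Fintype A] (F : A → Y) : ℝ := avg fun a => ‖F a‖ ^ 2

theorem sq_nonneg' {A : Type} [Fintype A] (F : A → Y) : 0 ≤ sq F :=
  avg_nonneg fun _ => by positivity

theorem norm_avg_sq_le {A : Type} [Fintype A] (F : A → Y) : ‖avg F‖ ^ 2 ≤ avg fun a => ‖F a‖ ^ 2 := by
  have h1 : ‖avg F‖ ≤ avg fun a => ‖F a‖ := by
    have := seminorm_avg_le (normSeminorm ℝ Y) F
    simpa using this
  calc ‖avg F‖ ^ 2 ≤ (avg fun a => ‖F a‖) ^ 2 := by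
        gcongr
    _ ≤ _ := avg_sq_le _

theorem sq_PA_le (A : Finset ι) (F : (ι → ZMod 2) → Y) : sq (PA A F) ≤ sq F := by
  unfold sq
  have h1 : (avg fun ε => ‖PA A F ε‖ ^ 2) ≤ avg fun ε => avg fun η => ‖F (mix A η ε)‖ ^ 2 :=
    avg_mono fun ε => norm_avg_sq_le _
  refine h1.trans (le_of_eq ?_)
  -- involution (ε, η) ↦ (mix A η ε, mix A ε η)
  let e : ((ι → ZMod 2) × (ι → ZMod 2)) ≃ ((ι → ZMod 2) × (ι → ZMod 2)) :=
    { toFun := fun x => (mix A x.2 x.1, mix A x.1 x.2)
      invFun := fun x => (mix A x.2 x.1, mix A x.1 x.2)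
      left_inv := by
        intro x
        ext i <;> simp only [mix] <;> split_ifs <;> rfl
      right_inv := by
        intro x
        ext i <;> simp only [mix] <;> split_ifs <;> rfl }
  have h2 := avg_equiv e (fun x : (ι → ZMod 2) × (ι → ZMod 2) => ‖F x.1‖ ^ 2)
  have h3 : avg (fun x : (ι → ZMod 2) × (ι → ZMod 2) => ‖F x.1‖ ^ 2) = avg fun ε => ‖F ε‖ ^ 2 := by
    rw [avg_prod (fun a (_ : ι → ZMod 2) => ‖F a‖ ^ 2)]
    simp [avg_const]
  rw [h3] at h2
  rw [← h2, avg_prod' (fun a : (ι → ZMod 2) × (ι → ZMod 2) => ‖F (e a).1‖ ^ 2)]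
  rfl

end Cube

end Crest.Agent.R118.Endgame827
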