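import Crest.Agent.R118.EndCube_827

set_option linter.unusedSectionVars false

open Finset
open Crest.Agent.R118.Base324

namespace Crest.Agent.R118.Endgame827

section Cube2

variable {ι : Type} [Fintype ι] [DecidableEq ι]
variable {X Y : Type*} [NormedAddCommGroup X] [NormedSpace ℝ X] [NormedAddCommGroup Y]
  [NormedSpace ℝ Y]

theorem co_w (S S' : Finset ι) (y : Y) :
    co S (fun ε => w S' ε • y) = if S = S' then y else 0 := by
  have h0 : (fun η : ι → ZMod 2 => w S η • w S' η • y) = fun η => (w S η * w S' η) • y := by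
    funext η; rw [smul_smul]
  unfold co
  rw [h0, avg_smul_const]
  have h1 : ∀ η : ι → ZMod 2, w S η * w S' η = w (symmDiff S S') η := by
    intro η
    unfold w
    rw [← Finset.prod_inter_mul_prod_sdiff S S', ← Finset.prod_inter_mul_prod_sdiff S' S,
      Finset.inter_comm S' S, symmDiff_def, Finset.sup_eq_union,
      Finset.prod_union disjoint_sdiff_sdiff]
    have h2 : (∏ i ∈ S ∩ S', sg (η i)) * ∏ i ∈ S ∩ S', sg (η i) = 1 := by
      rw [← Finset.prod_mul_distrib]
      exact Finset.prod_eq_one fun i _ => sg_mul_self _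
    calc _ = ((∏ i ∈ S ∩ S', sg (η i)) * ∏ i ∈ S ∩ S', sg (η i)) *
          ((∏ i ∈ S \ S', sg (η i)) * ∏ i ∈ S' \ S, sg (η i)) := by ring
      _ = _ := by rw [h2, one_mul]
  simp only [h1, avg_w]
  by_cases h : S = S'
  · subst h
    simp
  · rw [if_neg h, if_neg, zero_smul]
    rw [← Finset.bot_eq_empty, symmDiff_eq_bot]
    exact h

theorem co_Mm (m : Finset ι → ℝ) (F : (ι → ZMod 2) → Y) (S : Finset ι) :
    co S (Mm m F) = m S • co S F := by
  have h1 : co S (Mm m F) = ∑ S' : Finset ι, m S' • co S (fun ε => w S' ε • co S' F) := by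
    unfold Mm
    conv_lhs => unfold co
    simp only [Finset.smul_sum]
    rw [avg_sum]
    refine Finset.sum_congr rfl (fun S' _ => ?_)
    conv_rhs => unfold co
    rw [← avg_smul]
    congr 1
    funext η
    simp only [smul_smul]
    congr 1
    ring
  rw [h1]
  simp only [co_w]
  rw [Finset.sum_eq_single S]
  · simp
  · intro b _ hb
    rw [if_neg (Ne.symm hb), smul_zero]
  · simp

theorem Mm_Mm (m m' : Finset ι → ℝ) (F : (ι → ZMod 2) → Y) :
    Mm m (Mm m' F) = Mm (fun S => m S * m' S) F := by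
  funext ε
  unfold Mm
  refine Finset.sum_congr rfl (fun S _ => ?_)
  have := co_Mm m' F S
  unfold Mm at this
  rw [this, smul_smul]
  congr 1
  ring

theorem co_map (T : X →ₗ[ℝ] Y) (S : Finset ι) (f : (ι → ZMod 2) → X) :
    co S (fun ε => T (f ε)) = T (co S f) := by
  unfold co
  rw [map_avg]
  simp only [map_smul]

theorem Mm_map (T : X →ₗ[ℝ] Y) (m : Finset ι → ℝ) (f : (ι → ZMod 2) → X) (ε : ι → ZMod 2) :
    Mm m (fun ε => T (f ε)) ε = T (Mm m f ε) := by
  unfold Mm
  rw [map_sum]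
  refine Finset.sum_congr rfl (fun S _ => ?_)
  rw [co_map, map_smul]

theorem Mm_sum {κ : Type*} (s : Finset κ) (c : κ → ℝ) (m : κ → Finset ι → ℝ)
    (F : (ι → ZMod 2) → Y) (ε : ι → ZMod 2) :
    Mm (fun S => ∑ k ∈ s, c k * m k S) F ε = ∑ k ∈ s, c k • Mm (m k) F ε := by
  unfold Mm
  simp only [Finset.smul_sum]
  rw [Finset.sum_comm]
  refine Finset.sum_congr rfl (fun S _ => ?_)
  rw [Finset.sum_mul, Finset.sum_smul]
  refine Finset.sum_congr rfl (fun k _ => ?_)
  rw [smul_smul]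
  congr 1
  ring

theorem Mm_avg {A : Type*} [Fintype A] (m : A → Finset ι → ℝ)
    (F : (ι → ZMod 2) → Y) (ε : ι → ZMod 2) :
    Mm (fun S => avg fun a => m a S) F ε = avg fun a => Mm (m a) F ε := by
  have h := Mm_sum (Finset.univ : Finset A) (fun _ => (Fintype.card A : ℝ)⁻¹) m F ε
  unfold avg
  rw [Finset.smul_sum, ← h]
  congr 1
  funext S
  rw [smul_eq_mul, Finset.mul_sum]

theorem Mm_smul (c : ℝ) (m : Finset ι → ℝ) (F : (ι → ZMod 2) → Y) (ε : ι → ZMod 2) :
    Mm (fun S => c * m S) F ε = c • Mm m F ε := by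
  unfold Mm
  rw [Finset.smul_sum]
  refine Finset.sum_congr rfl (fun S _ => ?_)
  rw [smul_smul, mul_assoc]

theorem avg_prod_pi {κ : Type} [Fintype κ] [DecidableEq κ] (G : κ → ZMod 2 → ℝ) :
    (avg fun a : κ → ZMod 2 => ∏ i, G i (a i)) = ∏ i, avg (G i) := by
  unfold avg
  simp only [smul_eq_mul]
  rw [Finset.prod_mul_distrib]
  congr 1
  · simp [ZMod.card]
  · rw [Finset.prod_univ_sum, Fintype.piFinset_univ]

/-- the sign of `(x,y)`: `+1` iff `x = y = 0` -/
noncomputable def s1 (x y : ZMod 2) : ℝ := - sg ((1 + x) * (1 + y))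

/-- `c^x` -/
noncomputable def cp (c : ℝ) (x : ZMod 2) : ℝ := if x = 0 then 1 else c

theorem avg_s1 (c : ℝ) (hc : c * c = c) :
    (avg fun x => avg fun y => s1 x y * cp c x * cp c y) = 1/4 - 3/4 * c := by
  simp only [avg_zmod2, smul_eq_mul]
  have h11 : (1:ZMod 2) + 1 = 0 := by decide
  have h10 : (1:ZMod 2) ≠ 0 := by decide
  simp only [s1, cp, add_zero, mul_one, h11, mul_zero, sg_zero, sg_one, if_true, h10, if_false]
  linear_combination (-1/4) * hc

theorem dj_mul_self (A S : Finset ι) : dj A S * dj A S = dj A S := by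
  unfold dj; split_ifs <;> simp

/-- union of the `A i` with `a i = 1` -/
def UA {j : ℕ} (A : Fin j → Finset ι) (a : Fin j → ZMod 2) : Finset ι :=
  (Finset.univ.filter fun i => a i ≠ 0).biUnion A

theorem dj_UA {j : ℕ} (A : Fin j → Finset ι) (a : Fin j → ZMod 2) (S : Finset ι) :
    dj (UA A a) S = ∏ i, cp (dj (A i) S) (a i) := by
  unfold UA dj cp
  by_cases h : ∀ i, a i ≠ 0 → Disjoint (A i) S
  · rw [if_pos, Finset.prod_eq_one]
    · intro i _
      split_ifs with h1 h2
      · rfl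
      · rfl
      · exact absurd (h i h1) h2
    · rw [Finset.disjoint_biUnion_left]
      intro i hi
      exact h i (Finset.mem_filter.mp hi).2
  · push Not at h
    obtain ⟨i, hi, hd⟩ := h
    rw [if_neg, Finset.prod_eq_zero (Finset.mem_univ i)]
    · rw [if_neg hi, if_neg hd]
    · rw [Finset.disjoint_biUnion_left]
      intro h'
      exact hd (h' i (Finset.mem_filter.mpr ⟨Finset.mem_univ _, hi⟩))

theorem prod_identity {j : ℕ} (A : Fin j → Finset ι) (S : Finset ι) :
    (avg fun b : Fin j → ZMod 2 => avg fun a : Fin j → ZMod 2 =>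
      (∏ i, s1 (a i) (b i)) * (dj (UA A b) S * dj (UA A a) S)) =
      ∏ i, (1/4 - 3/4 * dj (A i) S) := by
  rw [avg_comm]
  have h1 : ∀ a : Fin j → ZMod 2, (avg fun b : Fin j → ZMod 2 =>
      (∏ i, s1 (a i) (b i)) * (dj (UA A b) S * dj (UA A a) S)) =
      ∏ i, avg fun y => s1 (a i) y * cp (dj (A i) S) (a i) * cp (dj (A i) S) y := by
    intro a
    rw [← avg_prod_pi]
    congr 1
    funext b
    rw [dj_UA, dj_UA, ← Finset.prod_mul_distrib, ← Finset.prod_mul_distrib]
    refine Finset.prod_congr rfl (fun i _ => ?_)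
    ring
  simp only [h1]
  rw [avg_prod_pi (fun i x => avg fun y => s1 x y * cp (dj (A i) S) x * cp (dj (A i) S) y)]
  refine Finset.prod_congr rfl (fun i _ => ?_)
  exact avg_s1 _ (dj_mul_self _ _)

theorem prod_s1 {j : ℕ} (a b : Fin j → ZMod 2) :
    ∏ i, s1 (a i) (b i) = (-1)^j * χ (a + 1) (b + 1) := by
  rw [χ_pi]
  unfold s1
  have : ∀ i, - sg ((1 + a i) * (1 + b i)) = (-1) * χ ((a + 1) i) ((b + 1) i) := by
    intro i
    rw [χ_zmod2]
    simp [add_comm]
  simp only [this]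
  rw [Finset.prod_mul_distrib]
  simp

/-- Key lemma. -/
theorem key (T : X →ₗ[ℝ] Y) {j : ℕ} {R : ℝ}
    (H : ∀ (f : (Fin j → ZMod 2) → X),
      (avg fun b : Fin j → ZMod 2 => ‖avg fun a : Fin j → ZMod 2 => χ a b • T (f a)‖ ^ 2)
        ≤ R ^ 2 * avg (fun a => ‖f a‖ ^ 2))
    (A : Fin j → Finset ι) (f : (ι → ZMod 2) → X) :
    sq (Mm (fun S => ∏ i, (1/4 - 3/4 * dj (A i) S)) (fun ε => T (f ε))) ≤ R ^ 2 * sq f := by
  -- the twisted averages
  set G : (Fin j → ZMod 2) → (ι → ZMod 2) → Y := fun b ε =>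
    avg fun a : Fin j → ZMod 2 => (∏ i, s1 (a i) (b i)) • T (PA (UA A a) f ε) with hG
  have e1 : ∀ ε, Mm (fun S => ∏ i, (1/4 - 3/4 * dj (A i) S)) (fun ε => T (f ε)) ε =
      avg fun b : Fin j → ZMod 2 => PA (UA A b) (G b) ε := by
    intro ε
    simp only [← prod_identity]
    rw [Mm_avg]
    congr 1
    funext b
    rw [PA_eq]
    have : G b = Mm (fun S => avg fun a : Fin j → ZMod 2 =>
        (∏ i, s1 (a i) (b i)) * dj (UA A a) S) (fun ε => T (f ε)) := by
      funext ε
      rw [Mm_avg, hG]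
      simp only
      congr 1
      funext a
      rw [PA_eq, Mm_smul, Mm_map]
    rw [this, Mm_Mm]
    congr 1
    funext S
    rw [← avg_mul_left]
    congr 1
    funext a
    ring
  have e2 : sq (Mm (fun S => ∏ i, (1/4 - 3/4 * dj (A i) S)) (fun ε => T (f ε))) ≤
      avg fun b : Fin j → ZMod 2 => sq (G b) := by
    have h1 : sq (Mm (fun S => ∏ i, (1/4 - 3/4 * dj (A i) S)) (fun ε => T (f ε))) ≤
        avg fun ε => avg fun b : Fin j → ZMod 2 => ‖PA (UA A b) (G b) ε‖ ^ 2 := by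
      unfold sq
      refine avg_mono (fun ε => ?_)
      rw [e1]
      exact norm_avg_sq_le _
    refine h1.trans ?_
    rw [avg_comm]
    exact avg_mono fun b => sq_PA_le _ _
  have e3 : (avg fun b : Fin j → ZMod 2 => sq (G b)) ≤
      avg fun ε => R ^ 2 * avg fun a : Fin j → ZMod 2 => ‖PA (UA A a) f ε‖ ^ 2 := by
    unfold sq
    rw [avg_comm]
    refine avg_mono (fun ε => ?_)
    have h2 := H (fun a => PA (UA A (a + 1)) f ε)
    have h11 : ∀ x : Fin j → ZMod 2, x + 1 + 1 = x := by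
      intro x
      funext i
      have : (1:ZMod 2) + 1 = 0 := by decide
      simp [add_assoc, this]
    have h3 : (avg fun a : Fin j → ZMod 2 => ‖PA (UA A (a + 1)) f ε‖ ^ 2) =
        avg fun a : Fin j → ZMod 2 => ‖PA (UA A a) f ε‖ ^ 2 :=
      avg_equiv (Equiv.addRight 1) (fun a : Fin j → ZMod 2 => ‖PA (UA A a) f ε‖ ^ 2)
    rw [h3] at h2
    refine le_trans (le_of_eq ?_) h2
    rw [← avg_equiv (Equiv.addRight (1 : Fin j → ZMod 2))
      (fun b : Fin j → ZMod 2 => ‖avg fun a : Fin j → ZMod 2 =>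
        χ a b • T (PA (UA A (a + 1)) f ε)‖ ^ 2)]
    congr 1
    funext b
    simp only [Equiv.coe_addRight]
    congr 1
    rw [← avg_equiv (Equiv.addRight (1 : Fin j → ZMod 2))
      (fun a : Fin j → ZMod 2 => χ a (b + 1) • T (PA (UA A (a + 1)) f ε))]
    simp only [Equiv.coe_addRight, h11, hG, prod_s1, mul_smul]
    rw [avg_smul, norm_smul]
    simp
  have e4 : (avg fun ε => R ^ 2 * avg fun a : Fin j → ZMod 2 => ‖PA (UA A a) f ε‖ ^ 2) ≤
      R ^ 2 * sq f := by
    rw [avg_mul_left]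
    refine mul_le_mul_of_nonneg_left ?_ (sq_nonneg R)
    rw [avg_comm]
    refine avg_le_const (sq_nonneg' f) (fun a => ?_)
    exact sq_PA_le (UA A a) f
  exact e2.trans (e3.trans e4)

end Cube2

end Crest.Agent.R118.Endgame827
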