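import Mathlib

open MeasureTheory Complex Set Filter
open scoped Real FourierTransform Topology

namespace Crest.Agent.R118.Endgame827

theorem integrableOn_sq_exp (b : ℝ) (hb : 0 < b) :
    IntegrableOn (fun t : ℝ => t ^ 2 * Real.exp (-(b * t))) (Ioi 0) := by
  have h := integrableOn_rpow_mul_exp_neg_mul_rpow (p := 1) (s := 2) (b := b) (by norm_num)
    one_pos hb
  refine h.congr_fun (fun t ht => ?_) measurableSet_Ioi
  simp [Real.rpow_one, neg_mul]

theorem integral_sq_exp (c : ℂ) (hc : 0 < c.re) :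
    IntegrableOn (fun t : ℝ => (t : ℂ) ^ 2 * Complex.exp (-(c * t))) (Ioi 0) ∧
    ∫ t in Ioi (0 : ℝ), (t : ℂ) ^ 2 * Complex.exp (-(c * t)) = 2 * (1 / c) ^ 3 := by
  have hc0 : c ≠ 0 := by
    intro h; rw [h] at hc; simp at hc
  have hint : IntegrableOn (fun t : ℝ => (t : ℂ) ^ 2 * Complex.exp (-(c * t))) (Ioi 0) := by
    have h := integrableOn_sq_exp c.re hc
    refine Integrable.mono' h ?_ ?_
    · exact (by fun_prop : Continuous fun t : ℝ => (t : ℂ) ^ 2 * Complex.exp (-(c * t))).aestronglyMeasurable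
    · refine Eventually.of_forall (fun t => ?_)
      simp [Complex.norm_exp]
  refine ⟨hint, ?_⟩
  have hderiv : ∀ x ∈ Ici (0:ℝ), HasDerivAt
      (fun t : ℝ => -(((t : ℂ) ^ 2 * (1 / c) + 2 * t * (1 / c) ^ 2 + 2 * (1 / c) ^ 3) *
        Complex.exp (-(c * t)))) ((x : ℂ) ^ 2 * Complex.exp (-(c * x))) x := by
    intro x _
    have h1 : HasDerivAt (fun t : ℝ => (t : ℂ)) 1 x := Complex.ofRealCLM.hasDerivAt
    have h2 : HasDerivAt (fun t : ℝ => Complex.exp (-(c * t))) (Complex.exp (-(c * x)) * (-(c * 1))) x :=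
      ((h1.const_mul c).neg).cexp
    have h3 : HasDerivAt (fun t : ℝ => (t : ℂ) ^ 2 * (1 / c) + 2 * t * (1 / c) ^ 2 + 2 * (1 / c) ^ 3)
        ((2 : ℕ) * (x : ℂ) ^ (2 - 1) * 1 * (1 / c) + 2 * 1 * (1 / c) ^ 2) x :=
      (((h1.pow 2).mul_const (1 / c)).add ((h1.const_mul 2).mul_const ((1 / c) ^ 2))).add_const _
    have h4 := (h3.mul h2).neg
    convert! h4 using 1
    simp only [Nat.cast_ofNat, mul_one, one_div]
    field_simp
    ring
  have hlim : Tendsto (fun t : ℝ => -(((t : ℂ) ^ 2 * (1 / c) + 2 * t * (1 / c) ^ 2 + 2 * (1 / c) ^ 3) *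
        Complex.exp (-(c * t)))) atTop (𝓝 0) := by
    have key : ∀ n : ℕ, Tendsto (fun t : ℝ => (t : ℂ) ^ n * Complex.exp (-(c * t))) atTop (𝓝 0) := by
      intro n
      rw [tendsto_zero_iff_norm_tendsto_zero]
      have h := Real.tendsto_pow_mul_exp_neg_atTop_nhds_zero n
      have h2 : Tendsto (fun t : ℝ => c.re * t) atTop atTop := tendsto_id.const_mul_atTop hc
      have h3 := (h.comp h2).const_mul ((1 / c.re) ^ n)
      rw [mul_zero] at h3
      refine h3.congr' ?_
      filter_upwards [eventually_ge_atTop 0] with t ht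
      simp only [Function.comp_apply, norm_mul, norm_pow, Complex.norm_real, Real.norm_eq_abs,
        abs_of_nonneg ht, Complex.norm_exp, neg_re, mul_re, ofReal_re, ofReal_im, mul_zero, sub_zero]
      rw [← mul_assoc, ← mul_pow]
      congr 2
      field_simp
    have h5 := (((key 2).const_mul (1 / c)).add ((key 1).const_mul (2 * (1 / c) ^ 2))).add
      ((key 0).const_mul (2 * (1 / c) ^ 3))
    have h6 := h5.neg
    simp only [mul_zero, add_zero, neg_zero] at h6
    refine h6.congr (fun t => ?_)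
    ring
  have h := integral_Ioi_of_hasDerivAt_of_tendsto' hderiv hint hlim
  rw [h]
  simp

/-- Fourier inversion of the Gamma density `t^2 e^{-bt}` at `t = 1`. -/
theorem integral_exp_inv_cube (b : ℝ) (hb : 0 < b) :
    Integrable (fun y : ℝ => Complex.exp (y * I) * (1 / ((b : ℂ) + y * I)) ^ 3) ∧
    ∫ y : ℝ, Complex.exp (y * I) * (1 / ((b : ℂ) + y * I)) ^ 3 = ((π * Real.exp (-b) : ℝ) : ℂ) := by
  have hnz : ∀ y : ℝ, (b : ℂ) + y * I ≠ 0 := by
    intro y h
    have := congrArg Complex.re h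
    simp at this
    linarith
  have hbound : ∀ y : ℝ, ‖(1 / ((b : ℂ) + y * I)) ^ 3‖ ≤ (1 + b⁻¹ ^ 2) * b⁻¹ * (1 + y ^ 2)⁻¹ := by
    intro y
    have h1 : ‖(b : ℂ) + y * I‖ ^ 2 = b ^ 2 + y ^ 2 := by
      rw [Complex.sq_norm, Complex.normSq_apply]; simp; ring
    have hpos : 0 < ‖(b : ℂ) + y * I‖ := norm_pos_iff.mpr (hnz y)
    have hge : b ≤ ‖(b : ℂ) + y * I‖ := by
      nlinarith [h1, sq_nonneg y]
    rw [norm_pow, norm_div, norm_one, one_div, inv_pow]
    have h3 : ‖(b : ℂ) + y * I‖ ^ 3 ≥ b * (b ^ 2 + y ^ 2) := by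
      rw [pow_succ, h1, mul_comm]
      exact mul_le_mul_of_nonneg_right hge (by positivity)
    calc (‖(b : ℂ) + y * I‖ ^ 3)⁻¹ ≤ (b * (b ^ 2 + y ^ 2))⁻¹ := by
          apply inv_anti₀ (by positivity) h3
      _ ≤ (1 + b⁻¹ ^ 2) * b⁻¹ * (1 + y ^ 2)⁻¹ := by
          rw [mul_inv, mul_comm (1 + b⁻¹ ^ 2) b⁻¹, mul_assoc]
          apply mul_le_mul_of_nonneg_left _ (by positivity)
          rw [inv_le_iff_one_le_mul₀ (by positivity), ← div_eq_mul_inv, div_mul_eq_mul_div,
            le_div_iff₀ (by positivity)]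
          have : (1 + b⁻¹ ^ 2) * (b ^ 2 + y ^ 2) = b ^ 2 + y ^ 2 + 1 + y ^ 2 * b⁻¹ ^ 2 := by
            field_simp; ring
          rw [this]
          nlinarith [sq_nonneg b, mul_nonneg (sq_nonneg y) (sq_nonneg b⁻¹)]
  have hmeas : Continuous (fun y : ℝ => Complex.exp (y * I) * (1 / ((b : ℂ) + y * I)) ^ 3) := by
    refine Continuous.mul (by fun_prop) (Continuous.pow ?_ 3)
    exact Continuous.div continuous_const (by fun_prop) hnz
  have hint : Integrable (fun y : ℝ => Complex.exp (y * I) * (1 / ((b : ℂ) + y * I)) ^ 3) := by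
    refine Integrable.mono' (integrable_inv_one_add_sq.const_mul ((1 + b⁻¹ ^ 2) * b⁻¹))
      hmeas.aestronglyMeasurable (Eventually.of_forall (fun y => ?_))
    rw [norm_mul, Complex.norm_exp_ofReal_mul_I, one_mul]
    exact hbound y
  refine ⟨hint, ?_⟩
  -- the function to be inverted
  let f : ℝ → ℂ := (Ioi (0:ℝ)).indicator (fun t => (t : ℂ) ^ 2 * Complex.exp (-((b:ℂ) * t)))
  have hf : Integrable f := by
    rw [integrable_indicator_iff measurableSet_Ioi]
    exact (integral_sq_exp (b : ℂ) (by simpa using hb)).1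
  have hF : ∀ w : ℝ, 𝓕 f w = 2 * (1 / ((b : ℂ) + (2 * π * w : ℝ) * I)) ^ 3 := by
    intro w
    rw [Real.fourier_real_eq_integral_exp_smul]
    have hre : 0 < ((b : ℂ) + (2 * π * w : ℝ) * I).re := by simp; exact hb
    rw [← (integral_sq_exp _ hre).2, ← integral_indicator measurableSet_Ioi]
    congr 1
    ext t
    by_cases ht : t ∈ Ioi (0:ℝ)
    · simp only [f, indicator_of_mem ht, smul_eq_mul]
      rw [mul_left_comm, ← Complex.exp_add]
      congr 2
      push_cast
      ring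
    · simp only [f, indicator_of_notMem ht, smul_zero]
  have hFi : Integrable (𝓕 f) := by
    have h1 : Integrable (fun y : ℝ => (1 / ((b : ℂ) + y * I)) ^ 3) := by
      refine Integrable.mono' (integrable_inv_one_add_sq.const_mul ((1 + b⁻¹ ^ 2) * b⁻¹))
        (Continuous.aestronglyMeasurable ?_) (Eventually.of_forall hbound)
      refine Continuous.pow ?_ 3
      exact Continuous.div continuous_const (by fun_prop) hnz
    have h2 := (h1.comp_mul_left' (R := 2 * π) (by positivity)).const_mul 2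
    refine h2.congr (Eventually.of_forall (fun w => ?_))
    rw [hF w]
  have hcont : ContinuousAt f 1 := by
    have : f =ᶠ[𝓝 1] (fun t : ℝ => (t : ℂ) ^ 2 * Complex.exp (-((b:ℂ) * t))) := by
      filter_upwards [Ioi_mem_nhds (show (0:ℝ) < 1 by norm_num)] with t ht
      simp only [f, indicator_of_mem ht]
    rw [continuousAt_congr this]
    exact (by fun_prop : Continuous (fun t : ℝ => (t : ℂ) ^ 2 * Complex.exp (-((b:ℂ) * t)))).continuousAt
  have hinv := hf.fourierInv_fourier_eq hFi hcont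
  rw [Real.fourierInv_eq'] at hinv
  have hf1 : f 1 = Complex.exp (-(b:ℂ)) := by
    simp only [f, indicator_of_mem (show (1:ℝ) ∈ Ioi (0:ℝ) by simp)]
    simp
  rw [hf1] at hinv
  have hsub : ∫ v : ℝ, Complex.exp ((↑(2 * π * inner ℝ v (1:ℝ)) * Complex.I)) • 𝓕 f v
      = ∫ v : ℝ, (fun y : ℝ => 2 * (Complex.exp (y * I) * (1 / ((b : ℂ) + y * I)) ^ 3)) (2 * π * v) := by
    congr 1
    ext v
    rw [hF v]
    simp only [smul_eq_mul]
    have : inner ℝ v (1:ℝ) = v := by simp
    rw [this]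
    ring
  rw [hsub, Measure.integral_comp_mul_left
    (fun y : ℝ => 2 * (Complex.exp (y * I) * (1 / ((b : ℂ) + y * I)) ^ 3)) (2 * π),
    integral_const_mul] at hinv
  have h2pi : |(2 * π)⁻¹| = (2 * π)⁻¹ := abs_of_pos (by positivity)
  rw [h2pi] at hinv
  have : (∫ y : ℝ, Complex.exp (y * I) * (1 / ((b : ℂ) + y * I)) ^ 3) = π * Complex.exp (-b) := by
    rw [← hinv, Complex.real_smul]
    push_cast
    have hpi : (π : ℂ) ≠ 0 := by exact_mod_cast Real.pi_ne_zero
    generalize (∫ y : ℝ, Complex.exp (y * I) * (1 / ((b : ℂ) + y * I)) ^ 3) = W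
    field_simp
  rw [this]
  push_cast
  ring


/-! ### Multiplier bounds -/

/-- generator functions -/
noncomputable def gen (r : ℝ) (L : List ℝ) (k : ℕ) : ℝ :=
  Real.exp (-(r * k)) * (L.map (fun t => 1 / 4 - 3 / 4 * Real.exp (-(t * k)))).prod

theorem gen_mul (r r' : ℝ) (L L' : List ℝ) (k : ℕ) :
    gen r L k * gen r' L' k = gen (r + r') (L ++ L') k := by
  unfold gen
  rw [List.map_append, List.prod_append, add_mul, neg_add, Real.exp_add]
  ring

/-- the linear functional attached to coefficients `a` -/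
noncomputable def Lam (n : ℕ) (a : ℕ → ℂ) (g : ℕ → ℂ) : ℂ := ∑ k ∈ Finset.range (n + 1), g k * a k

def Bd (q : ℝ) (n : ℕ) (a : ℕ → ℂ) (h : ℕ → ℂ) (C : ℝ) : Prop :=
  ∀ (r : ℝ) (L : List ℝ), 0 ≤ r → (∀ t ∈ L, 0 < t) →
    ‖Lam n a (fun k => (gen r L k : ℂ) * h k)‖ ≤ q ^ L.length * C

/-- `MB q n a g N`: multiplication by `g` has "norm" at most `N`. -/
def MB (q : ℝ) (n : ℕ) (a : ℕ → ℂ) (g : ℕ → ℂ) (N : ℝ) : Prop :=
  ∀ (h : ℕ → ℂ) (C : ℝ), Bd q n a h C → Bd q n a (fun k => g k * h k) (N * C)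

variable {q : ℝ} {n : ℕ} {a : ℕ → ℂ}

theorem Bd.nonneg {h : ℕ → ℂ} {C : ℝ} (H : Bd q n a h C) : 0 ≤ C := by
  have := H 0 [] le_rfl (by simp)
  simp only [List.length_nil, pow_zero, one_mul] at this
  exact le_trans (norm_nonneg _) this

theorem MB.congr {g g' : ℕ → ℂ} {N : ℝ} (H : MB q n a g N) (hg : ∀ k, g' k = g k) :
    MB q n a g' N := by
  have : g' = g := funext hg
  rw [this]; exact H

theorem MB.mono (hq : 0 ≤ q) {g : ℕ → ℂ} {N N' : ℝ} (H : MB q n a g N) (hN : N ≤ N') :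
    MB q n a g N' := by
  intro h C hC r L hr hL
  refine le_trans (H h C hC r L hr hL) ?_
  have := hC.nonneg
  gcongr

theorem MB.mul {g₁ g₂ : ℕ → ℂ} {N₁ N₂ : ℝ} (H₁ : MB q n a g₁ N₁) (H₂ : MB q n a g₂ N₂) :
    MB q n a (fun k => g₁ k * g₂ k) (N₁ * N₂) := by
  intro h C hC
  have h1 := H₁ _ _ (H₂ _ _ hC)
  simpa only [mul_assoc] using h1

theorem MB.add {g₁ g₂ : ℕ → ℂ} {N₁ N₂ : ℝ} (H₁ : MB q n a g₁ N₁) (H₂ : MB q n a g₂ N₂) :
    MB q n a (fun k => g₁ k + g₂ k) (N₁ + N₂) := by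
  intro h C hC r L hr hL
  have e : Lam n a (fun k => (gen r L k : ℂ) * ((g₁ k + g₂ k) * h k)) =
      Lam n a (fun k => (gen r L k : ℂ) * (g₁ k * h k)) +
      Lam n a (fun k => (gen r L k : ℂ) * (g₂ k * h k)) := by
    unfold Lam
    rw [← Finset.sum_add_distrib]
    refine Finset.sum_congr rfl (fun k _ => ?_)
    ring
  rw [e]
  refine le_trans (norm_add_le _ _) ?_
  have h1 := H₁ _ _ hC r L hr hL
  have h2 := H₂ _ _ hC r L hr hL
  calc _ ≤ q ^ L.length * (N₁ * C) + q ^ L.length * (N₂ * C) := add_le_add h1 h2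
    _ = _ := by ring

theorem MB.const_mul {g : ℕ → ℂ} {N : ℝ} (c : ℂ) (H : MB q n a g N) :
    MB q n a (fun k => c * g k) (‖c‖ * N) := by
  intro h C hC r L hr hL
  have e : Lam n a (fun k => (gen r L k : ℂ) * (c * g k * h k)) =
      c * Lam n a (fun k => (gen r L k : ℂ) * (g k * h k)) := by
    unfold Lam
    rw [Finset.mul_sum]
    refine Finset.sum_congr rfl (fun k _ => ?_)
    ring
  rw [e, norm_mul]
  calc ‖c‖ * ‖Lam n a (fun k => (gen r L k : ℂ) * (g k * h k))‖
      ≤ ‖c‖ * (q ^ L.length * (N * C)) :=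
        mul_le_mul_of_nonneg_left (H _ _ hC r L hr hL) (norm_nonneg _)
    _ = _ := by ring

theorem MB.one : MB q n a (fun _ => 1) 1 := by
  intro h C hC
  simpa only [one_mul] using hC

theorem MB.pow {g : ℕ → ℂ} {N : ℝ} (H : MB q n a g N) (m : ℕ) :
    MB q n a (fun k => g k ^ m) (N ^ m) := by
  induction m with
  | zero => simpa only [pow_zero] using (MB.one (q := q) (n := n) (a := a))
  | succ m ih =>
    simpa only [pow_succ] using ih.mul H

theorem MB.gen {r : ℝ} {L : List ℝ} (hr : 0 ≤ r) (hL : ∀ t ∈ L, 0 < t) :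
    MB q n a (fun k => (gen r L k : ℂ)) (q ^ L.length) := by
  intro h C hC r' L' hr' hL'
  have h1 := hC (r' + r) (L' ++ L) (add_nonneg hr' hr) (by
    intro t ht
    rcases List.mem_append.mp ht with h | h
    · exact hL' t h
    · exact hL t h)
  have e : (fun k => ((Endgame827.gen (r' + r) (L' ++ L) k : ℝ) : ℂ) * h k) =
      (fun k => (Endgame827.gen r' L' k : ℂ) * ((Endgame827.gen r L k : ℂ) * h k)) := by
    funext k
    rw [← gen_mul]
    push_cast
    ring
  rw [e, List.length_append, pow_add, mul_assoc] at h1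
  exact h1

theorem MB.integral {α : Type*} [MeasurableSpace α] {μ : Measure α} {φ : α → ℕ → ℂ} {N : α → ℝ}
    (hφ : ∀ᵐ y ∂μ, MB q n a (φ y) (N y)) (hN : Integrable N μ)
    (hi : ∀ k, Integrable (fun y => φ y k) μ) :
    MB q n a (fun k => ∫ y, φ y k ∂μ) (∫ y, N y ∂μ) := by
  intro h C hC r L hr hL
  have e : Lam n a (fun k => (Endgame827.gen r L k : ℂ) * ((∫ y, φ y k ∂μ) * h k)) =
      ∫ y, Lam n a (fun k => (Endgame827.gen r L k : ℂ) * (φ y k * h k)) ∂μ := by
    unfold Lam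
    rw [integral_finsetSum]
    · refine Finset.sum_congr rfl (fun k _ => ?_)
      rw [integral_mul_const, integral_const_mul, integral_mul_const]
    · intro k _
      exact (((hi k).mul_const _).const_mul _).mul_const _
  rw [e]
  have h2 : ∀ᵐ y ∂μ, ‖Lam n a (fun k => (Endgame827.gen r L k : ℂ) * (φ y k * h k))‖ ≤
      q ^ L.length * (N y * C) := by
    filter_upwards [hφ] with y hy
    exact hy h C hC r L hr hL
  refine le_trans (norm_integral_le_of_norm_le ((hN.mul_const C).const_mul _) h2) ?_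
  rw [integral_const_mul, integral_mul_const]

theorem MB.hasSum {φ : ℕ → ℕ → ℂ} {N : ℕ → ℝ} {S : ℝ} {g : ℕ → ℂ}
    (hφ : ∀ m, MB q n a (φ m) (N m)) (hN : HasSum N S)
    (hg : ∀ k, HasSum (fun m => φ m k) (g k)) : MB q n a g S := by
  intro h C hC r L hr hL
  have h1 : HasSum (fun m => Lam n a (fun k => (Endgame827.gen r L k : ℂ) * (φ m k * h k)))
      (Lam n a (fun k => (Endgame827.gen r L k : ℂ) * (g k * h k))) := by
    unfold Lam
    refine hasSum_sum (fun k _ => ?_)
    exact (((hg k).mul_right (h k)).mul_left _).mul_right _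
  refine HasSum.norm_le_of_bounded h1 ((hN.mul_right C).mul_left (q ^ L.length)) (fun m => ?_)
  exact hφ m h C hC r L hr hL

theorem MB.expR {r : ℝ} (hr : 0 ≤ r) :
    MB q n a (fun k => ((Real.exp (-(r * k)) : ℝ) : ℂ)) 1 := by
  have h := MB.gen (q := q) (n := n) (a := a) (L := []) hr (by simp)
  simpa [Endgame827.gen] using h

theorem MB.Z {t : ℝ} (ht : 0 < t) :
    MB q n a (fun k => ((1 / 4 - 3 / 4 * Real.exp (-(t * k)) : ℝ) : ℂ)) q := by
  have h := MB.gen (q := q) (n := n) (a := a) (r := 0) (L := [t]) le_rfl (by simpa using ht)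
  simpa [Endgame827.gen] using h

theorem MB.inv (hq0 : 0 < q) (hq1 : q < 1) {c t : ℝ} (hc0 : 0 ≤ c) (hc1 : c ≤ 1) (ht : 0 < t) :
    MB q n a (fun k => ((1 / (1 + c * Real.exp (-(t * k))) : ℝ) : ℂ)) (1 / (1 - q)) := by
  have hsum : HasSum (fun m : ℕ => q ^ m) (1 / (1 - q)) := by
    rw [one_div]
    exact hasSum_geometric_of_lt_one hq0.le hq1
  have hγ1 : 4 * c / (3 + c) ≤ 1 := by
    rw [div_le_one (by linarith)]; linarith
  have hγ0 : 0 ≤ 4 * c / (3 + c) := by positivity
  have h3 : 3 / (3 + c) ≤ 1 := by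
    rw [div_le_one (by linarith)]; linarith
  refine MB.hasSum (φ := fun m k => ((3 / (3 + c) * (4 * c / (3 + c)) ^ m : ℝ) : ℂ) *
    (((1 / 4 - 3 / 4 * Real.exp (-(t * k)) : ℝ) : ℂ)) ^ m) (fun m => ?_) hsum (fun k => ?_)
  · refine (((MB.Z ht).pow m).const_mul _).mono hq0.le ?_
    rw [Complex.norm_real, Real.norm_of_nonneg (by positivity)]
    calc 3 / (3 + c) * (4 * c / (3 + c)) ^ m * q ^ m ≤ 1 * 1 ^ m * q ^ m := by gcongr
      _ = q ^ m := by simp
  · have hX0 : 0 < Real.exp (-(t * k)) := Real.exp_pos _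
    have hX1 : Real.exp (-(t * k)) ≤ 1 := by
      rw [Real.exp_le_one_iff]
      have : 0 ≤ t * k := by positivity
      linarith
    set X := Real.exp (-(t * k)) with hX
    have hZ : |4 * c / (3 + c) * (1 / 4 - 3 / 4 * X)| < 1 := by
      rw [abs_mul, abs_of_nonneg hγ0]
      have : |1 / 4 - 3 / 4 * X| ≤ 1 / 2 := by
        rw [abs_le]; constructor <;> linarith
      calc 4 * c / (3 + c) * |1 / 4 - 3 / 4 * X| ≤ 1 * (1 / 2) := by gcongr
        _ < 1 := by norm_num
    have h1 := (hasSum_geometric_of_abs_lt_one hZ).mul_left (3 / (3 + c))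
    have h2 : 3 / (3 + c) * (1 - 4 * c / (3 + c) * (1 / 4 - 3 / 4 * X))⁻¹ = 1 / (1 + c * X) := by
      have h4 : 1 - 4 * c / (3 + c) * (1 / 4 - 3 / 4 * X) = 3 * (1 + c * X) / (3 + c) := by
        field_simp; ring
      rw [h4]
      have : 0 < 1 + c * X := by positivity
      field_simp
    rw [h2] at h1
    have h5 := Complex.hasSum_ofReal.mpr h1
    refine h5.congr_fun (fun m => ?_) |> fun h => h
    push_cast
    rw [mul_pow]
    ring


/-- the truncated Laplace integral of the semigroup -/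
theorem MB.lap (hq : 0 ≤ q) {σ : ℝ} (hσ : 0 < σ) {T : ℝ} (hT : 0 < T) (y : ℝ) :
    MB q n a (fun k => ∫ s in Ioc (0:ℝ) T, Complex.exp (-((1 + y * I + ((σ * k : ℝ) : ℂ)) * s)))
      (min 1 T) := by
  have hN : IntegrableOn (fun s : ℝ => Real.exp (-s)) (Ioc (0:ℝ) T) :=
    (by fun_prop : Continuous fun s : ℝ => Real.exp (-s)).integrableOn_Ioc
  have h := MB.integral (q := q) (n := n) (a := a) (μ := volume.restrict (Ioc (0:ℝ) T))
    (φ := fun s k => Complex.exp (-((1 + y * I + ((σ * k : ℝ) : ℂ)) * s)))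
    (N := fun s => Real.exp (-s)) ?_ hN ?_
  · refine h.mono hq ?_
    have h1 : ∫ s in Ioc (0:ℝ) T, Real.exp (-s) = 1 - Real.exp (-T) := by
      rw [← intervalIntegral.integral_of_le hT.le]
      rw [intervalIntegral.integral_comp_neg (fun s => Real.exp s)]
      rw [integral_exp]
      simp
    rw [h1]
    refine le_min (by linarith [Real.exp_pos (-T)]) ?_
    have := Real.add_one_le_exp (-T)
    linarith
  · refine (ae_restrict_iff' measurableSet_Ioc).mpr (Eventually.of_forall (fun s hs => ?_))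
    have h1 := (MB.expR (q := q) (n := n) (a := a) (r := s * σ) (by
      have := hs.1; positivity)).const_mul (Complex.exp (-((1 + y * I) * s)))
    have h2 : ‖Complex.exp (-((1 + y * I) * s))‖ = Real.exp (-s) := by
      rw [Complex.norm_exp]
      simp
    rw [h2, mul_one] at h1
    refine h1.congr (fun k => ?_)
    push_cast
    rw [← Complex.exp_add]
    congr 1
    ring
  · intro k
    exact (by fun_prop : Continuous fun s : ℝ =>
      Complex.exp (-((1 + y * I + ((σ * k : ℝ) : ℂ)) * s))).integrableOn_Ioc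

theorem lam_ne (y x : ℝ) (hx : 0 ≤ x) : (1 : ℂ) + y * I + (x : ℂ) ≠ 0 := by
  intro h
  have := congrArg Complex.re h
  simp at this
  linarith

/-- resolvent bound -/
theorem MB.res (hq0 : 0 < q) (hq1 : q < 1) {σ : ℝ} (hσ : 0 < σ) {y : ℝ} (hy : y ≠ 0) :
    MB q n a (fun k => 1 / (1 + y * I + ((σ * k : ℝ) : ℂ)))
      (1 / (1 - q) * min 1 (π / |y|)) := by
  have hy' : 0 < |y| := abs_pos.mpr hy
  have hT : 0 < π / |y| := div_pos Real.pi_pos hy'
  set T := π / |y| with hTdef
  have h1 := MB.inv (q := q) (n := n) (a := a) hq0 hq1 (c := Real.exp (-T)) (t := T * σ)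
    (Real.exp_pos _).le (by rw [Real.exp_le_one_iff]; linarith) (by positivity)
  have h2 := h1.mul (MB.lap (q := q) (n := n) (a := a) hq0.le hσ hT y)
  refine h2.congr (fun k => ?_)
  set x : ℝ := σ * k with hx
  have hx0 : 0 ≤ x := by positivity
  have hc : (1 : ℂ) + y * I + (x : ℂ) ≠ 0 := lam_ne y x hx0
  have h3 : ∫ s in Ioc (0:ℝ) T, Complex.exp (-((1 + y * I + (x : ℂ)) * s)) =
      (1 - Complex.exp (-((1 + y * I + (x : ℂ)) * T))) / (1 + y * I + (x : ℂ)) := by
    rw [← intervalIntegral.integral_of_le hT.le]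
    have : ∀ s : ℝ, Complex.exp (-((1 + y * I + (x : ℂ)) * s)) =
        Complex.exp ((-(1 + y * I + (x : ℂ))) * s) := fun s => by congr 1; ring
    simp_rw [this]
    rw [integral_exp_mul_complex (neg_ne_zero.mpr hc)]
    simp only [ofReal_zero, mul_zero, Complex.exp_zero]
    rw [div_neg, neg_div', neg_sub]
  have h4 : Complex.exp (-((1 + y * I + (x : ℂ)) * T)) =
      -((Real.exp (-T) * Real.exp (-(T * σ * k)) : ℝ) : ℂ) := by
    have e1 : -((1 + y * I + (x : ℂ)) * T) = ((-T - T * σ * k : ℝ) : ℂ) + (-(y * T) : ℝ) * I := by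
      rw [hx]; push_cast; ring
    rw [e1, Complex.exp_add, ← Complex.ofReal_exp]
    have e2 : Complex.exp ((-(y * T) : ℝ) * I) = -1 := by
      rcases lt_or_gt_of_ne hy with h | h
      · have : -(y * T) = π := by
          rw [hTdef, abs_of_neg h]; field_simp
        rw [this, Complex.exp_pi_mul_I]
      · have : -(y * T) = -π := by
          rw [hTdef, abs_of_pos h]; field_simp
        rw [this, Complex.ofReal_neg, neg_mul, Complex.exp_neg, Complex.exp_pi_mul_I]
        norm_num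
    rw [e2]
    rw [sub_eq_add_neg, Real.exp_add]
    push_cast
    ring
  rw [h3, h4]
  have h5 : (0:ℝ) < 1 + Real.exp (-T) * Real.exp (-(T * σ * k)) := by positivity
  have h6 : ((1 + Real.exp (-T) * Real.exp (-(T * σ * k)) : ℝ) : ℂ) ≠ 0 := by
    exact_mod_cast h5.ne'
  rw [sub_neg_eq_add]
  push_cast at h6 ⊢
  field_simp

/-- constant of the key bound -/
noncomputable def KK (q : ℝ) : ℝ :=
  Real.exp 1 * ((1 + 1 / (1 - q) * (1 + π)) * (1 / (1 - q)) ^ 2 * (1 + π ^ 2))

theorem KK_pos (hq1 : q < 1) : 0 < KK q := by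
  unfold KK
  have : 0 < 1 / (1 - q) := by
    apply div_pos one_pos; linarith
  positivity

theorem MB.xexp (hq0 : 0 < q) (hq1 : q < 1) {σ : ℝ} (hσ : 0 < σ) :
    MB q n a (fun k => ((σ * k * Real.exp (-(σ * k)) : ℝ) : ℂ)) (KK q) := by
  set M : ℝ := 1 / (1 - q) with hM
  have hMpos : 0 < M := by rw [hM]; apply div_pos one_pos; linarith
  set D : ℝ := (1 + M * (1 + π)) * M ^ 2 * (1 + π ^ 2) with hD
  have hNi : Integrable (fun y : ℝ => (Real.exp 1 / π) * (D * (1 + y ^ 2)⁻¹)) :=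
    (integrable_inv_one_add_sq.const_mul D).const_mul _
  have h := MB.integral (q := q) (n := n) (a := a) (μ := (volume : Measure ℝ))
    (φ := fun y k => ((Real.exp 1 / π : ℝ) : ℂ) * (Complex.exp (y * I) *
      (((σ * k : ℝ) : ℂ) * (1 / (1 + y * I + ((σ * k : ℝ) : ℂ))) ^ 3)))
    (N := fun y => (Real.exp 1 / π) * (D * (1 + y ^ 2)⁻¹)) ?_ hNi ?_
  · refine (h.congr (g' := fun k => ((σ * k * Real.exp (-(σ * k)) : ℝ) : ℂ))
      (fun k => ?_)).mono hq0.le ?_
    · set x : ℝ := σ * k with hx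
      have hx0 : 0 ≤ x := by positivity
      have h1 := (integral_exp_inv_cube (1 + x) (by linarith)).2
      have h2 : (fun y : ℝ => ((Real.exp 1 / π : ℝ) : ℂ) * (Complex.exp (y * I) *
          ((x : ℂ) * (1 / (1 + y * I + (x : ℂ))) ^ 3))) =
          (fun y : ℝ => (((Real.exp 1 / π : ℝ) : ℂ) * x) * (Complex.exp (y * I) *
          (1 / (((1 + x : ℝ) : ℂ) + y * I)) ^ 3)) := by
        funext y
        have : ((1 + x : ℝ) : ℂ) + y * I = 1 + y * I + (x : ℂ) := by push_cast; ring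
        rw [this]; ring
      rw [h2, integral_const_mul, h1]
      have hpi : (π : ℂ) ≠ 0 := by exact_mod_cast Real.pi_ne_zero
      have he : Real.exp (-(1 + x)) = Real.exp (-x) / Real.exp 1 := by
        rw [neg_add, Real.exp_add, Real.exp_neg 1]; field_simp
      rw [he]
      have he1 : (Real.exp 1 : ℂ) ≠ 0 := by exact_mod_cast (Real.exp_pos 1).ne'
      push_cast at he1 ⊢
      field_simp
    · rw [integral_const_mul, integral_const_mul, integral_univ_inv_one_add_sq]
      unfold KK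
      rw [← hM, ← hD]
      apply le_of_eq
      field_simp
  · have h0 : ∀ᵐ y : ℝ, y ≠ 0 := by
      have : (({0}:Set ℝ))ᶜ ∈ ae (volume : Measure ℝ) := by
        rw [mem_ae_iff, compl_compl]; exact Real.volume_singleton
      filter_upwards [this] with y hy
      simpa using hy
    filter_upwards [h0] with y hy
    have hb := MB.res (q := q) (n := n) (a := a) hq0 hq1 hσ hy
    rw [← hM] at hb
    set b : ℝ := M * min 1 (π / |y|) with hbdef
    have hy' : 0 < |y| := abs_pos.mpr hy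
    have hmin0 : 0 < min 1 (π / |y|) := lt_min one_pos (div_pos Real.pi_pos hy')
    have hb0 : 0 ≤ b := by positivity
    have h2 := ((hb.pow 2).add (((hb.pow 3)).const_mul (-(1 + y * I)))).const_mul
      (((Real.exp 1 / π : ℝ) : ℂ) * Complex.exp (y * I))
    refine (h2.congr (fun k => ?_)).mono hq0.le ?_
    · have hx0 : 0 ≤ σ * (k:ℝ) := by positivity
      have hc : (1 : ℂ) + y * I + ((σ * k : ℝ) : ℂ) ≠ 0 := lam_ne y _ hx0
      generalize ((σ * k : ℝ) : ℂ) = x at hc ⊢
      field_simp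
      ring
    · rw [norm_mul, Complex.norm_exp_ofReal_mul_I, mul_one, Complex.norm_real,
        Real.norm_of_nonneg (by positivity)]
      refine mul_le_mul_of_nonneg_left ?_ (by positivity)
      have hn : ‖-(1 + (y:ℂ) * I)‖ ≤ 1 + |y| := by
        rw [norm_neg]
        refine le_trans (norm_add_le _ _) ?_
        simp
      have hlb : (1 + |y|) * b ≤ M * (1 + π) := by
        rw [hbdef]
        have : (1 + |y|) * min 1 (π / |y|) ≤ 1 + π := by
          rw [add_mul, one_mul]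
          refine add_le_add (min_le_left _ _) ?_
          calc |y| * min 1 (π / |y|) ≤ |y| * (π / |y|) := by
                gcongr; exact min_le_right _ _
            _ = π := by field_simp
        calc (1 + |y|) * (M * min 1 (π / |y|)) = M * ((1 + |y|) * min 1 (π / |y|)) := by ring
          _ ≤ M * (1 + π) := by gcongr
      have hb2 : b ^ 2 ≤ M ^ 2 * ((1 + π ^ 2) * (1 + y ^ 2)⁻¹) := by
        rw [hbdef, mul_pow]
        gcongr
        rw [← div_eq_mul_inv, le_div_iff₀ (by positivity), mul_add, mul_one]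
        refine add_le_add ?_ ?_
        · calc (min 1 (π / |y|)) ^ 2 ≤ 1 ^ 2 := by
                gcongr; exact min_le_left _ _
            _ = 1 := one_pow _
        · calc (min 1 (π / |y|)) ^ 2 * y ^ 2 ≤ (π / |y|) ^ 2 * y ^ 2 := by
                gcongr; exact min_le_right _ _
            _ = π ^ 2 := by
                rw [← sq_abs y]; field_simp
      calc b ^ 2 + ‖-(1 + (y:ℂ) * I)‖ * b ^ 3 ≤ b ^ 2 + (1 + |y|) * b ^ 3 := by gcongr
        _ = (1 + (1 + |y|) * b) * b ^ 2 := by ring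
        _ ≤ (1 + M * (1 + π)) * (M ^ 2 * ((1 + π ^ 2) * (1 + y ^ 2)⁻¹)) := by gcongr
        _ = D * (1 + y ^ 2)⁻¹ := by rw [hD]; ring
  · intro k
    have hx0 : 0 ≤ σ * (k:ℝ) := by positivity
    have h1 := (integral_exp_inv_cube (1 + σ * k) (by linarith)).1
    have h2 := h1.const_mul (((Real.exp 1 / π : ℝ) : ℂ) * ((σ * k : ℝ) : ℂ))
    refine h2.congr (Eventually.of_forall (fun y => ?_))
    simp only
    have : ((1 + σ * k : ℝ) : ℂ) + y * I = 1 + y * I + ((σ * k : ℝ) : ℂ) := by push_cast; ring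
    rw [this]; ring


theorem MB.xpow (hq0 : 0 < q) (hq1 : q < 1) {s : ℝ} (hs : 0 < s) (m : ℕ) :
    MB q n a (fun k => (((s * k) ^ m * Real.exp (-(s * k)) : ℝ) : ℂ)) ((m : ℝ) ^ m * KK q ^ m) := by
  rcases Nat.eq_zero_or_pos m with rfl | hm
  · have h := MB.expR (q := q) (n := n) (a := a) hs.le
    simpa using h
  · have hm' : (0:ℝ) < m := by exact_mod_cast hm
    have h := ((MB.xexp (q := q) (n := n) (a := a) hq0 hq1 (σ := s / m) (by positivity)).pow m).const_mul
      (((m : ℝ) ^ m : ℝ) : ℂ)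
    rw [Complex.norm_real, Real.norm_of_nonneg (by positivity)] at h
    refine h.congr (fun k => ?_)
    rw [← Complex.ofReal_pow, ← Complex.ofReal_mul]
    congr 1
    have e1 : Real.exp (-(s / m * k)) ^ m = Real.exp (-(s * k)) := by
      rw [← Real.exp_nat_mul]
      congr 1
      field_simp
    rw [mul_pow (s / m * k), e1, ← mul_assoc, ← mul_pow]
    congr 2
    field_simp

theorem MB.rot (hq0 : 0 < q) (hq1 : q < 1) {s : ℝ} (hs : 0 < s) {η : ℝ}
    (hη : |η| * (Real.exp 1 * KK q) ≤ 1 / 2) :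
    MB q n a (fun k => Complex.exp (-((s * k : ℝ) : ℂ) - ((η * (s * k) : ℝ) : ℂ) * I)) 2 := by
  have hK := KK_pos hq1
  refine MB.hasSum (φ := fun m k => ((-(η : ℂ) * I) ^ m / (m.factorial : ℂ)) *
    (((s * k) ^ m * Real.exp (-(s * k)) : ℝ) : ℂ)) (N := fun m => (1 / 2) ^ m) (fun m => ?_)
    hasSum_geometric_two (fun k => ?_)
  · refine ((MB.xpow hq0 hq1 hs m).const_mul _).mono hq0.le ?_
    rw [norm_div, norm_pow, norm_mul, norm_neg, Complex.norm_I, mul_one, Complex.norm_real,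
      Complex.norm_natCast, Real.norm_eq_abs]
    have h1 : (m : ℝ) ^ m / (m.factorial : ℝ) ≤ Real.exp m :=
      Real.pow_div_factorial_le_exp (m : ℝ) (Nat.cast_nonneg m) m
    have h2 : Real.exp m = Real.exp 1 ^ m := by
      rw [← Real.exp_nat_mul]; simp
    rw [h2] at h1
    calc |η| ^ m / (m.factorial : ℝ) * ((m : ℝ) ^ m * KK q ^ m)
        = |η| ^ m * ((m : ℝ) ^ m / (m.factorial : ℝ)) * KK q ^ m := by ring
      _ ≤ |η| ^ m * (Real.exp 1 ^ m) * KK q ^ m := by gcongr
      _ = (|η| * (Real.exp 1 * KK q)) ^ m := by rw [mul_pow, mul_pow]; ring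
      _ ≤ (1 / 2) ^ m := by gcongr
  · have h1 := NormedSpace.expSeries_div_hasSum_exp (-((η * (s * k) : ℝ) : ℂ) * I)
    rw [← Complex.exp_eq_exp_ℂ] at h1
    have h2 := h1.mul_right (Complex.exp (-((s * k : ℝ) : ℂ)))
    rw [← Complex.exp_add] at h2
    have e : -((η * (s * k) : ℝ) : ℂ) * I + -((s * k : ℝ) : ℂ) =
        -((s * k : ℝ) : ℂ) - ((η * (s * k) : ℝ) : ℂ) * I := by ring
    rw [e] at h2
    convert! h2 using 2 with m
    push_cast
    have e3 : (-((η : ℂ) * (s * k)) * I) = (-(η : ℂ) * I) * (s * k) := by ring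
    rw [e3, mul_pow (-(η : ℂ) * I)]
    ring

/-- constant -/
noncomputable def s0 (q : ℝ) : ℝ := 2 * π * (Real.exp 1 * KK q)

theorem s0_pos (hq1 : q < 1) : 0 < s0 q := by
  unfold s0
  have := KK_pos hq1
  positivity

theorem MB.circle (hq0 : 0 < q) (hq1 : q < 1) {θ : ℝ} (hθ : |θ| ≤ π) :
    MB q n a (fun k => Complex.exp (-((s0 q * k : ℝ) : ℂ) - ((θ * k : ℝ) : ℂ) * I)) 2 := by
  have hs := s0_pos hq1
  have hK := KK_pos hq1
  have h := MB.rot (q := q) (n := n) (a := a) hq0 hq1 hs (η := θ / s0 q) ?_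
  · refine h.congr (fun k => ?_)
    congr 2
    congr 2
    field_simp
  · rw [abs_div, abs_of_pos hs, div_mul_eq_mul_div, div_le_iff₀ hs]
    unfold s0
    have : 0 ≤ Real.exp 1 * KK q := by positivity
    nlinarith [mul_le_mul_of_nonneg_right hθ this]

theorem MB.delta (hq0 : 0 < q) (hq1 : q < 1) :
    MB q n a (fun k => if k = 1 then 1 else 0) (2 * Real.exp (s0 q)) := by
  have h := MB.integral (q := q) (n := n) (a := a) (μ := volume.restrict (Ioc (-π) π))
    (φ := fun θ k => ((1 / (2 * π) : ℝ) : ℂ) * Complex.exp (((s0 q : ℝ) : ℂ) + (θ : ℂ) * I) *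
      Complex.exp (-((s0 q * k : ℝ) : ℂ) - ((θ * k : ℝ) : ℂ) * I))
    (N := fun _ => 1 / (2 * π) * (Real.exp (s0 q) * 2)) ?_ (integrable_const _) ?_
  · have h2 : ∫ _ in Ioc (-π) π, (1 / (2 * π) * (Real.exp (s0 q) * 2)) = 2 * Real.exp (s0 q) := by
      rw [← intervalIntegral.integral_of_le (by linarith [Real.pi_pos]), intervalIntegral.integral_const]
      have := Real.pi_pos
      rw [smul_eq_mul]
      field_simp
      ring
    rw [h2] at h
    refine h.congr (fun k => ?_)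
    symm
    rw [← intervalIntegral.integral_of_le (by linarith [Real.pi_pos])]
    have e : ∀ θ : ℝ, ((1 / (2 * π) : ℝ) : ℂ) * Complex.exp (((s0 q : ℝ) : ℂ) + (θ : ℂ) * I) *
        Complex.exp (-((s0 q * k : ℝ) : ℂ) - ((θ * k : ℝ) : ℂ) * I) =
        (((1 / (2 * π) : ℝ) : ℂ) * Complex.exp (((s0 q * (1 - k) : ℝ) : ℂ))) *
          Complex.exp (((1 - k : ℝ) : ℂ) * I * θ) := by
      intro θ
      rw [mul_assoc, mul_assoc, ← Complex.exp_add, ← Complex.exp_add]
      congr 2
      push_cast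
      ring
    simp_rw [e]
    rw [intervalIntegral.integral_const_mul]
    by_cases hk : k = 1
    · subst hk
      simp
      have := Real.pi_pos
      have hpi : (π : ℂ) ≠ 0 := by exact_mod_cast Real.pi_ne_zero
      field_simp
      norm_num
    · rw [if_neg hk]
      have hk' : ((1 - k : ℝ) : ℂ) * I ≠ 0 := by
        apply mul_ne_zero _ Complex.I_ne_zero
        have : (1 - k : ℝ) ≠ 0 := by
          intro h
          apply hk
          have : (k : ℝ) = 1 := by linarith
          exact_mod_cast this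
        exact_mod_cast this
      rw [integral_exp_mul_complex hk']
      have hper : Complex.exp (((1 - k : ℝ) : ℂ) * I * (π : ℝ)) =
          Complex.exp (((1 - k : ℝ) : ℂ) * I * ((-π : ℝ) : ℂ)) := by
        rw [Complex.exp_eq_exp_iff_exists_int]
        refine ⟨1 - k, ?_⟩
        push_cast
        ring
      rw [hper, sub_self, zero_div, mul_zero]
  · refine (ae_restrict_iff' measurableSet_Ioc).mpr (Eventually.of_forall (fun θ hθ => ?_))
    have hθ' : |θ| ≤ π := by
      rw [abs_le]; exact ⟨hθ.1.le, hθ.2⟩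
    have h1 := (MB.circle (q := q) (n := n) (a := a) hq0 hq1 hθ').const_mul
      (((1 / (2 * π) : ℝ) : ℂ) * Complex.exp (((s0 q : ℝ) : ℂ) + (θ : ℂ) * I))
    refine h1.mono hq0.le (le_of_eq ?_)
    rw [norm_mul, Complex.norm_real, Real.norm_of_nonneg (by have := Real.pi_pos; positivity),
      Complex.norm_exp]
    simp
    ring
  · intro k
    exact (by fun_prop : Continuous fun θ : ℝ =>
      ((1 / (2 * π) : ℝ) : ℂ) * Complex.exp (((s0 q : ℝ) : ℂ) + (θ : ℂ) * I) *
      Complex.exp (-((s0 q * k : ℝ) : ℂ) - ((θ * k : ℝ) : ℂ) * I)).integrableOn_Ioc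

/-- **Scalar endgame.** -/
theorem scalar_endgame {q : ℝ} (hq0 : 0 < q) (hq1 : q < 1) (n : ℕ) (hn : 1 ≤ n) (a : ℕ → ℝ) (S : ℝ)
    (H : ∀ (r : ℝ) (L : List ℝ), 0 ≤ r → (∀ t ∈ L, 0 < t) →
      |∑ k ∈ Finset.range (n + 1), gen r L k * a k| ≤ q ^ L.length * S) :
    |a 1| ≤ 2 * Real.exp (s0 q) * S := by
  have hB : Bd q n (fun k => (a k : ℂ)) (fun _ => 1) S := by
    intro r L hr hL
    have h := H r L hr hL
    have e : Lam n (fun k => (a k : ℂ)) (fun k => (gen r L k : ℂ) * 1) =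
        ((∑ k ∈ Finset.range (n + 1), gen r L k * a k : ℝ) : ℂ) := by
      unfold Lam
      push_cast
      simp
    rw [e, Complex.norm_real]
    exact h
  have h1 := MB.delta (q := q) (n := n) (a := fun k => (a k : ℂ)) hq0 hq1 _ _ hB 0 [] le_rfl (by simp)
  have e : Lam n (fun k => (a k : ℂ)) (fun k => (gen 0 [] k : ℂ) * ((if k = 1 then 1 else 0) * 1)) =
      ((a 1 : ℝ) : ℂ) := by
    unfold Lam
    simp [gen]
    omega
  rw [e, Complex.norm_real] at h1
  simpa using h1

end Crest.Agent.R118.Endgame827
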