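import Crest.Prelude.Def_Rademacher

/-!
Row 118 (S0158). Dual form of cotype of the dual space: lifting property.
-/

set_option autoImplicit false
open scoped BigOperators
open Crest.AnalysisR

namespace Crest.Agent.R118.Lift361

variable {X : Type*} [NormedAddCommGroup X] [NormedSpace ℝ X]

/-- `L₂` norm of a function on a finite set with the uniform probability. -/
noncomputable def nrm {Ω : Type*} [Fintype Ω] {E : Type*} [NormedAddCommGroup E] (f : Ω → E) : ℝ :=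
  Real.sqrt ((Fintype.card Ω : ℝ)⁻¹ * ∑ ω, ‖f ω‖ ^ 2)

/-- First order (Rademacher) coefficient. -/
noncomputable def coef {s : ℕ} (i : Fin s) (f : (Fin s → Bool) → X) : X :=
  ((2 : ℝ) ^ s)⁻¹ • ∑ η : Fin s → Bool, signVal (η i) • f η

theorem signVal_mul_self (b : Bool) : signVal b * signVal b = 1 := by
  cases b <;> simp [signVal]

theorem abs_signVal (b : Bool) : |signVal b| = 1 := by
  cases b <;> simp [signVal]

theorem signVal_not (b : Bool) : signVal (!b) = - signVal b := by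
  cases b <;> simp [signVal]

/-- Orthogonality of Rademacher functions. -/
theorem sum_signVal_mul {s : ℕ} (i j : Fin s) :
    ∑ η : Fin s → Bool, signVal (η i) * signVal (η j) = if i = j then (2 : ℝ) ^ s else 0 := by
  classical
  by_cases h : i = j
  · subst h
    simp [signVal_mul_self]
  · rw [if_neg h]
    have hinv : Function.Involutive
        (fun η : Fin s → Bool => Function.update η i (!(η i))) := by
      intro η
      ext k
      by_cases hk : k = i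
      · subst hk; simp
      · simp [Function.update_of_ne hk]
    have := Equiv.sum_comp (Function.Involutive.toPerm _ hinv)
      (fun η : Fin s → Bool => signVal (η i) * signVal (η j))
    have h2 : ∀ η : Fin s → Bool,
        signVal ((Function.Involutive.toPerm _ hinv η) i)
          * signVal ((Function.Involutive.toPerm _ hinv η) j)
          = - (signVal (η i) * signVal (η j)) := by
      intro η
      have e1 : (Function.Involutive.toPerm _ hinv η) i = !(η i) := by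
        simp [Function.Involutive.toPerm]
      have e2 : (Function.Involutive.toPerm _ hinv η) j = η j := by
        simp [Function.Involutive.toPerm, Function.update_of_ne (Ne.symm h)]
      rw [e1, e2, signVal_not]
      ring
    simp only [h2, Finset.sum_neg_distrib] at this
    linarith

theorem coef_add {s : ℕ} (i : Fin s) (f g : (Fin s → Bool) → X) :
    coef i (f + g) = coef i f + coef i g := by
  simp [coef, smul_add, Finset.sum_add_distrib]

theorem coef_smul {s : ℕ} (i : Fin s) (c : ℝ) (f : (Fin s → Bool) → X) :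
    coef i (c • f) = c • coef i f := by
  simp only [coef, Pi.smul_apply]
  rw [smul_comm c, Finset.smul_sum (r := c)]
  congr 1
  refine Finset.sum_congr rfl fun η _ => ?_
  rw [smul_comm]

theorem coef_sub {s : ℕ} (i : Fin s) (f g : (Fin s → Bool) → X) :
    coef i (f - g) = coef i f - coef i g := by
  simp [coef, smul_sub, Finset.sum_sub_distrib]

theorem coef_rad {s : ℕ} (i : Fin s) (x : Fin s → X) :
    coef i (fun η => ∑ j, signVal (η j) • x j) = x i := by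
  unfold coef
  simp_rw [Finset.smul_sum, smul_smul]
  rw [Finset.sum_comm]
  have : ∀ j : Fin s, ∑ η : Fin s → Bool, (((2 : ℝ) ^ s)⁻¹ * (signVal (η i) * signVal (η j))) • x j
      = if i = j then x j else 0 := by
    intro j
    rw [← Finset.sum_smul, ← Finset.mul_sum, sum_signVal_mul]
    by_cases h : i = j
    · simp [h]
    · simp [h]
  simp [this]

/-- Duality in `ℓ₂`-sums: control of the `ℓ₂` sum of dual norms. -/
theorem dual_l2_le {Ω : Type*} [Fintype Ω] (φ : Ω → StrongDual ℝ X) (B : ℝ) (hB : 0 ≤ B)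
    (h : ∀ F : Ω → X, ∑ ω, φ ω (F ω) ≤ B * Real.sqrt (∑ ω, ‖F ω‖ ^ 2)) :
    Real.sqrt (∑ ω, ‖φ ω‖ ^ 2) ≤ B := by
  -- choose almost norming vectors
  have key : ∀ τ : ℝ, 0 < τ → τ < 1 → (1 - τ) * Real.sqrt (∑ ω, ‖φ ω‖ ^ 2) ≤ B := by
    intro τ hτ hτ1
    have hy : ∀ ω, ∃ y : X, ‖y‖ ≤ 1 ∧ (1 - τ) * ‖φ ω‖ ≤ φ ω y := by
      intro ω
      by_cases h0 : φ ω = 0
      · exact ⟨0, by simp, by simp [h0]⟩
      · have hpos : 0 < ‖φ ω‖ := norm_pos_iff.mpr h0
        have hlt : (1 - τ) * ‖φ ω‖ < ‖φ ω‖ := by nlinarith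
        obtain ⟨y, hy1, hy2⟩ := ContinuousLinearMap.exists_lt_apply_of_lt_opNorm (φ ω) hlt
        rcases le_total 0 (φ ω y) with h1 | h1
        · refine ⟨y, hy1.le, ?_⟩
          rw [Real.norm_of_nonneg h1] at hy2
          exact hy2.le
        · refine ⟨-y, by simpa using hy1.le, ?_⟩
          rw [Real.norm_of_nonpos h1] at hy2
          simpa using hy2.le
    choose y hy1 hy2 using hy
    set S := ∑ ω, ‖φ ω‖ ^ 2 with hS
    have hS0 : 0 ≤ S := Finset.sum_nonneg fun ω _ => by positivity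
    have hF := h (fun ω => ‖φ ω‖ • y ω)
    have h1 : (1 - τ) * S ≤ ∑ ω, φ ω (‖φ ω‖ • y ω) := by
      rw [hS, Finset.mul_sum]
      refine Finset.sum_le_sum fun ω _ => ?_
      rw [map_smul, smul_eq_mul]
      have := mul_le_mul_of_nonneg_left (hy2 ω) (norm_nonneg (φ ω))
      nlinarith
    have h2 : Real.sqrt (∑ ω, ‖‖φ ω‖ • y ω‖ ^ 2) ≤ Real.sqrt S := by
      apply Real.sqrt_le_sqrt
      refine Finset.sum_le_sum fun ω _ => ?_
      rw [norm_smul, norm_norm]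
      have := mul_le_mul_of_nonneg_left (hy1 ω) (norm_nonneg (φ ω))
      rw [mul_one] at this
      exact pow_le_pow_left₀ (by positivity) this 2
    have h3 : (1 - τ) * S ≤ B * Real.sqrt S :=
      h1.trans (hF.trans (mul_le_mul_of_nonneg_left h2 hB))
    by_cases hz : S = 0
    · simp [hz, hB]
    · have hpos : 0 < S := lt_of_le_of_ne hS0 (Ne.symm hz)
      have hsq : 0 < Real.sqrt S := Real.sqrt_pos.mpr hpos
      have : (1 - τ) * Real.sqrt S * Real.sqrt S ≤ B * Real.sqrt S := by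
        rw [mul_assoc, Real.mul_self_sqrt hS0]; exact h3
      exact le_of_mul_le_mul_right this hsq
  have hlim : Filter.Tendsto (fun τ : ℝ => (1 - τ) * Real.sqrt (∑ ω, ‖φ ω‖ ^ 2))
      (nhdsWithin 0 (Set.Ioi 0)) (nhds ((1 - 0) * Real.sqrt (∑ ω, ‖φ ω‖ ^ 2))) := by
    apply Filter.Tendsto.mono_left _ nhdsWithin_le_nhds
    exact (tendsto_const_nhds.sub Filter.tendsto_id).mul tendsto_const_nhds
  have := le_of_tendsto hlim (by
    filter_upwards [Ioo_mem_nhdsGT (show (0:ℝ) < 1 by norm_num)] with τ hτ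
    exact key τ hτ.1 hτ.2)
  simpa using this


theorem lift_aux {r p D : ℝ} (hpr : p.HolderConjugate r) (hD0 : 0 ≤ D)
    (hD : HasRademacherCotype (StrongDual ℝ X) r D) {s : ℕ} (x : Fin s → X)
    (G : (Fin s → Bool) → StrongDual ℝ X) (ξ : Fin s → StrongDual ℝ X)
    (hG : ∀ η, G η = ∑ i, signVal (η i) • ξ i) {B : ℝ}
    (hG1 : Real.sqrt (∑ η, ‖G η‖ ^ 2) ≤ B) :
    ∑ i, ξ i (x i) ≤ D * ((Real.sqrt ((2 : ℝ) ^ s))⁻¹ * B) * (∑ i, ‖x i‖ ^ p) ^ (1 / p) := by
  have h1 : ∑ i, ξ i (x i) ≤ ∑ i, ‖x i‖ * ‖ξ i‖ := by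
    refine Finset.sum_le_sum fun i _ => ?_
    calc ξ i (x i) ≤ ‖ξ i (x i)‖ := Real.le_norm_self _
      _ ≤ ‖ξ i‖ * ‖x i‖ := (ξ i).le_opNorm _
      _ = ‖x i‖ * ‖ξ i‖ := mul_comm _ _
  have h2 := Real.inner_le_Lp_mul_Lq_of_nonneg (Finset.univ) (f := fun i => ‖x i‖)
    (g := fun i => ‖ξ i‖) hpr (fun i _ => norm_nonneg _) (fun i _ => norm_nonneg _)
  have h3 := hD s ξ
  have h4 : (signAverage fun ε : Fin s → Bool => ‖∑ i, signVal (ε i) • ξ i‖ ^ (2 : ℝ)) ^
      (1 / 2 : ℝ) ≤ (Real.sqrt ((2 : ℝ) ^ s))⁻¹ * B := by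
    rw [← Real.sqrt_eq_rpow]
    unfold signAverage
    have e : ∑ ε : Fin s → Bool, ‖∑ i, signVal (ε i) • ξ i‖ ^ (2 : ℝ) = ∑ η, ‖G η‖ ^ 2 := by
      refine Finset.sum_congr rfl fun η _ => ?_
      rw [hG, Real.rpow_two]
    rw [e, Real.sqrt_mul (by positivity), Real.sqrt_inv]
    exact mul_le_mul_of_nonneg_left hG1 (by positivity)
  have h5 : (∑ i, ‖ξ i‖ ^ r) ^ (1 / r) ≤ D * ((Real.sqrt ((2 : ℝ) ^ s))⁻¹ * B) :=
    h3.trans (mul_le_mul_of_nonneg_left h4 hD0)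
  have hA : 0 ≤ (∑ i, ‖x i‖ ^ p) ^ (1 / p) :=
    Real.rpow_nonneg (Finset.sum_nonneg fun _ _ => Real.rpow_nonneg (norm_nonneg _) _) _
  calc ∑ i, ξ i (x i) ≤ ∑ i, ‖x i‖ * ‖ξ i‖ := h1
    _ ≤ (∑ i, ‖x i‖ ^ p) ^ (1 / p) * (∑ i, ‖ξ i‖ ^ r) ^ (1 / r) := h2
    _ ≤ (∑ i, ‖x i‖ ^ p) ^ (1 / p) * (D * ((Real.sqrt ((2 : ℝ) ^ s))⁻¹ * B)) :=
        mul_le_mul_of_nonneg_left h5 hA
    _ = _ := by ring

open WithLp in
/-- **Lifting**: if the dual has cotype `r`, then Rademacher coefficients can be prescribed. -/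
theorem lift {r p D : ℝ} (hpr : p.HolderConjugate r) (hD0 : 0 ≤ D)
    (hD : HasRademacherCotype (StrongDual ℝ X) r D) {s : ℕ} (x : Fin s → X)
    {δ : ℝ} (hδ : 0 < δ) :
    ∃ f : (Fin s → Bool) → X, (∀ i, coef i f = x i) ∧
      nrm f ≤ (D + δ) * (∑ i, ‖x i‖ ^ p) ^ (1 / p) := by
  classical
  set A := (∑ i, ‖x i‖ ^ p) ^ (1 / p) with hA
  have hA0 : 0 ≤ A := Real.rpow_nonneg
    (Finset.sum_nonneg fun _ _ => Real.rpow_nonneg (norm_nonneg _) _) _
  have hp0 : 0 < p := hpr.pos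
  rcases eq_or_lt_of_le hA0 with hAz | hApos
  · -- all vectors vanish
    have hx : ∀ i, x i = 0 := by
      intro i
      have h0 : ∑ i, ‖x i‖ ^ p = 0 := by
        have hs : 0 ≤ ∑ i, ‖x i‖ ^ p :=
          Finset.sum_nonneg fun _ _ => Real.rpow_nonneg (norm_nonneg _) _
        have := hAz.symm
        rw [hA, Real.rpow_eq_zero_iff_of_nonneg hs] at this
        exact this.1
      have := (Finset.sum_eq_zero_iff_of_nonneg
        (fun i _ => Real.rpow_nonneg (norm_nonneg (x i)) p)).mp h0 i (Finset.mem_univ i)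
      rw [Real.rpow_eq_zero_iff_of_nonneg (norm_nonneg _)] at this
      simpa using this.1
    refine ⟨0, fun i => by simp [coef, hx i], ?_⟩
    have : nrm (0 : (Fin s → Bool) → X) = 0 := by simp [nrm]
    rw [this, ← hAz]; simp
  · -- the space `ℓ₂(Ω; X)`
    let E := PiLp 2 (fun _ : Fin s → Bool => X)
    let M : Submodule ℝ E :=
      { carrier := {F | ∀ i, coef i (ofLp F) = 0}
        add_mem' := by
          intro a b ha hb i
          have := coef_add i (ofLp a) (ofLp b)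
          simp only [Set.mem_ofPred_eq] at ha hb
          rw [ofLp_add, this, ha i, hb i, add_zero]
        zero_mem' := by intro i; simp [coef]
        smul_mem' := by
          intro c a ha i
          simp only [Set.mem_ofPred_eq] at ha
          rw [ofLp_smul, coef_smul, ha i, smul_zero] }
    let F0 : E := toLp 2 (fun η => ∑ j, signVal (η j) • x j)
    obtain ⟨g, hg1, hg2⟩ := exists_dual_vector'' ℝ (M.mkQL F0)
    let G0 : E →L[ℝ] ℝ := g.comp M.mkQL
    have hG0 : ∀ F : E, ‖G0 F‖ ≤ ‖F‖ := by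
      intro F
      calc ‖G0 F‖ = ‖g (M.mkQL F)‖ := rfl
        _ ≤ ‖g‖ * ‖M.mkQL F‖ := g.le_opNorm _
        _ ≤ 1 * ‖F‖ := by
            refine mul_le_mul hg1 ?_ (norm_nonneg _) zero_le_one
            exact Submodule.Quotient.norm_mk_le M F
        _ = ‖F‖ := one_mul _
    have hM : ∀ F : E, (∀ i, coef i (ofLp F) = 0) → G0 F = 0 := by
      intro F hF
      have : M.mkQL F = 0 := by
        rw [Submodule.mkQL_apply, Submodule.mkQ_apply, Submodule.Quotient.mk_eq_zero]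
        exact hF
      show g (M.mkQL F) = 0
      rw [this, map_zero]
    -- the functionals `ξ i`
    let J : Fin s → X →ₗ[ℝ] E := fun i =>
      { toFun := fun v => toLp 2 (fun η => signVal (η i) • v)
        map_add' := by intro v w; ext η; exact smul_add _ _ _
        map_smul' := by intro c v; ext η; exact smul_comm _ _ _ }
    have hnormE : ∀ F : E, ‖F‖ = Real.sqrt (∑ η, ‖ofLp F η‖ ^ 2) := by
      intro F
      exact PiLp.norm_eq_of_L2 F
    have hJ : ∀ i v, ‖J i v‖ ≤ Real.sqrt ((2 : ℝ) ^ s) * ‖v‖ := by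
      intro i v
      rw [hnormE]
      have : ∑ η : Fin s → Bool, ‖(ofLp (J i v)) η‖ ^ 2 = (2 : ℝ) ^ s * ‖v‖ ^ 2 := by
        have e : ∀ η : Fin s → Bool, ‖(ofLp (J i v)) η‖ ^ 2 = ‖v‖ ^ 2 := by
          intro η
          show ‖signVal (η i) • v‖ ^ 2 = ‖v‖ ^ 2
          rw [norm_smul, Real.norm_eq_abs, abs_signVal, one_mul]
        simp [e]
      rw [this, Real.sqrt_mul (by positivity), Real.sqrt_sq (norm_nonneg _)]
    let ξ : Fin s → StrongDual ℝ X := fun i =>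
      (G0.toLinearMap.comp (J i)).mkContinuous (Real.sqrt ((2 : ℝ) ^ s)) (by
        intro v
        exact (hG0 _).trans (hJ i v))
    have hξ : ∀ i v, ξ i v = G0 (toLp 2 (fun η => signVal (η i) • v)) := fun i v => rfl
    -- representation of `G0`
    have hrep : ∀ F : E, G0 F = ∑ i, ξ i (coef i (ofLp F)) := by
      intro F
      let F1 : E := toLp 2 (fun η => ∑ j, signVal (η j) • coef j (ofLp F))
      have h1 : G0 (F - F1) = 0 := by
        apply hM
        intro i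
        rw [ofLp_sub, coef_sub]
        show coef i (ofLp F) - coef i (fun η => ∑ j, signVal (η j) • coef j (ofLp F)) = 0
        rw [coef_rad, sub_self]
      have h2 : F1 = ∑ j, toLp 2 (fun η => signVal (η j) • coef j (ofLp F)) := by
        ext η
        simp [F1]
      rw [map_sub, sub_eq_zero] at h1
      rw [h1, h2, map_sum]
      exact Finset.sum_congr rfl fun j _ => (hξ j _).symm
    let Gd : (Fin s → Bool) → StrongDual ℝ X := fun η => ∑ i, signVal (η i) • ξ i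
    have hrep2 : ∀ F : E, G0 F = ((2 : ℝ) ^ s)⁻¹ * ∑ η, Gd η (ofLp F η) := by
      intro F
      rw [hrep F]
      simp only [Gd, coef, sum_apply, smul_apply, map_smul,
        map_sum, smul_eq_mul]
      rw [Finset.sum_comm, ← Finset.mul_sum]
    have hGd : Real.sqrt (∑ η, ‖Gd η‖ ^ 2) ≤ (2 : ℝ) ^ s := by
      apply dual_l2_le _ _ (by positivity)
      intro F
      have h1 := hrep2 (toLp 2 F)
      have h2 := hG0 (toLp 2 F)
      rw [hnormE] at h2
      have h3 : ∑ η, Gd η (F η) = (2 : ℝ) ^ s * G0 (toLp 2 F) := by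
        rw [h1]
        field_simp
      rw [h3]
      refine mul_le_mul_of_nonneg_left ?_ (by positivity)
      exact (Real.le_norm_self _).trans h2
    -- conclusion
    have h2s : (0 : ℝ) < (2 : ℝ) ^ s := by positivity
    have hsq : (Real.sqrt ((2 : ℝ) ^ s))⁻¹ * (2 : ℝ) ^ s = Real.sqrt ((2 : ℝ) ^ s) := by
      have h := Real.mul_self_sqrt h2s.le
      have h' : Real.sqrt ((2 : ℝ) ^ s) ≠ 0 := (Real.sqrt_pos.mpr h2s).ne'
      field_simp
      nlinarith [h]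
    have hbound : ‖M.mkQL F0‖ ≤ D * Real.sqrt ((2 : ℝ) ^ s) * A := by
      have h1 : G0 F0 = ‖M.mkQL F0‖ := hg2
      have h2 : G0 F0 = ∑ i, ξ i (x i) := by
        rw [hrep F0]
        refine Finset.sum_congr rfl fun i _ => ?_
        congr 1
        exact coef_rad i x
      have h3 := lift_aux hpr hD0 hD x Gd ξ (fun η => rfl) hGd
      rw [hsq] at h3
      rw [← h1, h2]
      exact h3
    obtain ⟨F, hF1, hF2⟩ := Submodule.Quotient.norm_mk_lt (S := M) (M.mkQL F0)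
      (ε := δ * Real.sqrt ((2 : ℝ) ^ s) * A)
      (mul_pos (mul_pos hδ (Real.sqrt_pos.mpr h2s)) hApos)
    refine ⟨ofLp F, ?_, ?_⟩
    · intro i
      have hmem : F - F0 ∈ M := by
        rw [← Submodule.Quotient.eq]
        simpa using hF1
      have := hmem i
      rw [ofLp_sub, coef_sub] at this
      rw [sub_eq_zero.mp this]
      exact coef_rad i x
    · have hn : nrm (ofLp F) = (Real.sqrt ((2 : ℝ) ^ s))⁻¹ * ‖F‖ := by
        rw [hnormE]
        unfold nrm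
        rw [Real.sqrt_mul (by positivity), Real.sqrt_inv]
        congr 3
        simp
      rw [hn]
      have hF3 : ‖F‖ ≤ (D + δ) * Real.sqrt ((2 : ℝ) ^ s) * A := by
        calc ‖F‖ ≤ ‖M.mkQL F0‖ + δ * Real.sqrt ((2 : ℝ) ^ s) * A := hF2.le
          _ ≤ D * Real.sqrt ((2 : ℝ) ^ s) * A + δ * Real.sqrt ((2 : ℝ) ^ s) * A := by
              linarith
          _ = _ := by ring
      have hs0 : 0 < Real.sqrt ((2 : ℝ) ^ s) := Real.sqrt_pos.mpr h2s
      calc (Real.sqrt ((2 : ℝ) ^ s))⁻¹ * ‖F‖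
          ≤ (Real.sqrt ((2 : ℝ) ^ s))⁻¹ * ((D + δ) * Real.sqrt ((2 : ℝ) ^ s) * A) :=
            mul_le_mul_of_nonneg_left hF3 (by positivity)
        _ = (D + δ) * A := by
            field_simp

/-- Fixed size, quadratic form of the lifting property (dual cotype). -/
def HasLift (X : Type*) [NormedAddCommGroup X] [NormedSpace ℝ X] (M : ℕ) (B : ℝ) : Prop :=
  ∀ z : Fin M → X, ∃ F : (Fin M → Bool) → X, (∀ i, coef i F = z i) ∧
    ((2 : ℝ) ^ M)⁻¹ * ∑ η, ‖F η‖ ^ 2 ≤ B ^ 2 * ((M : ℝ)⁻¹ * ∑ j, ‖z j‖ ^ 2)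

/-- Fixed size, quadratic form of the cotype inequality. -/
def HasCot (Y : Type*) [NormedAddCommGroup Y] [NormedSpace ℝ Y] (L : ℕ) (A : ℝ) : Prop :=
  ∀ y : Fin L → Y, A ^ 2 * ((L : ℝ)⁻¹ * ∑ l, ‖y l‖ ^ 2) ≤
    ((2 : ℝ) ^ L)⁻¹ * ∑ η : Fin L → Bool, ‖∑ l, signVal (η l) • y l‖ ^ 2

theorem nrm_sq {Ω : Type*} [Fintype Ω] {E : Type*} [NormedAddCommGroup E] (f : Ω → E) :
    nrm f ^ 2 = (Fintype.card Ω : ℝ)⁻¹ * ∑ ω, ‖f ω‖ ^ 2 := by
  unfold nrm
  rw [Real.sq_sqrt]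
  have : 0 ≤ ∑ ω, ‖f ω‖ ^ 2 := Finset.sum_nonneg fun _ _ => by positivity
  positivity

/-- comparison of `ℓ_p` and `ℓ_2` sums for `p ≤ 2`. -/
theorem lp_le_l2 {p : ℝ} (hp0 : 0 < p) (hp : p ≤ 2) {M : ℕ} (hM : 0 < M) (a : Fin M → ℝ)
    (ha : ∀ i, 0 ≤ a i) :
    (∑ i, a i ^ p) ^ (1 / p) ≤
      (M : ℝ) ^ (1 / p) * ((M : ℝ)⁻¹ * ∑ i, a i ^ 2) ^ (1 / 2 : ℝ) := by
  have hM' : (0 : ℝ) < M := by exact_mod_cast hM
  have hs : (0 : ℝ) ≤ ∑ i, a i ^ 2 := Finset.sum_nonneg fun i _ => by positivity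
  -- power mean
  have hpm := Real.rpow_arith_mean_le_arith_mean_rpow (Finset.univ : Finset (Fin M))
    (fun _ => (M : ℝ)⁻¹) (fun i => a i ^ p) (fun _ _ => by positivity)
    (by simp [hM'.ne'])
    (fun i _ => Real.rpow_nonneg (ha i) _) (p := 2 / p) (by
      rw [le_div_iff₀ hp0]; linarith)
  have e1 : ∀ i, (a i ^ p) ^ (2 / p) = a i ^ 2 := by
    intro i
    rw [← Real.rpow_mul (ha i)]
    rw [mul_div_cancel₀ _ hp0.ne', Real.rpow_two]
  simp only [e1] at hpm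
  rw [← Finset.mul_sum, ← Finset.mul_sum] at hpm
  have hS : 0 ≤ ∑ i, a i ^ p := Finset.sum_nonneg fun i _ => Real.rpow_nonneg (ha i) _
  have h2 : ((M : ℝ)⁻¹ * ∑ i, a i ^ p) ^ (1 / p) ≤
      ((M : ℝ)⁻¹ * ∑ i, a i ^ 2) ^ (1 / 2 : ℝ) := by
    have := Real.rpow_le_rpow (by positivity) hpm (show (0 : ℝ) ≤ 1 / 2 by norm_num)
    rw [← Real.rpow_mul (by positivity)] at this
    have e2 : 2 / p * (1 / 2) = 1 / p := by ring
    rwa [e2] at this
  calc (∑ i, a i ^ p) ^ (1 / p)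
      = ((M : ℝ) * ((M : ℝ)⁻¹ * ∑ i, a i ^ p)) ^ (1 / p) := by
        rw [mul_inv_cancel_left₀ hM'.ne']
    _ = (M : ℝ) ^ (1 / p) * ((M : ℝ)⁻¹ * ∑ i, a i ^ p) ^ (1 / p) :=
        Real.mul_rpow hM'.le (by positivity)
    _ ≤ _ := mul_le_mul_of_nonneg_left h2 (by positivity)

/-- comparison of `ℓ_2` and `ℓ_q` sums for `2 ≤ q`. -/
theorem l2_le_lq {q : ℝ} (hq : 2 ≤ q) {M : ℕ} (hM : 0 < M) (a : Fin M → ℝ)
    (ha : ∀ i, 0 ≤ a i) :
    (M : ℝ) ^ (1 / q) * ((M : ℝ)⁻¹ * ∑ i, a i ^ 2) ^ (1 / 2 : ℝ) ≤ (∑ i, a i ^ q) ^ (1 / q) := by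
  have hM' : (0 : ℝ) < M := by exact_mod_cast hM
  have hq0 : 0 < q := by linarith
  have hs : (0 : ℝ) ≤ ∑ i, a i ^ 2 := Finset.sum_nonneg fun i _ => by positivity
  have hpm := Real.rpow_arith_mean_le_arith_mean_rpow (Finset.univ : Finset (Fin M))
    (fun _ => (M : ℝ)⁻¹) (fun i => a i ^ 2) (fun _ _ => by positivity)
    (by simp [hM'.ne'])
    (fun i _ => by positivity) (p := q / 2) (by linarith)
  have e1 : ∀ i, (a i ^ 2) ^ (q / 2) = a i ^ q := by
    intro i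
    rw [← Real.rpow_two, ← Real.rpow_mul (ha i)]
    congr 1
    ring
  simp only [e1] at hpm
  rw [← Finset.mul_sum, ← Finset.mul_sum] at hpm
  have hS : 0 ≤ ∑ i, a i ^ q := Finset.sum_nonneg fun i _ => Real.rpow_nonneg (ha i) _
  have h2 : ((M : ℝ)⁻¹ * ∑ i, a i ^ 2) ^ (1 / 2 : ℝ) ≤
      ((M : ℝ)⁻¹ * ∑ i, a i ^ q) ^ (1 / q) := by
    have := Real.rpow_le_rpow (by positivity) hpm (show (0 : ℝ) ≤ 1 / q by positivity)
    rw [← Real.rpow_mul (by positivity)] at this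
    have e2 : q / 2 * (1 / q) = 1 / 2 := by field_simp
    rwa [e2] at this
  calc (M : ℝ) ^ (1 / q) * ((M : ℝ)⁻¹ * ∑ i, a i ^ 2) ^ (1 / 2 : ℝ)
      ≤ (M : ℝ) ^ (1 / q) * ((M : ℝ)⁻¹ * ∑ i, a i ^ q) ^ (1 / q) :=
        mul_le_mul_of_nonneg_left h2 (by positivity)
    _ = ((M : ℝ) * ((M : ℝ)⁻¹ * ∑ i, a i ^ q)) ^ (1 / q) :=
        (Real.mul_rpow hM'.le (by positivity)).symm
    _ = _ := by rw [mul_inv_cancel_left₀ hM'.ne']

/-- Cotype `r` of the dual gives the fixed-size quadratic lifting with any constant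
`B > D * M ^ (1 - 1 / r)`. -/
theorem hasLift_of_cotype {r D : ℝ} (hr : 2 ≤ r) (hD0 : 0 ≤ D)
    (hD : HasRademacherCotype (StrongDual ℝ X) r D) {M : ℕ} (hM : 0 < M) {B : ℝ}
    (hB : D * (M : ℝ) ^ (1 - 1 / r) < B) : HasLift X M B := by
  have hM' : (0 : ℝ) < M := by exact_mod_cast hM
  intro z
  have hr1 : 1 < r := by linarith
  have hpr : (Real.conjExponent r).HolderConjugate r := (Real.HolderConjugate.conjExponent hr1).symm
  set p := Real.conjExponent r with hp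
  have hpinv : 1 / p = 1 - 1 / r := by
    have := hpr.inv_add_inv_eq_one
    rw [one_div, one_div]; linarith
  have hp0 : 0 < p := hpr.pos
  have hp2 : p ≤ 2 := by
    have h1 : 1 / r ≤ 1 / 2 := by
      apply one_div_le_one_div_of_le (by norm_num) hr
    have h2 : 1 / 2 ≤ 1 / p := by rw [hpinv]; linarith
    have h3 := one_div_le_one_div_of_le (by norm_num : (0:ℝ) < 1 / 2) h2
    simpa using h3
  have hMp : 0 < (M : ℝ) ^ (1 / p) := Real.rpow_pos_of_pos hM' _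
  rw [← hpinv] at hB
  have hδ : 0 < B / (M : ℝ) ^ (1 / p) - D := by
    rw [sub_pos, lt_div_iff₀ hMp]; exact hB
  obtain ⟨F, hF1, hF2⟩ := lift hpr hD0 hD z hδ
  refine ⟨F, hF1, ?_⟩
  have h1 := lp_le_l2 hp0 hp2 hM (fun i => ‖z i‖) (fun i => norm_nonneg _)
  have h2 : nrm F ≤ B * ((M : ℝ)⁻¹ * ∑ i, ‖z i‖ ^ 2) ^ (1 / 2 : ℝ) := by
    have hc : D + (B / (M : ℝ) ^ (1 / p) - D) = B / (M : ℝ) ^ (1 / p) := by ring
    rw [hc] at hF2
    have hB0 : 0 ≤ B / (M : ℝ) ^ (1 / p) := by linarith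
    calc nrm F ≤ B / (M : ℝ) ^ (1 / p) * (∑ i, ‖z i‖ ^ p) ^ (1 / p) := hF2
      _ ≤ B / (M : ℝ) ^ (1 / p) *
          ((M : ℝ) ^ (1 / p) * ((M : ℝ)⁻¹ * ∑ i, ‖z i‖ ^ 2) ^ (1 / 2 : ℝ)) :=
          mul_le_mul_of_nonneg_left h1 hB0
      _ = _ := by field_simp
  have h0 : 0 ≤ nrm F := Real.sqrt_nonneg _
  have h3 : nrm F ^ 2 ≤ (B * ((M : ℝ)⁻¹ * ∑ i, ‖z i‖ ^ 2) ^ (1 / 2 : ℝ)) ^ 2 :=
    pow_le_pow_left₀ h0 h2 2
  rw [nrm_sq, mul_pow, ← Real.sqrt_eq_rpow, Real.sq_sqrt (by positivity)] at h3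
  simpa using h3

/-- Cotype `q` gives the fixed-size quadratic inequality with `A = L ^ (1 / q) / C`. -/
theorem hasCot_of_cotype {Y : Type*} [NormedAddCommGroup Y] [NormedSpace ℝ Y] {q C : ℝ}
    (hq : 2 ≤ q) (hC0 : 0 < C)
    (hC : HasRademacherCotype Y q C) {L : ℕ} (hL : 0 < L) :
    HasCot Y L ((L : ℝ) ^ (1 / q) / C) := by
  intro y
  have h1 := hC L y
  have h2 := l2_le_lq hq hL (fun i => ‖y i‖) (fun i => norm_nonneg _)
  have h3 := h2.trans h1
  have hS : 0 ≤ ∑ i, ‖y i‖ ^ 2 := Finset.sum_nonneg fun _ _ => by positivity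
  set Q := signAverage fun ε : Fin L → Bool => ‖∑ i, signVal (ε i) • y i‖ ^ (2 : ℝ) with hQ
  have hQ0 : 0 ≤ Q := by
    rw [hQ]; unfold signAverage
    have : 0 ≤ ∑ ε : Fin L → Bool, ‖∑ i, signVal (ε i) • y i‖ ^ (2 : ℝ) :=
      Finset.sum_nonneg fun _ _ => Real.rpow_nonneg (norm_nonneg _) _
    positivity
  have h4 := pow_le_pow_left₀ (by positivity) h3 2
  rw [mul_pow, mul_pow, ← Real.sqrt_eq_rpow, ← Real.sqrt_eq_rpow, Real.sq_sqrt (by positivity),
    Real.sq_sqrt hQ0] at h4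
  have h5 : Q = ((2 : ℝ) ^ L)⁻¹ * ∑ η : Fin L → Bool, ‖∑ l, signVal (η l) • y l‖ ^ 2 := by
    rw [hQ]; unfold signAverage
    simp only [Real.rpow_two]
  rw [← h5, div_pow]
  calc ((L : ℝ) ^ (1 / q)) ^ 2 / C ^ 2 * ((L : ℝ)⁻¹ * ∑ l, ‖y l‖ ^ 2)
      = (((L : ℝ) ^ (1 / q)) ^ 2 * ((L : ℝ)⁻¹ * ∑ l, ‖y l‖ ^ 2)) / C ^ 2 := by ring
    _ ≤ (C ^ 2 * Q) / C ^ 2 := by
        apply div_le_div_of_nonneg_right h4 (by positivity)
    _ = Q := by field_simp

end Crest.Agent.R118.Lift361
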