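import Crest.Agent.R118.KNorm_324
import Crest.Agent.R118.Lift_361

/-!
Glue for S0158: all analytic inputs as hypotheses.
-/

set_option autoImplicit false
set_option linter.unusedVariables false
open Crest.AnalysisR

namespace Crest.Agent.R118.Glue324

open Finset Base324 KNorm324 Lift361

universe u

/-! ### Parameters -/

theorem exists_L (q C : ℝ) (hq : 2 ≤ q) (hC : 0 < C) :
    ∃ L : ℕ, 0 < L ∧ 1000 ≤ (L : ℝ) ^ (1 / q) / C := by
  have hq0 : 0 < q := by linarith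
  obtain ⟨n, hn⟩ := exists_nat_ge ((1000 * C) ^ q)
  refine ⟨n + 1, Nat.succ_pos _, ?_⟩
  rw [le_div_iff₀ hC]
  have h1 : (1000 * C) ^ q ≤ ((n + 1 : ℕ) : ℝ) := by push_cast; linarith
  have h2 := Real.rpow_le_rpow (by positivity) h1 (show (0 : ℝ) ≤ 1 / q by positivity)
  rw [← Real.rpow_mul (by positivity), mul_one_div_cancel hq0.ne', Real.rpow_one] at h2
  exact h2

theorem exists_M (r D : ℝ) (L : ℕ) (hr : 2 ≤ r) (hD : 0 ≤ D) :
    ∃ M : ℕ, 2 ≤ M ∧ ∃ B B' : ℝ, D * (M : ℝ) ^ (1 - 1 / r) < B ∧ B < B' ∧ 0 < B' ∧ 0 ≤ B ∧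
      (2 : ℝ) ^ (L + 1) ≤ M / (2 * B') := by
  have hr0 : 0 < r := by linarith
  obtain ⟨n, hn⟩ := exists_nat_gt ((D * 2 ^ (L + 2)) ^ r)
  have hn0 : 0 ≤ (D * 2 ^ (L + 2)) ^ r := by positivity
  refine ⟨n + 2, by omega, ?_⟩
  set M : ℝ := ((n + 2 : ℕ) : ℝ) with hM
  have hM0 : 0 < M := by rw [hM]; positivity
  have h1 : (D * 2 ^ (L + 2)) ^ r < M := by rw [hM]; push_cast; linarith
  have h2 := Real.rpow_lt_rpow hn0 h1 (show (0 : ℝ) < 1 / r by positivity)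
  rw [← Real.rpow_mul (by positivity), mul_one_div_cancel hr0.ne', Real.rpow_one] at h2
  have h3 : D * M ^ (1 - 1 / r) < M / 2 ^ (L + 2) := by
    rw [Real.rpow_sub hM0, Real.rpow_one, lt_div_iff₀ (by positivity)]
    have hMr : 0 < M ^ (1 / r) := Real.rpow_pos_of_pos hM0 _
    have : D * (M / M ^ (1 / r)) * 2 ^ (L + 2) = (D * 2 ^ (L + 2)) * (M / M ^ (1 / r)) := by ring
    rw [this]
    calc (D * 2 ^ (L + 2)) * (M / M ^ (1 / r)) < M ^ (1 / r) * (M / M ^ (1 / r)) := by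
          apply mul_lt_mul_of_pos_right h2; positivity
      _ = M := by field_simp
  have hB' : 0 < M / 2 ^ (L + 2) := by positivity
  have hD' : 0 ≤ D * M ^ (1 - 1 / r) := by positivity
  refine ⟨(D * M ^ (1 - 1 / r) + M / 2 ^ (L + 2)) / 2, M / 2 ^ (L + 2), by linarith, by linarith,
    hB', by linarith, ?_⟩
  rw [pow_succ 2 (L + 1)]
  apply le_of_eq
  field_simp

theorem exists_β (n : ℕ) (hn : 2 ≤ n) :
    ∃ β : ℝ, 0 < β ∧ β < 1 ∧ 1 / 2 ≤ β ^ 2 ∧ 1 / 2 ≤ β ^ n := by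
  have hn' : (2 : ℝ) ≤ n := by exact_mod_cast hn
  have hx : 1 / (2 * (n : ℝ)) ≤ 1 / 4 := by
    apply one_div_le_one_div_of_le <;> linarith
  have hx0 : 0 < 1 / (2 * (n : ℝ)) := by positivity
  have key : ∀ k : ℕ, k ≤ n → 1 / 2 ≤ (1 - 1 / (2 * (n : ℝ))) ^ k := by
    intro k hk
    have h := one_add_mul_le_pow (a := - (1 / (2 * (n : ℝ)))) (by linarith) k
    have hk' : (k : ℝ) ≤ n := by exact_mod_cast hk
    have h2 : (k : ℝ) * (1 / (2 * (n : ℝ))) ≤ 1 / 2 := by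
      calc (k : ℝ) * (1 / (2 * (n : ℝ))) ≤ n * (1 / (2 * (n : ℝ))) := by gcongr
        _ = 1 / 2 := by field_simp
    have h3 : 1 + -(1 / (2 * (n : ℝ))) = 1 - 1 / (2 * (n : ℝ)) := by ring
    rw [h3] at h
    linarith
  exact ⟨1 - 1 / (2 * (n : ℝ)), by linarith, by linarith, key 2 hn, key n le_rfl⟩

/-- constants of cotype of a nontrivial space are positive -/
theorem cotype_const_pos {Y : Type*} [NormedAddCommGroup Y] [NormedSpace ℝ Y] [Nontrivial Y]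
    {q C : ℝ} (hq : 2 ≤ q) (h : HasRademacherCotype Y q C) : 0 < C := by
  obtain ⟨y, hy⟩ := exists_ne (0 : Y)
  have hy' : 0 < ‖y‖ := norm_pos_iff.mpr hy
  have h1 := h 1 (fun _ => y)
  have hq0 : q ≠ 0 := by linarith
  simp only [univ_unique, sum_singleton] at h1
  rw [← Real.rpow_mul hy'.le, mul_one_div_cancel hq0, Real.rpow_one] at h1
  by_contra hC
  push Not at hC
  have h2 : 0 ≤ (signAverage fun ε : Fin 1 → Bool => ‖signVal (ε default) • y‖ ^ (2 : ℝ)) ^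
      (1 / 2 : ℝ) := by
    apply Real.rpow_nonneg
    unfold signAverage
    have : 0 ≤ ∑ ε : Fin 1 → Bool, ‖signVal (ε default) • y‖ ^ (2 : ℝ) :=
      Finset.sum_nonneg fun _ _ => Real.rpow_nonneg (norm_nonneg _) _
    positivity
  have h3 := mul_nonpos_of_nonpos_of_nonneg hC h2
  linarith

/-- the Walsh estimate in `ZMod 2` form -/
def WalshZ {X Y : Type*} [NormedAddCommGroup X] [NormedSpace ℝ X] [NormedAddCommGroup Y]
    [NormedSpace ℝ Y] (T : X →ₗ[ℝ] Y) (S β : ℝ) : Prop :=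
  ∀ (j : ℕ) (f : (Fin j → ZMod 2) → X),
    avg (fun t : Fin j → ZMod 2 => ‖avg fun v : Fin j → ZMod 2 => χ v t • T (f v)‖ ^ 2)
      ≤ (S * β ^ j) ^ 2 * avg fun v => ‖f v‖ ^ 2

/-- the Walsh estimate in `Bool` form (Endgame_827) -/
def WalshB {X Y : Type*} [NormedAddCommGroup X] [NormedSpace ℝ X] [NormedAddCommGroup Y]
    [NormedSpace ℝ Y] (T : X →ₗ[ℝ] Y) (S β : ℝ) : Prop :=
  ∀ (j : ℕ) (f : (Fin j → Bool) → X),
    signAverage (fun a : Fin j → Bool => ‖((2 : ℝ) ^ j)⁻¹ • ∑ b : Fin j → Bool,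
      (∏ i, if a i && b i then (-1 : ℝ) else 1) • T (f b)‖ ^ 2)
      ≤ (S * β ^ j) ^ 2 * signAverage fun b => ‖f b‖ ^ 2

/-- `Bool ≃ ZMod 2` -/
def bz : Bool ≃ ZMod 2 where
  toFun b := if b then 1 else 0
  invFun x := decide (x = 1)
  left_inv b := by cases b <;> decide
  right_inv x := by revert x; decide

theorem signAverage_eq_avg {s : ℕ} (g : (Fin s → Bool) → ℝ) : signAverage g = avg g := by
  simp [signAverage, avg]

theorem walshB_of_walshZ {X Y : Type*} [NormedAddCommGroup X] [NormedSpace ℝ X]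
    [NormedAddCommGroup Y] [NormedSpace ℝ Y] (T : X →ₗ[ℝ] Y) (S β : ℝ) (h : WalshZ T S β) :
    WalshB T S β := by
  intro j f
  rw [signAverage_eq_avg, signAverage_eq_avg]
  let e : (Fin j → Bool) ≃ (Fin j → ZMod 2) := Equiv.arrowCongr (Equiv.refl _) bz
  have h1 := h j (fun v => f (e.symm v))
  rw [← avg_equiv e, ← avg_equiv e] at h1
  have h2 : ∀ a : Fin j → Bool, (avg fun v : Fin j → ZMod 2 => χ v (e a) • T (f (e.symm v)))
      = ((2 : ℝ) ^ j)⁻¹ • ∑ b : Fin j → Bool,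
        (∏ i, if a i && b i then (-1 : ℝ) else 1) • T (f b) := by
    intro a
    rw [← avg_equiv e]
    simp only [Equiv.symm_apply_apply]
    have h3 : ∀ b : Fin j → Bool, χ (e b) (e a) = ∏ i, if a i && b i then (-1 : ℝ) else 1 := by
      intro b
      rw [χ_pi]
      apply Finset.prod_congr rfl
      intro i _
      rw [χ_zmod2]
      have ha : e a i = bz (a i) := rfl
      have hb : e b i = bz (b i) := rfl
      rw [ha, hb]
      cases a i <;> cases b i <;> simp [bz]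
    simp only [h3, avg]
    simp
  simpa [h2] using h1

/-- **Glue.** -/
theorem glue
    (hthmA : ∀ (β a as : ℝ) (L M : ℕ) (hβ0 : 0 < β) (hβ1 : β < 1) (hL : 0 < L) (hM : 0 < M)
      (ha : 1000 ≤ a) (has : 2 ^ (L + 1) ≤ as) (hML : 1 / 2 ≤ β ^ (M + L)),
      ∃ n0 : ℕ, ∀ K : KNorm β a as L M,
        K.ν (fun x y : Fin n0 → ZMod 2 => χ x y) ≤ 1 / 2 * β ^ n0)
    (hLayer : ∀ (β a as : ℝ) (L M n0 : ℕ) (hβ0 : 0 < β) (hβ1 : β < 1) (hβ2 : 1 / 2 ≤ β ^ 2)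
      (ha : 0 < a) (has : 0 < as) (hL : 0 < L) (hM : 0 < M)
      (hn0 : ∀ K : KNorm β a as L M,
        K.ν (fun x y : Fin n0 → ZMod 2 => χ x y) ≤ 1 / 2 * β ^ n0)
      (Z : Type u) (X : Type u) [NormedAddCommGroup Z] [NormedSpace ℝ Z] [NormedAddCommGroup X]
      [NormedSpace ℝ X] (T : Z →L[ℝ] X) (hT : FiniteDimensional ℝ (LinearMap.range (T : Z →ₗ[ℝ] X)))
      (hLift : HasLift Z M (M / as)) (hCot : HasCot X L a),
      WalshZ (T : Z →ₗ[ℝ] X) ((β ^ n0)⁻¹ * ‖T‖) β)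
    (hEnd : ∀ (S0 β : ℝ), 0 < β → β < 1 → 0 ≤ S0 → ∃ k : ℝ, ∀ (Z : Type u) (X : Type u)
      [NormedAddCommGroup Z] [NormedSpace ℝ Z] [NormedAddCommGroup X] [NormedSpace ℝ X]
      (T : Z →ₗ[ℝ] X), WalshB T S0 β → ∀ (s : ℕ) (g : (Fin s → Bool) → Z),
        signAverage (fun ε : Fin s → Bool =>
          ‖∑ i : Fin s, signVal (ε i) •
            (((2 : ℝ) ^ s)⁻¹ • ∑ η : Fin s → Bool, signVal (η i) • T (g η))‖ ^ 2)
          ≤ k ^ 2 * signAverage fun ε => ‖g ε‖ ^ 2)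
    (hRed : ∀ (X : Type u) [NormedAddCommGroup X] [NormedSpace ℝ X] [CompleteSpace X]
      (hAP : HasApproximationProperty X) (M : ℕ) (B B' : ℝ) (hM : 0 < M) (hB : 0 ≤ B)
      (hBB : B < B') (hL : HasLift X M B) (k : ℝ)
      (hMain : ∀ (Z : Type u) [NormedAddCommGroup Z] [NormedSpace ℝ Z] (T : Z →L[ℝ] X),
        FiniteDimensional ℝ (LinearMap.range (T : Z →ₗ[ℝ] X)) → ‖T‖ ≤ 1 →
        HasLift Z M (2 * B') → ∀ (s : ℕ) (g : (Fin s → Bool) → Z),
          signAverage (fun ε : Fin s → Bool =>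
            ‖∑ i : Fin s, signVal (ε i) •
              (((2 : ℝ) ^ s)⁻¹ • ∑ η : Fin s → Bool, signVal (η i) • T (g η))‖ ^ 2)
            ≤ k ^ 2 * signAverage fun ε => ‖g ε‖ ^ 2), IsKConvex X)
    (X : Type u) [NormedAddCommGroup X] [NormedSpace ℝ X] [CompleteSpace X] [Nontrivial X]
    (hAP : HasApproximationProperty X) (q r C D : ℝ) (hq : 2 ≤ q) (hr : 2 ≤ r)
    (hX : HasRademacherCotype X q C)
    (hX' : HasRademacherCotype (StrongDual ℝ X) r D) :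
    IsKConvex X := by
  have hC : 0 < C := cotype_const_pos hq hX
  have hD : 0 < D := cotype_const_pos hr hX'
  obtain ⟨L, hL, ha⟩ := exists_L q C hq hC
  obtain ⟨M, hM, B, B', hB1, hB2, hB3, hB0, has⟩ := exists_M r D L hr hD.le
  obtain ⟨β, hβ0, hβ1, hβ2, hβ3⟩ := exists_β (M + L) (by omega)
  have hM0 : 0 < M := by omega
  have hMr : (0 : ℝ) < M := by exact_mod_cast hM0
  have hCot : HasCot X L ((L : ℝ) ^ (1 / q) / C) := hasCot_of_cotype hq hC hX hL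
  have hLiftX : HasLift X M B := hasLift_of_cotype hr hD.le hX' hM0 hB1
  obtain ⟨n0, hn0⟩ := hthmA β _ _ L M hβ0 hβ1 hL hM0 ha has hβ3
  obtain ⟨k, hk⟩ := hEnd ((β ^ n0)⁻¹) β hβ0 hβ1 (by positivity)
  refine hRed X hAP M B B' hM0 hB0 hB2 hLiftX k ?_
  intro Z _ _ T hTfin hT1 hLZ s g
  have has0 : (0 : ℝ) < M / (2 * B') := by positivity
  have hLZ' : HasLift Z M (M / (M / (2 * B'))) := by
    have : (M : ℝ) / (M / (2 * B')) = 2 * B' := by field_simp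
    rw [this]; exact hLZ
  have hW := hLayer β _ _ L M n0 hβ0 hβ1 hβ2 (by linarith) has0 hL hM0 hn0 Z X T hTfin hLZ' hCot
  have hW2 : WalshZ (T : Z →ₗ[ℝ] X) ((β ^ n0)⁻¹) β := by
    intro j f
    refine (hW j f).trans ?_
    apply mul_le_mul_of_nonneg_right _ (avg_nonneg fun _ => sq_nonneg _)
    apply pow_le_pow_left₀ (by positivity)
    have h1 : (β ^ n0)⁻¹ * ‖T‖ ≤ (β ^ n0)⁻¹ * 1 := by
      apply mul_le_mul_of_nonneg_left hT1; positivity
    rw [mul_one] at h1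
    exact mul_le_mul_of_nonneg_right h1 (by positivity)
  exact hk Z X (T : Z →ₗ[ℝ] X) (walshB_of_walshZ _ _ _ hW2) s g

end Crest.Agent.R118.Glue324
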