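import Crest.Agent.R118.Layer_408
import Crest.Agent.R118.Lift_361

/-!
Row 118 (S0158), analytic layer, part 2: the cotype step, the lifting step and the finite rank
bound at the level of a single operator `T`.
-/

set_option autoImplicit false

namespace Crest.Agent.R118.Layer2x130

open Finset Base324 Lift361 Layer408 Crest.AnalysisR

/-! ## Conversion between `Bool` and `ZMod 2` -/

/-- `true ↦ 0`, `false ↦ 1`. -/
def bz : Bool ≃ ZMod 2 where
  toFun b := if b then 0 else 1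
  invFun x := decide (x = 0)
  left_inv b := by cases b <;> simp
  right_inv x := by rcases zmod2_cases x with rfl | rfl <;> simp

lemma sg_bz (b : Bool) : sg (bz b) = signVal b := by
  cases b <;> simp [bz, signVal]

/-- the induced equivalence of cubes -/
def bzPi (n : ℕ) : (Fin n → Bool) ≃ (Fin n → ZMod 2) := Equiv.piCongrRight fun _ => bz

lemma bzPi_apply {n : ℕ} (η : Fin n → Bool) (i : Fin n) : bzPi n η i = bz (η i) := rfl

lemma avg_bzPi {E : Type*} [AddCommGroup E] [Module ℝ E] {n : ℕ} (g : (Fin n → ZMod 2) → E) :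
    avg g = ((2 : ℝ) ^ n)⁻¹ • ∑ η : Fin n → Bool, g (bzPi n η) := by
  rw [← avg_equiv (bzPi n) g, avg_def]
  simp

/-- `ZMod 2` form of the cotype inequality -/
theorem hasCot_zmod2 {Y : Type*} [NormedAddCommGroup Y] [NormedSpace ℝ Y] {L : ℕ} {a : ℝ}
    (h : HasCot Y L a) (y : Fin L → Y) :
    a ^ 2 * avg (fun l => ‖y l‖ ^ 2) ≤
      avg fun η : Fin L → ZMod 2 => ‖∑ l, sg (η l) • y l‖ ^ 2 := by
  have h1 := h y
  rw [avg_bzPi]
  simp only [avg_def, Fintype.card_fin, smul_eq_mul, bzPi_apply, sg_bz]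
  exact h1

/-- `ZMod 2` form of the lifting property -/
theorem hasLift_zmod2 {X : Type*} [NormedAddCommGroup X] [NormedSpace ℝ X] {M : ℕ} {b : ℝ}
    (h : HasLift X M b) (z : Fin M → X) :
    ∃ F : (Fin M → ZMod 2) → X, (∀ i, avg (fun η => sg (η i) • F η) = z i) ∧
      avg (fun η => ‖F η‖ ^ 2) ≤ b ^ 2 * avg (fun j => ‖z j‖ ^ 2) := by
  obtain ⟨F, hF1, hF2⟩ := h z
  refine ⟨fun η => F ((bzPi M).symm η), fun i => ?_, ?_⟩
  · rw [avg_bzPi, ← hF1 i]
    simp only [Equiv.symm_apply_apply, bzPi_apply, sg_bz, coef]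
  · rw [avg_bzPi]
    simp only [Equiv.symm_apply_apply, avg_def, Fintype.card_fin, smul_eq_mul]
    exact hF2

/-! ## Vector valued measure preservation -/

lemma MP_vec {A' A : Type} [Fintype A'] [Fintype A] {φ : A' → A} (h : MP φ)
    {E : Type*} [AddCommGroup E] [Module ℝ E] (g : A → E) :
    avg (fun a' => g (φ a')) = avg g := by
  classical
  have h1 : ∑ a', g (φ a') = ∑ a, ((univ.filter fun a' => φ a' = a).card : ℝ) • g a := by
    rw [← Finset.sum_fiberwise univ φ (fun a' => g (φ a'))]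
    refine Finset.sum_congr rfl fun a _ => ?_
    rw [Finset.sum_congr rfl (g := fun _ => g a)
      (fun x hx => by rw [(Finset.mem_filter.mp hx).2])]
    rw [Finset.sum_const, Nat.cast_smul_eq_nsmul]
  rw [avg_def, avg_def, h1, Finset.smul_sum, Finset.smul_sum]
  refine Finset.sum_congr rfl fun a _ => ?_
  rw [smul_smul, h.card_fibre a]

/-! ## The two steps -/

section Steps

variable {X Y : Type*} [NormedAddCommGroup X] [NormedSpace ℝ X]
  [NormedAddCommGroup Y] [NormedSpace ℝ Y]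

/-- cotype step, for one function `f`. -/
theorem cot_step {L : ℕ} {a : ℝ} (hY : HasCot Y L a) (hL : 0 < L) (T : X →L[ℝ] Y)
    {A B B' : Type} [Fintype A] [Fintype B] [Fintype B']
    (ψ : Fin L → B' → B) (hψ : ∀ j, MP (ψ j)) (κ : A → B → ℝ) (f : A → X) :
    a ^ 2 * msq (act T κ f) ≤
      msq (act T (fun x (y : B' × (Fin L → ZMod 2)) => ∑ j, sg (y.2 j) * κ x (ψ j y.1)) f) := by
  have : Nonempty (Fin L) := ⟨⟨0, hL⟩⟩
  set u : B → Y := act T κ f with hu
  have e1 : ∀ (b' : B') (η : Fin L → ZMod 2),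
      act T (fun x (y : B' × (Fin L → ZMod 2)) => ∑ j, sg (y.2 j) * κ x (ψ j y.1)) f (b', η) =
        ∑ j, sg (η j) • u (ψ j b') := by
    intro b' η
    simp only [hu, act, Finset.sum_smul, mul_smul]
    rw [avg_sum]
    refine Finset.sum_congr rfl fun j _ => ?_
    rw [avg_smul]
  have e2 : msq (act T (fun x (y : B' × (Fin L → ZMod 2)) => ∑ j, sg (y.2 j) * κ x (ψ j y.1)) f) =
      avg fun b' => avg fun η : Fin L → ZMod 2 => ‖∑ j, sg (η j) • u (ψ j b')‖ ^ 2 := by
    unfold msq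
    rw [avg_prod']
    simp only [e1]
  have e3 : a ^ 2 * msq u =
      avg fun b' => a ^ 2 * avg fun j => ‖u (ψ j b')‖ ^ 2 := by
    unfold msq
    rw [avg_mul_left, avg_comm]
    congr 1
    have : ∀ j, (avg fun b' => ‖u (ψ j b')‖ ^ 2) = avg fun b => ‖u b‖ ^ 2 :=
      fun j => hψ j (fun b => ‖u b‖ ^ 2)
    simp only [this]
    rw [avg_const]
  rw [e2, e3]
  exact avg_mono fun b' => hasCot_zmod2 hY fun j => u (ψ j b')

/-- lifting step, for one function `f`. -/
theorem lift_step {M : ℕ} {b : ℝ} (hX : HasLift X M b) (hM : 0 < M) (T : X →L[ℝ] Y)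
    {A A' B : Type} [Fintype A] [Fintype A'] [Fintype B]
    (φ : Fin M → A' → A) (hφ : ∀ l, MP (φ l)) (κ : A → B → ℝ) (f : A → X) :
    ∃ F : A' × (Fin M → ZMod 2) → X,
      (∀ y, act T (fun (x : A' × (Fin M → ZMod 2)) y => ∑ l, sg (x.2 l) * κ (φ l x.1) y) F y =
        (M : ℝ) • act T κ f y) ∧
      msq F ≤ b ^ 2 * msq f := by
  have : Nonempty (Fin M) := ⟨⟨0, hM⟩⟩
  choose F hF1 hF2 using fun a' : A' => hasLift_zmod2 hX (fun l => f (φ l a'))
  refine ⟨fun x => F x.1 x.2, fun y => ?_, ?_⟩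
  · unfold act
    rw [avg_prod (fun (a' : A') (η : Fin M → ZMod 2) =>
      (∑ l, sg (η l) * κ (φ l a') y) • T (F a' η))]
    have e1 : ∀ a', (avg fun η : Fin M → ZMod 2 =>
        (∑ l, sg (η l) * κ (φ l a') y) • T (F a' η)) =
        ∑ l, κ (φ l a') y • T (f (φ l a')) := by
      intro a'
      simp only [Finset.sum_smul]
      rw [avg_sum]
      refine Finset.sum_congr rfl fun l _ => ?_
      have e0 : T (avg fun η => sg (η l) • F a' η) = avg fun η => T (sg (η l) • F a' η) :=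
        map_avg (T : X →ₗ[ℝ] Y) _
      rw [← hF1 a' l, e0, ← avg_smul]
      congr 1
      funext η
      rw [map_smul, smul_smul, mul_comm]
    simp only [e1]
    rw [avg_sum]
    have e2 : ∀ l, (avg fun a' => κ (φ l a') y • T (f (φ l a'))) =
        avg fun x => κ x y • T (f x) := fun l => MP_vec (hφ l) (fun x => κ x y • T (f x))
    simp only [e2]
    rw [Finset.sum_const, Finset.card_univ, Fintype.card_fin, Nat.cast_smul_eq_nsmul]
  · unfold msq
    rw [avg_prod (fun (a' : A') (η : Fin M → ZMod 2) => ‖F a' η‖ ^ 2)]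
    calc (avg fun a' => avg fun η => ‖F a' η‖ ^ 2)
        ≤ avg fun a' => b ^ 2 * avg fun l => ‖f (φ l a')‖ ^ 2 := avg_mono hF2
      _ = b ^ 2 * avg (fun x => ‖f x‖ ^ 2) := by
          rw [avg_mul_left, avg_comm]
          congr 1
          have : ∀ l, (avg fun a' => ‖f (φ l a')‖ ^ 2) = avg fun x => ‖f x‖ ^ 2 :=
            fun l => hφ l (fun x => ‖f x‖ ^ 2)
          simp only [this]
          rw [avg_const]

/-- (P6) the cotype step. (For `L = 0` the statement is false, so `0 < L` is needed.) -/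
theorem NT_cot {L : ℕ} {a : ℝ} (ha : 0 ≤ a) (hL : 0 < L) (T : X →L[ℝ] Y) (hcot : HasCot Y L a)
    {A B B' : Type} [Fintype A] [Fintype B] [Fintype B']
    (ψ : Fin L → B' → B) (hψ : ∀ j, MP (ψ j)) (κ : A → B → ℝ) :
    a * NT T κ ≤ NT T (fun x (y : B' × (Fin L → ZMod 2)) => ∑ j, sg (y.2 j) * κ x (ψ j y.1)) := by
  rcases eq_or_lt_of_le ha with h0 | h0
  · rw [← h0, zero_mul]
    exact NT_nonneg _ _
  · set κ₂ : A → B' × (Fin L → ZMod 2) → ℝ :=
      (fun x (y : B' × (Fin L → ZMod 2)) => ∑ j, sg (y.2 j) * κ x (ψ j y.1)) with hκ₂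
    have h : NB T κ (NT T κ₂ / a) := by
      intro f
      have h1 := cot_step hcot hL T ψ hψ κ f
      have h2 := NB_NT T κ₂ f
      have ha2 : 0 < a ^ 2 := by positivity
      rw [div_pow, div_mul_eq_mul_div, le_div_iff₀ ha2, mul_comm]
      exact h1.trans h2
    have h3 := NT_le (div_nonneg (NT_nonneg _ _) ha) h
    rwa [le_div_iff₀ h0, mul_comm] at h3

/-- (P7) the lifting step. -/
theorem NT_lift {M : ℕ} {b : ℝ} (hb : 0 < b) (hM : 0 < M) (T : X →L[ℝ] Y) (hlift : HasLift X M b)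
    {A A' B : Type} [Fintype A] [Fintype A'] [Fintype B]
    (φ : Fin M → A' → A) (hφ : ∀ l, MP (φ l)) (κ : A → B → ℝ) :
    ((M : ℝ) / b) * NT T κ ≤
      NT T (fun (x : A' × (Fin M → ZMod 2)) y => ∑ l, sg (x.2 l) * κ (φ l x.1) y) := by
  have hM' : (0 : ℝ) < M := by exact_mod_cast hM
  set κ₂ : A' × (Fin M → ZMod 2) → B → ℝ :=
    (fun (x : A' × (Fin M → ZMod 2)) y => ∑ l, sg (x.2 l) * κ (φ l x.1) y) with hκ₂
  have h : NB T κ (NT T κ₂ * b / M) := by
    intro f
    obtain ⟨F, hF1, hF2⟩ := lift_step hlift hM T φ hφ κ f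
    have h1 := NB_NT T κ₂ F
    have e : msq (act T κ₂ F) = (M : ℝ) ^ 2 * msq (act T κ f) := by
      have : act T κ₂ F = fun y => (M : ℝ) • act T κ f y := funext hF1
      rw [this, msq_smul]
    rw [e] at h1
    have h2 : NT T κ₂ ^ 2 * msq F ≤ NT T κ₂ ^ 2 * (b ^ 2 * msq f) :=
      mul_le_mul_of_nonneg_left hF2 (sq_nonneg _)
    have hM2 : (0 : ℝ) < (M : ℝ) ^ 2 := by positivity
    rw [div_pow, div_mul_eq_mul_div, le_div_iff₀ hM2]
    calc msq (act T κ f) * (M : ℝ) ^ 2 = (M : ℝ) ^ 2 * msq (act T κ f) := mul_comm _ _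
      _ ≤ _ := h1.trans h2
      _ = _ := by ring
  have h3 := NT_le (by have := NT_nonneg T κ₂; positivity) h
  rw [le_div_iff₀ hM'] at h3
  rw [div_mul_eq_mul_div, div_le_iff₀ hb, mul_comm (M : ℝ)]
  exact h3

end Steps

/-! ## The finite rank bound -/

section Finite

/-- orthogonality of characters of `ι → ZMod 2`. -/
lemma avg_χ_eq_zero {ι : Type} [Fintype ι] [DecidableEq ι] {v : ι → ZMod 2} (hv : v ≠ 0) :
    (avg fun t : ι → ZMod 2 => χ v t) = 0 := by
  obtain ⟨i, hi⟩ := Function.ne_iff.mp hv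
  have hi' : v i = 1 := by
    rcases zmod2_cases (v i) with h | h
    · exact absurd h hi
    · exact h
  have h1 := avg_equiv (Equiv.addRight (Pi.single i (1 : ZMod 2))) (fun t : ι → ZMod 2 => χ v t)
  have h2 : ∀ t : ι → ZMod 2, χ v (t + Pi.single i (1 : ZMod 2)) = (-1) * χ v t := by
    intro t
    rw [χ_add_right]
    have : χ v (Pi.single i (1 : ZMod 2)) = -1 := by
      rw [χ_pi, Finset.prod_eq_single i]
      · simp [hi', χ_zmod2]
      · intro k _ hk
        simp [Pi.single_eq_of_ne hk, χ_zero_right]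
      · simp
    rw [this]; ring
  simp only [Equiv.coe_addRight, h2] at h1
  rw [avg_mul_left] at h1
  linarith

lemma avg_χ_mul {ι : Type} [Fintype ι] [DecidableEq ι] (v w : ι → ZMod 2) :
    (avg fun t : ι → ZMod 2 => χ v t * χ w t) = if v = w then 1 else 0 := by
  by_cases h : v = w
  · subst h
    rw [if_pos rfl]
    simp only [χ_mul_self]
    exact avg_const _
  · rw [if_neg h]
    simp only [← χ_add_left]
    apply avg_χ_eq_zero
    intro h0
    apply h
    funext i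
    have := congrFun h0 i
    simp only [Pi.add_apply, Pi.zero_apply] at this
    rcases zmod2_cases (v i) with h1 | h1 <;> rcases zmod2_cases (w i) with h2 | h2 <;>
      rw [h1, h2] at this ⊢ <;> simp at this

/-- Parseval for the kernel `χ` on `ι → ZMod 2`. -/
lemma parseval {ι : Type} [Fintype ι] [DecidableEq ι] (g : (ι → ZMod 2) → ℝ) :
    (avg fun t : ι → ZMod 2 => (avg fun v => χ v t * g v) ^ 2) =
      ((2 : ℝ) ^ Fintype.card ι)⁻¹ * avg fun v => g v ^ 2 := by
  have e1 : ∀ t : ι → ZMod 2, (avg fun v => χ v t * g v) ^ 2 =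
      avg fun v => avg fun w => (g v * g w) * (χ v t * χ w t) := by
    intro t
    rw [pow_two, ← avg_mul_right]
    congr 1
    funext v
    rw [← avg_mul_left]
    congr 1
    funext w
    ring
  simp only [e1]
  rw [avg_comm]
  have e2 : ∀ v : ι → ZMod 2, (avg fun t : ι → ZMod 2 => avg fun w : ι → ZMod 2 =>
      (g v * g w) * (χ v t * χ w t)) = ((2 : ℝ) ^ Fintype.card ι)⁻¹ * g v ^ 2 := by
    intro v
    rw [avg_comm]
    simp only [avg_mul_left, avg_χ_mul]
    rw [avg_def]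
    simp only [mul_ite, mul_one, mul_zero, Finset.sum_ite_eq, Finset.mem_univ, if_true,
      Fintype.card_pi, ZMod.card, Finset.prod_const, Finset.card_univ, smul_eq_mul]
    push_cast
    ring
  simp only [e2, avg_mul_left]

/-- scalar bound for `tens (V j) κ`. -/
lemma scalar_bound (j : ℕ) {A B : Type} [Fintype A] [Fintype B] (κ : A → B → ℝ)
    (g : (Fin j → ZMod 2) × A → ℝ) :
    (avg fun y : (Fin j → ZMod 2) × B => (avg fun x : (Fin j → ZMod 2) × A =>
      tens (V j) κ x y * g x) ^ 2) ≤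
      (((Real.sqrt 2)⁻¹ ^ j) * hs κ) ^ 2 * avg fun x => g x ^ 2 := by
  rw [avg_prod']
  have e1 : ∀ (t : Fin j → ZMod 2) (b : B), (avg fun x : (Fin j → ZMod 2) × A =>
      (tens (V j) κ x (t, b)) * g x) =
      avg fun a => κ a b * avg fun v => χ v t * g (v, a) := by
    intro t b
    rw [avg_prod', avg_comm]
    congr 1
    funext a
    rw [← avg_mul_left]
    congr 1
    funext v
    simp only [tens, V]
    ring
  simp only [e1]
  have e3 : (((Real.sqrt 2)⁻¹ ^ j) * hs κ) ^ 2 =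
      ((2 : ℝ) ^ j)⁻¹ * avg fun b => avg fun a => κ a b ^ 2 := by
    rw [mul_pow, hs, Real.sq_sqrt (avg_nonneg fun _ => avg_nonneg fun _ => sq_nonneg _), ← pow_mul,
      mul_comm j 2, pow_mul, inv_pow, Real.sq_sqrt (by norm_num), inv_pow]
  rw [e3]
  calc (avg fun t : Fin j → ZMod 2 => avg fun b =>
        (avg fun a => κ a b * avg fun v => χ v t * g (v, a)) ^ 2)
      ≤ avg fun t : Fin j → ZMod 2 => avg fun b => (avg fun a => κ a b ^ 2) *
          avg fun a => (avg fun v => χ v t * g (v, a)) ^ 2 :=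
        avg_mono fun t => avg_mono fun b => avg_mul_sq_le _ _
    _ = avg fun t : Fin j → ZMod 2 => (avg fun b => avg fun a => κ a b ^ 2) *
          avg fun a => (avg fun v => χ v t * g (v, a)) ^ 2 := by
        simp only [avg_mul_right]
    _ = (avg fun b => avg fun a => κ a b ^ 2) * avg fun a => avg fun t : Fin j → ZMod 2 =>
          (avg fun v => χ v t * g (v, a)) ^ 2 := by
        rw [avg_mul_left,
          avg_comm (fun (t : Fin j → ZMod 2) (a : A) => (avg fun v => χ v t * g (v, a)) ^ 2)]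
    _ = (avg fun b => avg fun a => κ a b ^ 2) * avg fun a => ((2 : ℝ) ^ j)⁻¹ *
          avg fun v => g (v, a) ^ 2 := by
        simp only [parseval (fun v => g (v, _)), Fintype.card_fin]
    _ = _ := by
        rw [avg_mul_left, avg_prod', avg_comm (fun (a : Fin j → ZMod 2) (b : A) => g (a, b) ^ 2)]
        ring

variable {X Y : Type*} [NormedAddCommGroup X] [NormedSpace ℝ X]
  [NormedAddCommGroup Y] [NormedSpace ℝ Y]

/-- A continuous linear map of finite rank is a finite sum of rank one maps. -/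
lemma exists_rank_one_sum (T : X →L[ℝ] Y)
    (hfin : FiniteDimensional ℝ (LinearMap.range (T : X →ₗ[ℝ] Y))) :
    ∃ (d : ℕ) (φ : Fin d → StrongDual ℝ X) (y : Fin d → Y), ∀ x, T x = ∑ i, φ i x • y i := by
  let b := Module.finBasis ℝ (LinearMap.range (T : X →ₗ[ℝ] Y))
  let R : X →L[ℝ] LinearMap.range (T : X →ₗ[ℝ] Y) :=
    T.codRestrict _ fun x => LinearMap.mem_range_self (T : X →ₗ[ℝ] Y) x
  refine ⟨_, fun i => (LinearMap.toContinuousLinearMap (b.coord i)).comp R, fun i => (b i : Y),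
    fun x => ?_⟩
  have h := b.sum_repr (R x)
  have h2 := congrArg (Subtype.val) h
  rw [AddSubmonoidClass.coe_finsetSum] at h2
  simp only [SetLike.val_smul] at h2
  have h3 : ((R x : LinearMap.range (T : X →ₗ[ℝ] Y)) : Y) = T x := rfl
  rw [← h3, ← h2]
  rfl

/-- the finite rank bound -/
theorem NT_V_tens_le (T : X →L[ℝ] Y)
    (hfin : FiniteDimensional ℝ (LinearMap.range (T : X →ₗ[ℝ] Y))) :
    ∃ G : ℝ, 0 ≤ G ∧ ∀ (j : ℕ) (A B : Type) [Fintype A] [Fintype B] (κ : A → B → ℝ),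
      NT T (tens (V j) κ) ≤ G * (Real.sqrt 2)⁻¹ ^ j * hs κ := by
  obtain ⟨d, φ, y, hT⟩ := exists_rank_one_sum T hfin
  refine ⟨Real.sqrt ((∑ i, ‖φ i‖ ^ 2) * ∑ i, ‖y i‖ ^ 2), Real.sqrt_nonneg _,
    fun j A B _ _ κ => ?_⟩
  have hG : 0 ≤ (∑ i, ‖φ i‖ ^ 2) * ∑ i, ‖y i‖ ^ 2 := by positivity
  refine NT_le (by have := hs_nonneg κ; positivity) fun f => ?_
  set K : (Fin j → ZMod 2) × A → (Fin j → ZMod 2) × B → ℝ := tens (V j) κ with hK
  have e1 : ∀ b, act T K f b = ∑ i, (avg fun x => K x b * φ i (f x)) • y i := by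
    intro b
    simp only [act, hT, Finset.smul_sum, smul_smul]
    rw [avg_sum]
    refine Finset.sum_congr rfl fun i _ => ?_
    rw [avg_smul_const]
  have e2 : ∀ b, ‖act T K f b‖ ^ 2 ≤
      (∑ i, (avg fun x => K x b * φ i (f x)) ^ 2) * ∑ i, ‖y i‖ ^ 2 := by
    intro b
    rw [e1]
    have h1 : ‖∑ i, (avg fun x => K x b * φ i (f x)) • y i‖ ≤
        ∑ i, |avg fun x => K x b * φ i (f x)| * ‖y i‖ := by
      refine (norm_sum_le _ _).trans (le_of_eq ?_)
      refine Finset.sum_congr rfl fun i _ => ?_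
      rw [norm_smul, Real.norm_eq_abs]
    have h2 := Finset.sum_mul_sq_le_sq_mul_sq Finset.univ
      (fun i => |avg fun x => K x b * φ i (f x)|) (fun i => ‖y i‖)
    simp only [sq_abs] at h2
    exact (pow_le_pow_left₀ (norm_nonneg _) h1 2).trans h2
  have e3 : msq (act T K f) ≤ avg fun b =>
      (∑ i, (avg fun x => K x b * φ i (f x)) ^ 2) * ∑ i, ‖y i‖ ^ 2 := avg_mono e2
  refine e3.trans ?_
  rw [avg_mul_right, avg_sum]
  have e4 : ∀ i, (avg fun b => (avg fun x => K x b * φ i (f x)) ^ 2) ≤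
      (((Real.sqrt 2)⁻¹ ^ j) * hs κ) ^ 2 * (‖φ i‖ ^ 2 * msq f) := by
    intro i
    refine (scalar_bound j κ (fun x => φ i (f x))).trans ?_
    refine mul_le_mul_of_nonneg_left ?_ (sq_nonneg _)
    unfold msq
    rw [← avg_mul_left]
    refine avg_mono fun x => ?_
    rw [← mul_pow, ← sq_abs]
    exact pow_le_pow_left₀ (abs_nonneg _) ((φ i).le_opNorm _) 2
  calc (∑ i, avg fun b => (avg fun x => K x b * φ i (f x)) ^ 2) * ∑ i, ‖y i‖ ^ 2
      ≤ (∑ i, (((Real.sqrt 2)⁻¹ ^ j) * hs κ) ^ 2 * (‖φ i‖ ^ 2 * msq f)) * ∑ i, ‖y i‖ ^ 2 := by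
        refine mul_le_mul_of_nonneg_right (Finset.sum_le_sum fun i _ => e4 i) (by positivity)
    _ = _ := by
        rw [← Finset.mul_sum, ← Finset.sum_mul, mul_assoc (Real.sqrt _), mul_pow (Real.sqrt _),
          Real.sq_sqrt hG]
        ring

end Finite

end Crest.Agent.R118.Layer2x130
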