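import Mathlib
import Crest.Agent.R118.KNorm_324
import Crest.Agent.R118.Lift_361

/-!
Row 118 (S0158). Analytic layer, part 1: norms of scalar kernels tensored with a fixed operator
`T : X →L[ℝ] Y`.  Definitions and basic API.
-/

set_option autoImplicit false
set_option linter.unusedSectionVars false
set_option linter.unusedVariables false

namespace Crest.Agent.R118.Layer408

open Finset Base324 KNorm324

/-- mean square of a vector valued function on a finite type (uniform probability) -/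
noncomputable def msq {A : Type*} [Fintype A] {E : Type*} [NormedAddCommGroup E]
    (f : A → E) : ℝ := avg fun a => ‖f a‖ ^ 2

/-- Hilbert–Schmidt norm of a scalar kernel -/
noncomputable def hs {A B : Type*} [Fintype A] [Fintype B] (κ : A → B → ℝ) : ℝ :=
  Real.sqrt (avg fun b => avg fun a => κ a b ^ 2)

/-- tensor product of kernels -/
def tens {A B A' B' : Type} (κ : A → B → ℝ) (κ' : A' → B' → ℝ) : A × A' → B × B' → ℝ :=
  fun x y => κ x.1 y.1 * κ' x.2 y.2

/-- Walsh kernel on `Fin j → ZMod 2` -/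
noncomputable def V (j : ℕ) : (Fin j → ZMod 2) → (Fin j → ZMod 2) → ℝ := fun x y => χ x y

section
variable {X Y : Type*} [NormedAddCommGroup X] [NormedSpace ℝ X] [NormedAddCommGroup Y]
  [NormedSpace ℝ Y]

/-- action of `κ ⊗ T` on `f : A → X` -/
noncomputable def act (T : X →L[ℝ] Y) {A B : Type} [Fintype A] (κ : A → B → ℝ) (f : A → X)
    (b : B) : Y := avg fun a => κ a b • T (f a)

/-- `κ ⊗ T : L₂(A;X) → L₂(B;Y)` has norm at most `c` -/
def NB (T : X →L[ℝ] Y) {A B : Type} [Fintype A] [Fintype B] (κ : A → B → ℝ) (c : ℝ) : Prop :=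
  ∀ f : A → X, msq (act T κ f) ≤ c ^ 2 * msq f

/-- norm of `κ ⊗ T` -/
noncomputable def NT (T : X →L[ℝ] Y) {A B : Type} [Fintype A] [Fintype B] (κ : A → B → ℝ) : ℝ :=
  sInf {c | 0 ≤ c ∧ NB T κ c}

/-- `|||κ|||` -/
noncomputable def trip (T : X →L[ℝ] Y) (β : ℝ) {A B : Type} [Fintype A] [Fintype B]
    (κ : A → B → ℝ) : ℝ := ⨆ j : ℕ, NT T (tens (V j) κ) / β ^ j

/-- the class norm `ν` -/
noncomputable def nu (T : X →L[ℝ] Y) (β : ℝ) {A B : Type} [Fintype A] [Fintype B]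
    (κ : A → B → ℝ) : ℝ :=
  sInf {c | 0 ≤ c ∧ ∀ (A' B' : Type) (_ : Fintype A') (_ : Fintype B') (κ' : A' → B' → ℝ),
    NT T (tens κ κ') ≤ c * trip T β κ'}

end

/-! ### mean squares -/

section msq

variable {A B : Type*} [Fintype A] [Fintype B] {E : Type*} [NormedAddCommGroup E]

theorem msq_nonneg (f : A → E) : 0 ≤ msq f := avg_nonneg fun a => by positivity

theorem norm_avg_le [NormedSpace ℝ E] (f : A → E) : ‖avg f‖ ≤ avg fun a => ‖f a‖ :=
  seminorm_avg_le (normSeminorm ℝ E) f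

theorem msq_zero : msq (fun _ : A => (0 : E)) = 0 := by
  simp only [msq, norm_zero]
  simp [avg]

theorem avg_mul_le_sqrt (f g : A → ℝ) :
    (avg fun a => f a * g a) ≤ Real.sqrt (avg fun a => f a ^ 2) * Real.sqrt (avg fun a => g a ^ 2) := by
  rw [← Real.sqrt_mul (avg_nonneg fun a => sq_nonneg _)]
  exact Real.le_sqrt_of_sq_le (avg_mul_sq_le f g)

/-- Minkowski -/
theorem sqrt_msq_add_le [NormedSpace ℝ E] (f g : A → E) :
    Real.sqrt (msq fun a => f a + g a) ≤ Real.sqrt (msq f) + Real.sqrt (msq g) := by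
  apply Real.sqrt_le_iff.mpr
  refine ⟨add_nonneg (Real.sqrt_nonneg _) (Real.sqrt_nonneg _), ?_⟩
  have h1 : msq (fun a => f a + g a) ≤ avg fun a => (‖f a‖ ^ 2 + 2 * (‖f a‖ * ‖g a‖) + ‖g a‖ ^ 2) := by
    apply avg_mono
    intro a
    have h := norm_add_le (f a) (g a)
    have h0 := norm_nonneg (f a + g a)
    nlinarith [norm_nonneg (f a), norm_nonneg (g a)]
  have h2 : (avg fun a => (‖f a‖ ^ 2 + 2 * (‖f a‖ * ‖g a‖) + ‖g a‖ ^ 2))
      = msq f + 2 * (avg fun a => ‖f a‖ * ‖g a‖) + msq g := by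
    rw [avg_add, avg_add, avg_mul_left]
    rfl
  have h3 := avg_mul_le_sqrt (fun a => ‖f a‖) (fun a => ‖g a‖)
  have h4 := Real.sq_sqrt (msq_nonneg f)
  have h5 := Real.sq_sqrt (msq_nonneg g)
  have h6 : Real.sqrt (avg fun a => ‖f a‖ ^ 2) = Real.sqrt (msq f) := rfl
  have h7 : Real.sqrt (avg fun a => ‖g a‖ ^ 2) = Real.sqrt (msq g) := rfl
  rw [h6, h7] at h3
  nlinarith

theorem msq_smul [NormedSpace ℝ E] (c : ℝ) (f : A → E) : msq (fun a => c • f a) = c ^ 2 * msq f := by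
  simp only [msq, norm_smul, mul_pow, Real.norm_eq_abs, sq_abs]
  exact avg_mul_left _ _

theorem msq_prod {C : Type*} [Fintype C] (f : A × C → E) :
    msq f = avg fun c => msq fun a => f (a, c) := by
  unfold msq
  rw [avg_prod' (fun x => ‖f x‖ ^ 2), avg_comm]

theorem msq_prod' {C : Type*} [Fintype C] (f : A × C → E) :
    msq f = avg fun a => msq fun c => f (a, c) := by
  unfold msq
  rw [avg_prod' (fun x => ‖f x‖ ^ 2)]

end msq

/-! ### the bound predicate -/

section NB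

variable {X Y : Type*} [NormedAddCommGroup X] [NormedSpace ℝ X] [NormedAddCommGroup Y]
  [NormedSpace ℝ Y] (T : X →L[ℝ] Y)
variable {A B A' B' D E : Type} [Fintype A] [Fintype B] [Fintype A'] [Fintype B']
  [Fintype D] [Fintype E]

theorem NB_iff_sqrt {κ : A → B → ℝ} {c : ℝ} (hc : 0 ≤ c) :
    NB T κ c ↔ ∀ f : A → X, Real.sqrt (msq (act T κ f)) ≤ c * Real.sqrt (msq f) := by
  constructor
  · intro h f
    have := Real.sqrt_le_sqrt (h f)
    rwa [Real.sqrt_mul (sq_nonneg c), Real.sqrt_sq hc] at this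
  · intro h f
    have h1 := h f
    have h2 := pow_le_pow_left₀ (Real.sqrt_nonneg _) h1 2
    rwa [mul_pow, Real.sq_sqrt (msq_nonneg _), Real.sq_sqrt (msq_nonneg _)] at h2

variable {T}

theorem NB.mono {κ : A → B → ℝ} {c d : ℝ} (h : NB T κ c) (hc : 0 ≤ c) (hcd : c ≤ d) :
    NB T κ d := fun f => (h f).trans
  (mul_le_mul_of_nonneg_right (pow_le_pow_left₀ hc hcd 2) (msq_nonneg _))

theorem act_add (κ κ' : A → B → ℝ) (f : A → X) (b : B) :
    act T (fun x y => κ x y + κ' x y) f b = act T κ f b + act T κ' f b := by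
  simp only [act, add_smul]
  exact avg_add _ _

theorem act_smul (c : ℝ) (κ : A → B → ℝ) (f : A → X) (b : B) :
    act T (fun x y => c * κ x y) f b = c • act T κ f b := by
  simp only [act, mul_smul]
  exact avg_smul _ _

theorem NB.add {κ κ' : A → B → ℝ} {c c' : ℝ} (hc : 0 ≤ c) (hc' : 0 ≤ c') (h : NB T κ c)
    (h' : NB T κ' c') : NB T (fun x y => κ x y + κ' x y) (c + c') := by
  rw [NB_iff_sqrt T (add_nonneg hc hc')]
  rw [NB_iff_sqrt T hc] at h
  rw [NB_iff_sqrt T hc'] at h'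
  intro f
  have h1 := sqrt_msq_add_le (act T κ f) (act T κ' f)
  have h2 : act T (fun x y => κ x y + κ' x y) f = fun b => act T κ f b + act T κ' f b := by
    funext b; exact act_add κ κ' f b
  rw [h2]
  refine h1.trans ?_
  rw [add_mul]
  exact add_le_add (h f) (h' f)

theorem NB.smul {κ : A → B → ℝ} {c : ℝ} (r : ℝ) (h : NB T κ c) :
    NB T (fun x y => r * κ x y) (|r| * c) := by
  intro f
  have h2 : act T (fun x y => r * κ x y) f = fun b => r • act T κ f b := by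
    funext b; exact act_smul r κ f b
  rw [h2, msq_smul, mul_pow, sq_abs, mul_assoc]
  exact mul_le_mul_of_nonneg_left (h f) (sq_nonneg r)

theorem NB.mul_unim {κ : A → B → ℝ} {c : ℝ} (hc : 0 ≤ c) (h : NB T κ c) (u : A → ℝ) (w : B → ℝ)
    (hu : ∀ x, |u x| ≤ 1) (hw : ∀ y, |w y| ≤ 1) : NB T (fun x y => u x * κ x y * w y) c := by
  intro f
  have h2 : ∀ b, act T (fun x y => u x * κ x y * w y) f b =
      w b • act T κ (fun a => u a • f a) b := by
    intro b
    simp only [act, map_smul]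
    rw [← avg_smul]
    congr 1
    funext a
    rw [smul_smul, smul_smul]
    congr 1
    ring
  have h3 : msq (act T (fun x y => u x * κ x y * w y) f) ≤ msq (act T κ (fun a => u a • f a)) := by
    apply avg_mono
    intro b
    rw [h2, norm_smul, mul_pow]
    have : ‖w b‖ ^ 2 ≤ 1 := by
      rw [Real.norm_eq_abs]
      exact pow_le_one₀ (abs_nonneg _) (hw b)
    nlinarith [sq_nonneg ‖act T κ (fun a => u a • f a) b‖]
  have h4 : msq (fun a => u a • f a) ≤ msq f := by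
    apply avg_mono
    intro a
    rw [norm_smul, mul_pow]
    have : ‖u a‖ ^ 2 ≤ 1 := by
      rw [Real.norm_eq_abs]
      exact pow_le_one₀ (abs_nonneg _) (hu a)
    nlinarith [sq_nonneg ‖f a‖]
  exact h3.trans ((h _).trans (mul_le_mul_of_nonneg_left h4 (sq_nonneg c)))

/-- Hilbert–Schmidt bound -/
theorem NB_hs (T : X →L[ℝ] Y) (κ : A → B → ℝ) : NB T κ (‖T‖ * hs κ) := by
  intro f
  have h1 : ∀ b, ‖act T κ f b‖ ^ 2 ≤ ‖T‖ ^ 2 * ((avg fun a => κ a b ^ 2) * msq f) := by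
    intro b
    have e1 : ‖act T κ f b‖ ≤ avg fun a => |κ a b| * (‖T‖ * ‖f a‖) := by
      refine (norm_avg_le _).trans (avg_mono fun a => ?_)
      rw [norm_smul, Real.norm_eq_abs]
      exact mul_le_mul_of_nonneg_left (T.le_opNorm _) (abs_nonneg _)
    have e2 : (avg fun a => |κ a b| * (‖T‖ * ‖f a‖)) ^ 2 ≤
        (avg fun a => |κ a b| ^ 2) * avg fun a => (‖T‖ * ‖f a‖) ^ 2 := avg_mul_sq_le _ _
    have e3 : (avg fun a => (‖T‖ * ‖f a‖) ^ 2) = ‖T‖ ^ 2 * msq f := by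
      simp only [mul_pow]
      exact avg_mul_left _ _
    have e4 : (avg fun a => |κ a b| ^ 2) = avg fun a => κ a b ^ 2 := by
      simp only [sq_abs]
    rw [e3, e4] at e2
    calc ‖act T κ f b‖ ^ 2 ≤ (avg fun a => |κ a b| * (‖T‖ * ‖f a‖)) ^ 2 :=
          pow_le_pow_left₀ (norm_nonneg _) e1 2
      _ ≤ _ := e2
      _ = _ := by ring
  have h2 : msq (act T κ f) ≤ avg fun b => ‖T‖ ^ 2 * ((avg fun a => κ a b ^ 2) * msq f) :=
    avg_mono h1
  refine h2.trans ?_
  rw [avg_mul_left, avg_mul_right, mul_pow]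
  unfold hs
  rw [Real.sq_sqrt (avg_nonneg fun b => avg_nonneg fun a => sq_nonneg _)]
  exact le_of_eq (by ring)

theorem hs_nonneg (κ : A → B → ℝ) : 0 ≤ hs κ := Real.sqrt_nonneg _

theorem NT_set_nonempty (T : X →L[ℝ] Y) (κ : A → B → ℝ) : {c | 0 ≤ c ∧ NB T κ c}.Nonempty :=
  ⟨‖T‖ * hs κ, mul_nonneg (norm_nonneg _) (hs_nonneg κ), NB_hs T κ⟩

theorem NT_bddBelow (T : X →L[ℝ] Y) (κ : A → B → ℝ) : BddBelow {c | 0 ≤ c ∧ NB T κ c} :=
  ⟨0, fun _ h => h.1⟩

theorem NT_nonneg (T : X →L[ℝ] Y) (κ : A → B → ℝ) : 0 ≤ NT T κ :=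
  le_csInf (NT_set_nonempty T κ) fun _ h => h.1

theorem NT_le {κ : A → B → ℝ} {c : ℝ} (hc : 0 ≤ c) (h : NB T κ c) : NT T κ ≤ c :=
  csInf_le (NT_bddBelow T κ) ⟨hc, h⟩

theorem NB_NT (T : X →L[ℝ] Y) (κ : A → B → ℝ) : NB T κ (NT T κ) := by
  rw [NB_iff_sqrt T (NT_nonneg T κ)]
  intro f
  rcases eq_or_lt_of_le (Real.sqrt_nonneg (msq f)) with h0 | h0
  · obtain ⟨c, hc, h⟩ := NT_set_nonempty T κ
    rw [NB_iff_sqrt T hc] at h
    have := h f
    rw [← h0] at this ⊢
    simpa using this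
  · have : Real.sqrt (msq (act T κ f)) / Real.sqrt (msq f) ≤ NT T κ := by
      apply le_csInf (NT_set_nonempty T κ)
      rintro c ⟨hc, h⟩
      rw [NB_iff_sqrt T hc] at h
      rw [div_le_iff₀ h0]
      exact h f
    rwa [div_le_iff₀ h0] at this

theorem NT_le_hs (T : X →L[ℝ] Y) (κ : A → B → ℝ) : NT T κ ≤ ‖T‖ * hs κ :=
  NT_le (mul_nonneg (norm_nonneg _) (hs_nonneg κ)) (NB_hs T κ)

theorem NT_add_le (T : X →L[ℝ] Y) (κ κ' : A → B → ℝ) :
    NT T (fun x y => κ x y + κ' x y) ≤ NT T κ + NT T κ' :=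
  NT_le (add_nonneg (NT_nonneg _ _) (NT_nonneg _ _))
    ((NB_NT T κ).add (NT_nonneg _ _) (NT_nonneg _ _) (NB_NT T κ'))

theorem NT_smul_le (T : X →L[ℝ] Y) (c : ℝ) (κ : A → B → ℝ) :
    NT T (fun x y => c * κ x y) ≤ |c| * NT T κ :=
  NT_le (mul_nonneg (abs_nonneg _) (NT_nonneg _ _)) ((NB_NT T κ).smul c)

theorem NT_unim (T : X →L[ℝ] Y) (u : A → ℝ) (w : B → ℝ)
    (hu : ∀ x, |u x| ≤ 1) (hw : ∀ y, |w y| ≤ 1) (κ : A → B → ℝ) :
    NT T (fun x y => u x * κ x y * w y) ≤ NT T κ :=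
  NT_le (NT_nonneg _ _) ((NB_NT T κ).mul_unim (NT_nonneg _ _) u w hu hw)

/-! #### pull back -/

/-- conditional expectation along `φ` -/
noncomputable def cexp {A A' : Type} [Fintype A] [Fintype A'] [DecidableEq A] (φ : A' → A)
    (f : A' → X) (a : A) : X :=
  ((Fintype.card A : ℝ) * (Fintype.card A' : ℝ)⁻¹) • ∑ a' ∈ univ.filter (fun a' => φ a' = a), f a'

theorem avg_cexp [DecidableEq A] (φ : A' → A) (g : A → ℝ) (f : A' → X) (hA : Nonempty A) :
    avg (fun a' => g (φ a') • T (f a')) = avg (fun a => g a • T (cexp φ f a)) := by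
  have hc : (Fintype.card A : ℝ) ≠ 0 := by exact_mod_cast Fintype.card_ne_zero
  simp only [avg, cexp, map_smul, map_sum]
  rw [← Finset.sum_fiberwise (univ : Finset A') φ (fun a' => g (φ a') • T (f a')),
    Finset.smul_sum, Finset.smul_sum]
  refine Finset.sum_congr rfl fun a _ => ?_
  rw [smul_comm (g a), smul_smul, inv_mul_cancel_left₀ hc, Finset.smul_sum, Finset.smul_sum,
    Finset.smul_sum]
  refine Finset.sum_congr rfl fun a' ha' => ?_
  rw [(Finset.mem_filter.mp ha').2]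

theorem msq_cexp_le [DecidableEq A] {φ : A' → A} (hφ : MP φ) (f : A' → X) (hA : Nonempty A) :
    msq (cexp φ f) ≤ msq f := by
  have hc : (0 : ℝ) < (Fintype.card A : ℝ) := by exact_mod_cast Fintype.card_pos
  set k : ℝ := (Fintype.card A : ℝ) * (Fintype.card A' : ℝ)⁻¹ with hk
  have hk0 : 0 ≤ k := by positivity
  have hfib : ∀ a, k * ((univ.filter fun a' => φ a' = a).card : ℝ) = 1 := by
    intro a
    rw [hk, mul_assoc, hφ.card_fibre a, mul_inv_cancel₀ hc.ne']
  have h1 : ∀ a, ‖cexp φ f a‖ ^ 2 ≤ k * ∑ a' ∈ univ.filter (fun a' => φ a' = a), ‖f a'‖ ^ 2 := by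
    intro a
    have e1 : ‖cexp φ f a‖ ≤ k * ∑ a' ∈ univ.filter (fun a' => φ a' = a), ‖f a'‖ := by
      unfold cexp
      rw [norm_smul, ← hk, Real.norm_of_nonneg hk0]
      exact mul_le_mul_of_nonneg_left (norm_sum_le _ _) hk0
    have e2 := sq_sum_le_card_mul_sum_sq (s := univ.filter (fun a' => φ a' = a))
      (f := fun a' => ‖f a'‖)
    calc ‖cexp φ f a‖ ^ 2 ≤ (k * ∑ a' ∈ univ.filter (fun a' => φ a' = a), ‖f a'‖) ^ 2 :=
          pow_le_pow_left₀ (norm_nonneg _) e1 2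
      _ = k ^ 2 * (∑ a' ∈ univ.filter (fun a' => φ a' = a), ‖f a'‖) ^ 2 := by ring
      _ ≤ k ^ 2 * (((univ.filter (fun a' => φ a' = a)).card : ℝ) *
            ∑ a' ∈ univ.filter (fun a' => φ a' = a), ‖f a'‖ ^ 2) :=
          mul_le_mul_of_nonneg_left e2 (sq_nonneg k)
      _ = (k * ((univ.filter (fun a' => φ a' = a)).card : ℝ)) *
            (k * ∑ a' ∈ univ.filter (fun a' => φ a' = a), ‖f a'‖ ^ 2) := by ring
      _ = _ := by rw [hfib a, one_mul]
  have h2 : msq (cexp φ f) ≤ avg fun a => k * ∑ a' ∈ univ.filter (fun a' => φ a' = a), ‖f a'‖ ^ 2 :=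
    avg_mono h1
  refine h2.trans (le_of_eq ?_)
  rw [avg_mul_left]
  simp only [avg, msq, smul_eq_mul]
  rw [Finset.sum_fiberwise, hk]
  field_simp

theorem NB.pull {φ : A' → A} {ψ : B' → B} (hφ : MP φ) (hψ : MP ψ) {κ : A → B → ℝ} {c : ℝ}
    (h : NB T κ c) : NB T (fun x y => κ (φ x) (ψ y)) c := by
  classical
  intro f
  by_cases hA : Nonempty A
  · have h2 : ∀ b', act T (fun x y => κ (φ x) (ψ y)) f b' = act T κ (cexp φ f) (ψ b') := by
      intro b'
      exact avg_cexp φ (fun a => κ a (ψ b')) f hA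
    have h3 : msq (act T (fun x y => κ (φ x) (ψ y)) f) = msq (act T κ (cexp φ f)) := by
      have : act T (fun x y => κ (φ x) (ψ y)) f = fun b' => act T κ (cexp φ f) (ψ b') :=
        funext h2
      rw [this]
      exact hψ (fun b => ‖act T κ (cexp φ f) b‖ ^ 2)
    rw [h3]
    exact (h _).trans (mul_le_mul_of_nonneg_left (msq_cexp_le hφ f hA) (sq_nonneg c))
  · have hA' : IsEmpty A' := ⟨fun a' => hA ⟨φ a'⟩⟩
    have h2 : act T (fun x y => κ (φ x) (ψ y)) f = fun _ => 0 := by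
      funext b
      simp [act, avg]
    rw [h2, msq_zero]
    exact mul_nonneg (sq_nonneg c) (msq_nonneg f)

theorem NT_pull (T : X →L[ℝ] Y) {φ : A' → A} {ψ : B' → B} (hφ : MP φ) (hψ : MP ψ)
    (κ : A → B → ℝ) : NT T (fun x y => κ (φ x) (ψ y)) ≤ NT T κ :=
  NT_le (NT_nonneg _ _) ((NB_NT T κ).pull hφ hψ)

/-! #### Schur test -/

theorem NB_schur (w : D → E → ℝ) (hw : ∀ d e, 0 ≤ w d e) (hw1 : ∀ e, avg (fun d => w d e) = 1)
    (hw2 : ∀ d, avg (fun e => w d e) = 1) (κ : D → E → A → B → ℝ) (c : ℝ)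
    (h : ∀ d e, NB T (κ d e) c) :
    NB T (fun (x : D × A) (y : E × B) => w x.1 y.1 * κ x.1 y.1 x.2 y.2) c := by
  intro f
  have h1 : ∀ (e : E) (b : B),
      act T (fun (x : D × A) (y : E × B) => w x.1 y.1 * κ x.1 y.1 x.2 y.2) f (e, b)
        = avg fun d => w d e • act T (κ d e) (fun a => f (d, a)) b := by
    intro e b
    unfold act
    rw [avg_prod' (fun x : D × A => (w x.1 e * κ x.1 e x.2 b) • T (f x))]
    congr 1
    funext d
    rw [← avg_smul]
    congr 1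
    funext a
    rw [mul_smul]
  have h2 : ∀ (e : E) (b : B),
      ‖act T (fun (x : D × A) (y : E × B) => w x.1 y.1 * κ x.1 y.1 x.2 y.2) f (e, b)‖ ^ 2
        ≤ avg fun d => w d e * ‖act T (κ d e) (fun a => f (d, a)) b‖ ^ 2 := by
    intro e b
    rw [h1]
    have e1 : ‖avg fun d => w d e • act T (κ d e) (fun a => f (d, a)) b‖ ≤
        avg fun d => w d e * ‖act T (κ d e) (fun a => f (d, a)) b‖ := by
      refine (norm_avg_le _).trans (le_of_eq ?_)
      congr 1
      funext d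
      rw [norm_smul, Real.norm_of_nonneg (hw d e)]
    have e2 := avg_weight_sq_le (fun d => w d e)
      (fun d => ‖act T (κ d e) (fun a => f (d, a)) b‖) (fun d => hw d e)
    rw [hw1 e, one_mul] at e2
    exact (pow_le_pow_left₀ (norm_nonneg _) e1 2).trans e2
  calc msq (act T (fun (x : D × A) (y : E × B) => w x.1 y.1 * κ x.1 y.1 x.2 y.2) f)
      ≤ avg fun y : E × B => avg fun d => w d y.1 * ‖act T (κ d y.1) (fun a => f (d, a)) y.2‖ ^ 2 :=
        avg_mono fun y => h2 y.1 y.2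
    _ = avg fun e => avg fun d => w d e * msq (act T (κ d e) (fun a => f (d, a))) := by
        rw [avg_prod' (fun y : E × B => avg fun d => w d y.1 *
          ‖act T (κ d y.1) (fun a => f (d, a)) y.2‖ ^ 2)]
        congr 1
        funext e
        rw [avg_comm]
        congr 1
        funext d
        exact avg_mul_left (w d e) (fun b : B => ‖act T (κ d e) (fun a => f (d, a)) b‖ ^ 2)
    _ ≤ avg fun e : E => avg fun d : D => w d e * (c ^ 2 * msq (fun a : A => f (d, a))) := by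
        refine avg_mono fun e => avg_mono fun d => ?_
        exact mul_le_mul_of_nonneg_left (h d e _) (hw d e)
    _ = avg fun d : D => (c ^ 2 * msq (fun a : A => f (d, a))) := by
        rw [avg_comm]
        congr 1
        funext d
        rw [avg_mul_right, hw2 d, one_mul]
    _ = c ^ 2 * msq f := by
        rw [avg_mul_left, msq_prod']

theorem NT_schur (T : X →L[ℝ] Y) (w : D → E → ℝ) (hw : ∀ d e, 0 ≤ w d e)
    (hw1 : ∀ e, avg (fun d => w d e) = 1)
    (hw2 : ∀ d, avg (fun e => w d e) = 1) (κ : D → E → A → B → ℝ) (c : ℝ) (hc : 0 ≤ c)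
    (h : ∀ d e, NT T (κ d e) ≤ c) :
    NT T (fun (x : D × A) (y : E × B) => w x.1 y.1 * κ x.1 y.1 x.2 y.2) ≤ c :=
  NT_le hc (NB_schur w hw hw1 hw2 κ c fun d e => (NB_NT T (κ d e)).mono (NT_nonneg _ _) (h d e))

end NB

end Crest.Agent.R118.Layer408
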