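import Mathlib
import Crest.Agent.R118.Layer_408

/-!
Row 118 (S0158). Analytic layer, part 2: the class norm `nu`, and the `KNorm` instance.
-/

set_option autoImplicit false
set_option linter.unusedSectionVars false
set_option linter.unusedVariables false

namespace Crest.Agent.R118.LayerNu408

open Finset Base324 KNorm324 Layer408

variable {X Y : Type*} [NormedAddCommGroup X] [NormedSpace ℝ X] [NormedAddCommGroup Y]
  [NormedSpace ℝ Y]

/-- A priori bound for Walsh amplifications. -/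
def HasGamma (T : X →L[ℝ] Y) (G : ℝ) : Prop :=
  ∀ (j : ℕ) (A B : Type) [Fintype A] [Fintype B] (κ : A → B → ℝ),
    NT T (tens (V j) κ) ≤ G * (Real.sqrt 2)⁻¹ ^ j * hs κ

section tensor

variable (T : X →L[ℝ] Y)
variable {A B A' B' A'' B'' D E : Type} [Fintype A] [Fintype B] [Fintype A'] [Fintype B']
  [Fintype A''] [Fintype B''] [Fintype D] [Fintype E]

theorem act_tens (κ : A → B → ℝ) (κ' : A' → B' → ℝ) (f : A × A' → X) (b : B) (b' : B') :
    act T (tens κ κ') f (b, b') = avg fun a => κ a b • act T κ' (fun a' => f (a, a')) b' := by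
  unfold act tens
  rw [avg_prod' (fun x : A × A' => (κ x.1 b * κ' x.2 b') • T (f x))]
  congr 1
  funext a
  rw [← avg_smul]
  congr 1
  funext a'
  rw [mul_smul]

theorem NB_tens {κ : A → B → ℝ} {κ' : A' → B' → ℝ} {c : ℝ} (h : NB T κ' c) :
    NB T (tens κ κ') (hs κ * c) := by
  intro f
  have h1 : ∀ b b', ‖act T (tens κ κ') f (b, b')‖ ^ 2 ≤
      (avg fun a => κ a b ^ 2) * avg fun a => ‖act T κ' (fun a' => f (a, a')) b'‖ ^ 2 := by
    intro b b'
    rw [act_tens]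
    have e1 : ‖avg fun a => κ a b • act T κ' (fun a' => f (a, a')) b'‖ ≤
        avg fun a => |κ a b| * ‖act T κ' (fun a' => f (a, a')) b'‖ := by
      refine (norm_avg_le _).trans (le_of_eq ?_)
      congr 1
      funext a
      rw [norm_smul, Real.norm_eq_abs]
    have e2 := avg_mul_sq_le (fun a => |κ a b|) (fun a => ‖act T κ' (fun a' => f (a, a')) b'‖)
    simp only [sq_abs] at e2
    exact (pow_le_pow_left₀ (norm_nonneg _) e1 2).trans e2
  calc msq (act T (tens κ κ') f)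
      ≤ avg fun y : B × B' => (avg fun a => κ a y.1 ^ 2) *
          avg fun a => ‖act T κ' (fun a' => f (a, a')) y.2‖ ^ 2 :=
        avg_mono fun y => h1 y.1 y.2
    _ = avg fun b : B => (avg fun a => κ a b ^ 2) *
          avg fun a => msq (act T κ' (fun a' => f (a, a'))) := by
        rw [avg_prod' (fun y : B × B' => (avg fun a => κ a y.1 ^ 2) *
          avg fun a => ‖act T κ' (fun a' => f (a, a')) y.2‖ ^ 2)]
        congr 1
        funext b
        dsimp only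
        rw [avg_mul_left, avg_comm]
        rfl
    _ = (avg fun b => avg fun a => κ a b ^ 2) *
          avg fun a => msq (act T κ' (fun a' => f (a, a'))) := avg_mul_right _ _
    _ ≤ (avg fun b => avg fun a => κ a b ^ 2) *
          avg fun a => c ^ 2 * msq (fun a' => f (a, a')) := by
        refine mul_le_mul_of_nonneg_left (avg_mono fun a => h _)
          (avg_nonneg fun b => avg_nonneg fun a => sq_nonneg _)
    _ = (hs κ * c) ^ 2 * msq f := by
        rw [avg_mul_left, msq_prod' f, mul_pow]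
        unfold hs
        rw [Real.sq_sqrt (avg_nonneg fun b => avg_nonneg fun a => sq_nonneg _)]
        ring

theorem NT_tens_le_hs (κ : A → B → ℝ) (κ' : A' → B' → ℝ) :
    NT T (tens κ κ') ≤ hs κ * NT T κ' :=
  NT_le (mul_nonneg (hs_nonneg κ) (NT_nonneg _ _)) (NB_tens T (NB_NT T κ'))

/-- invariance under equivalences -/
theorem NT_equiv (e : A' ≃ A) (e' : B' ≃ B) (κ : A → B → ℝ) (κ' : A' → B' → ℝ)
    (h : ∀ x y, κ' x y = κ (e x) (e' y)) : NT T κ' ≤ NT T κ := by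
  have h2 := NT_pull T (MP.equiv e) (MP.equiv e') κ
  have h3 : (fun x y => κ (e x) (e' y)) = κ' := by
    funext x y; exact (h x y).symm
  rwa [h3] at h2

theorem hs_tens (κ : A → B → ℝ) (κ' : A' → B' → ℝ) : hs (tens κ κ') = hs κ * hs κ' := by
  unfold hs tens
  rw [← Real.sqrt_mul (avg_nonneg fun b => avg_nonneg fun a => sq_nonneg _)]
  congr 1
  rw [avg_prod' (fun y : B × B' => avg fun x : A × A' => (κ x.1 y.1 * κ' x.2 y.2) ^ 2)]
  have : ∀ b b', (avg fun x : A × A' => (κ x.1 b * κ' x.2 b') ^ 2)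
      = (avg fun a => κ a b ^ 2) * avg fun a' => κ' a' b' ^ 2 := by
    intro b b'
    rw [avg_prod' (fun x : A × A' => (κ x.1 b * κ' x.2 b') ^ 2)]
    simp only [mul_pow, avg_mul_left, avg_mul_right]
  simp only [this, avg_mul_left, avg_mul_right]

theorem hs_V (j : ℕ) : hs (V j) = 1 := by
  have h : ∀ x y : Fin j → ZMod 2, (V j x y) ^ 2 = 1 := by
    intro x y
    rw [pow_two]
    exact χ_mul_self x y
  unfold hs
  simp only [h, avg_const, Real.sqrt_one]

theorem V_append (i j : ℕ) (x y : (Fin i → ZMod 2) × (Fin j → ZMod 2)) :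
    V (i + j) (Fin.append x.1 x.2) (Fin.append y.1 y.2) = V i x.1 y.1 * V j x.2 y.2 := by
  unfold V
  rw [χ_pi, χ_pi, χ_pi, Fin.prod_univ_add]
  simp

end tensor

section trip

variable {T : X →L[ℝ] Y} {β G : ℝ}
variable {A B A' B' A'' B'' D E : Type} [Fintype A] [Fintype B] [Fintype A'] [Fintype B']
  [Fintype A''] [Fintype B''] [Fintype D] [Fintype E]

theorem trip_bdd (hG : HasGamma T G) (hβ : (Real.sqrt 2)⁻¹ ≤ β) (κ : A → B → ℝ) :
    BddAbove (Set.range fun j : ℕ => NT T (tens (V j) κ) / β ^ j) := by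
  have hβ0 : 0 < β := lt_of_lt_of_le (by positivity) hβ
  refine ⟨|G| * hs κ, ?_⟩
  rintro _ ⟨j, rfl⟩
  dsimp only
  rw [div_le_iff₀ (pow_pos hβ0 j)]
  refine (hG j A B κ).trans ?_
  have h1 : (Real.sqrt 2)⁻¹ ^ j ≤ β ^ j := pow_le_pow_left₀ (by positivity) hβ j
  have h2 : G ≤ |G| := le_abs_self G
  have h3 := hs_nonneg κ
  calc G * (Real.sqrt 2)⁻¹ ^ j * hs κ ≤ |G| * (Real.sqrt 2)⁻¹ ^ j * hs κ := by gcongr
    _ ≤ |G| * β ^ j * hs κ := by gcongr
    _ = _ := by ring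

theorem NT_V_le_trip (hG : HasGamma T G) (hβ : (Real.sqrt 2)⁻¹ ≤ β) (j : ℕ) (κ : A → B → ℝ) :
    NT T (tens (V j) κ) ≤ β ^ j * trip T β κ := by
  have hβ0 : 0 < β := lt_of_lt_of_le (by positivity) hβ
  have h := le_ciSup (trip_bdd hG hβ κ) j
  rw [div_le_iff₀ (pow_pos hβ0 j)] at h
  rw [mul_comm]
  exact h

theorem trip_le (hβ0 : 0 < β) {κ : A → B → ℝ} {c : ℝ} (h : ∀ j, NT T (tens (V j) κ) ≤ c * β ^ j) :
    trip T β κ ≤ c := by
  refine ciSup_le fun j => ?_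
  rw [div_le_iff₀ (pow_pos hβ0 j)]
  exact h j

theorem NT_le_trip (hG : HasGamma T G) (hβ : (Real.sqrt 2)⁻¹ ≤ β) (κ : A → B → ℝ) :
    NT T κ ≤ trip T β κ := by
  have h := NT_V_le_trip hG hβ 0 κ
  rw [pow_zero, one_mul] at h
  refine le_trans ?_ h
  refine NT_equiv T (Equiv.uniqueProd A (Fin 0 → ZMod 2)).symm
    (Equiv.uniqueProd B (Fin 0 → ZMod 2)).symm (tens (V 0) κ) κ ?_
  intro x y
  simp [tens, V, χ_pi]

theorem trip_nonneg (hG : HasGamma T G) (hβ : (Real.sqrt 2)⁻¹ ≤ β) (κ : A → B → ℝ) :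
    0 ≤ trip T β κ := (NT_nonneg T κ).trans (NT_le_trip hG hβ κ)

theorem trip_V (hG : HasGamma T G) (hβ : (Real.sqrt 2)⁻¹ ≤ β) (i : ℕ) (κ : A → B → ℝ) :
    trip T β (tens (V i) κ) ≤ β ^ i * trip T β κ := by
  have hβ0 : 0 < β := lt_of_lt_of_le (by positivity) hβ
  refine trip_le hβ0 fun j => ?_
  have h := NT_V_le_trip hG hβ (j + i) κ
  have h2 : NT T (tens (V j) (tens (V i) κ)) ≤ NT T (tens (V (j + i)) κ) := by
    refine NT_equiv T
      ((Equiv.prodAssoc _ _ _).symm.trans (Equiv.prodCongr (Fin.appendEquiv j i) (Equiv.refl _)))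
      ((Equiv.prodAssoc _ _ _).symm.trans (Equiv.prodCongr (Fin.appendEquiv j i) (Equiv.refl _)))
      _ _ ?_
    intro x y
    simp only [tens, Equiv.trans_apply, Equiv.prodAssoc_symm_apply, Equiv.prodCongr_apply,
      Prod.map, Equiv.refl_apply, Fin.appendEquiv]
    have := V_append j i (x.1, x.2.1) (y.1, y.2.1)
    simp only at this
    erw [this]
    ring
  refine h2.trans (h.trans (le_of_eq ?_))
  rw [pow_add]
  ring

end trip

section nu

variable {T : X →L[ℝ] Y} {β G : ℝ}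
variable {A B A' B' A'' B'' D E : Type} [Fintype A] [Fintype B] [Fintype A'] [Fintype B']
  [Fintype A''] [Fintype B''] [Fintype D] [Fintype E]

/-- the defining predicate of `nu` -/
def NuB (T : X →L[ℝ] Y) (β : ℝ) (κ : A → B → ℝ) (c : ℝ) : Prop :=
  ∀ (A' B' : Type) (_ : Fintype A') (_ : Fintype B') (κ' : A' → B' → ℝ),
    NT T (tens κ κ') ≤ c * trip T β κ'

theorem nu_eq (κ : A → B → ℝ) : nu T β κ = sInf {c | 0 ≤ c ∧ NuB T β κ c} := rfl

theorem NuB_hs (hG : HasGamma T G) (hβ : (Real.sqrt 2)⁻¹ ≤ β) (κ : A → B → ℝ) :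
    NuB T β κ (hs κ) := fun A' B' _ _ κ' =>
  (NT_tens_le_hs T κ κ').trans (mul_le_mul_of_nonneg_left (NT_le_trip hG hβ κ') (hs_nonneg κ))

theorem nu_bddBelow (κ : A → B → ℝ) : BddBelow {c | 0 ≤ c ∧ NuB T β κ c} := ⟨0, fun _ h => h.1⟩

theorem nu_nonempty (hG : HasGamma T G) (hβ : (Real.sqrt 2)⁻¹ ≤ β) (κ : A → B → ℝ) :
    {c | 0 ≤ c ∧ NuB T β κ c}.Nonempty := ⟨hs κ, hs_nonneg κ, NuB_hs hG hβ κ⟩

theorem nu_nonneg (hG : HasGamma T G) (hβ : (Real.sqrt 2)⁻¹ ≤ β) (κ : A → B → ℝ) :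
    0 ≤ nu T β κ := le_csInf (nu_nonempty hG hβ κ) fun _ h => h.1

theorem nu_le {κ : A → B → ℝ} {c : ℝ} (hc : 0 ≤ c) (h : NuB T β κ c) : nu T β κ ≤ c :=
  csInf_le (nu_bddBelow κ) ⟨hc, h⟩

theorem NuB_nu (hG : HasGamma T G) (hβ : (Real.sqrt 2)⁻¹ ≤ β) (κ : A → B → ℝ) :
    NuB T β κ (nu T β κ) := by
  intro A' B' iA iB κ'
  rcases eq_or_lt_of_le (trip_nonneg hG hβ κ') with h0 | h0
  · obtain ⟨c, hc, h⟩ := nu_nonempty hG hβ κ
    have := h A' B' iA iB κ'
    rw [← h0] at this ⊢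
    simpa using this
  · have : NT T (tens κ κ') / trip T β κ' ≤ nu T β κ := by
      apply le_csInf (nu_nonempty hG hβ κ)
      rintro c ⟨hc, h⟩
      rw [div_le_iff₀ h0]
      exact h A' B' iA iB κ'
    rwa [div_le_iff₀ h0] at this

theorem NT_tens_le (hG : HasGamma T G) (hβ : (Real.sqrt 2)⁻¹ ≤ β) (κ : A → B → ℝ)
    (κ' : A' → B' → ℝ) : NT T (tens κ κ') ≤ nu T β κ * trip T β κ' :=
  NuB_nu hG hβ κ A' B' _ _ κ'

theorem trip_tens_le (hG : HasGamma T G) (hβ : (Real.sqrt 2)⁻¹ ≤ β) (κ : A → B → ℝ)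
    (κ' : A' → B' → ℝ) : trip T β (tens κ κ') ≤ nu T β κ * trip T β κ' := by
  have hβ0 : 0 < β := lt_of_lt_of_le (by positivity) hβ
  refine trip_le hβ0 fun j => ?_
  have h2 : NT T (tens (V j) (tens κ κ')) ≤ NT T (tens κ (tens (V j) κ')) := by
    refine NT_equiv T
      ((Equiv.prodAssoc _ _ _).symm.trans ((Equiv.prodCongr (Equiv.prodComm _ _)
        (Equiv.refl _)).trans (Equiv.prodAssoc _ _ _)))
      ((Equiv.prodAssoc _ _ _).symm.trans ((Equiv.prodCongr (Equiv.prodComm _ _)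
        (Equiv.refl _)).trans (Equiv.prodAssoc _ _ _)))
      _ _ ?_
    intro x y
    simp only [tens, Equiv.trans_apply, Equiv.prodAssoc_symm_apply, Equiv.prodCongr_apply,
      Prod.map, Equiv.refl_apply, Equiv.prodComm_apply, Prod.swap, Equiv.prodAssoc_apply]
    ring
  calc NT T (tens (V j) (tens κ κ')) ≤ _ := h2
    _ ≤ nu T β κ * trip T β (tens (V j) κ') := NT_tens_le hG hβ κ _
    _ ≤ nu T β κ * (β ^ j * trip T β κ') :=
        mul_le_mul_of_nonneg_left (trip_V hG hβ j κ') (nu_nonneg hG hβ κ)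
    _ = _ := by ring

/-! #### the properties -/

theorem nu_le_hs (hG : HasGamma T G) (hβ : (Real.sqrt 2)⁻¹ ≤ β) (κ : A → B → ℝ) :
    nu T β κ ≤ hs κ := nu_le (hs_nonneg κ) (NuB_hs hG hβ κ)

theorem nu_add_le (hG : HasGamma T G) (hβ : (Real.sqrt 2)⁻¹ ≤ β) (κ κ' : A → B → ℝ) :
    nu T β (fun x y => κ x y + κ' x y) ≤ nu T β κ + nu T β κ' := by
  refine nu_le (add_nonneg (nu_nonneg hG hβ κ) (nu_nonneg hG hβ κ')) ?_
  intro C D _ _ μ
  have h1 : tens (fun x y => κ x y + κ' x y) μ = fun x y => tens κ μ x y + tens κ' μ x y := by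
    funext x y; simp only [tens]; ring
  rw [h1, add_mul]
  exact (NT_add_le T _ _).trans (add_le_add (NT_tens_le hG hβ κ μ) (NT_tens_le hG hβ κ' μ))

theorem nu_smul_le (hG : HasGamma T G) (hβ : (Real.sqrt 2)⁻¹ ≤ β) (c : ℝ) (κ : A → B → ℝ) :
    nu T β (fun x y => c * κ x y) ≤ |c| * nu T β κ := by
  refine nu_le (mul_nonneg (abs_nonneg c) (nu_nonneg hG hβ κ)) ?_
  intro C D _ _ μ
  have h1 : tens (fun x y => c * κ x y) μ = fun x y => c * tens κ μ x y := by
    funext x y; simp only [tens]; ring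
  rw [h1, mul_assoc]
  exact (NT_smul_le T _ _).trans (mul_le_mul_of_nonneg_left (NT_tens_le hG hβ κ μ) (abs_nonneg c))

theorem nu_pull (hG : HasGamma T G) (hβ : (Real.sqrt 2)⁻¹ ≤ β) {φ : A' → A} {ψ : B' → B}
    (hφ : MP φ) (hψ : MP ψ) (κ : A → B → ℝ) :
    nu T β (fun x y => κ (φ x) (ψ y)) ≤ nu T β κ := by
  refine nu_le (nu_nonneg hG hβ κ) ?_
  intro C D _ _ μ
  refine le_trans ?_ (NT_tens_le hG hβ κ μ)
  exact NT_pull T (hφ.prodMap MP.id) (hψ.prodMap MP.id) (tens κ μ)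

theorem nu_unim (hG : HasGamma T G) (hβ : (Real.sqrt 2)⁻¹ ≤ β) (u : A → ℝ) (w : B → ℝ)
    (hu : ∀ x, |u x| ≤ 1) (hw : ∀ y, |w y| ≤ 1) (κ : A → B → ℝ) :
    nu T β (fun x y => u x * κ x y * w y) ≤ nu T β κ := by
  refine nu_le (nu_nonneg hG hβ κ) ?_
  intro C D _ _ μ
  refine le_trans ?_ (NT_tens_le hG hβ κ μ)
  have h := NT_unim T (fun x : A × C => u x.1) (fun y : B × D => w y.1) (fun x => hu _)
    (fun y => hw _) (tens κ μ)
  have h1 : tens (fun x y => u x * κ x y * w y) μ = fun (x : A × C) (y : B × D) =>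
      u x.1 * tens κ μ x y * w y.1 := by
    funext x y; simp only [tens]; ring
  rw [h1]
  exact h

theorem nu_schur (hG : HasGamma T G) (hβ : (Real.sqrt 2)⁻¹ ≤ β) (w : D → E → ℝ)
    (hw : ∀ d e, 0 ≤ w d e) (hw1 : ∀ e, avg (fun d => w d e) = 1)
    (hw2 : ∀ d, avg (fun e => w d e) = 1) (κ : D → E → A → B → ℝ) (c : ℝ) (hc : 0 ≤ c)
    (h : ∀ d e, nu T β (κ d e) ≤ c) :
    nu T β (fun (x : D × A) (y : E × B) => w x.1 y.1 * κ x.1 y.1 x.2 y.2) ≤ c := by
  refine nu_le hc ?_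
  intro C F _ _ μ
  have h1 := NT_schur T w hw hw1 hw2 (fun d e => tens (κ d e) μ) (c * trip T β μ)
    (mul_nonneg hc (trip_nonneg hG hβ μ))
    (fun d e => (NT_tens_le hG hβ (κ d e) μ).trans
      (mul_le_mul_of_nonneg_right (h d e) (trip_nonneg hG hβ μ)))
  refine le_trans ?_ h1
  refine NT_equiv T (Equiv.prodAssoc _ _ _) (Equiv.prodAssoc _ _ _) _ _ ?_
  intro x y
  simp only [tens, Equiv.prodAssoc_apply]
  ring

theorem nu_tensor (hG : HasGamma T G) (hβ : (Real.sqrt 2)⁻¹ ≤ β) (κ : A → B → ℝ)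
    (κ' : A' → B' → ℝ) :
    nu T β (fun (x : A × A') (y : B × B') => κ x.1 y.1 * κ' x.2 y.2) ≤ nu T β κ * nu T β κ' := by
  refine nu_le (mul_nonneg (nu_nonneg hG hβ κ) (nu_nonneg hG hβ κ')) ?_
  intro C F _ _ μ
  have h2 : NT T (tens (fun (x : A × A') (y : B × B') => κ x.1 y.1 * κ' x.2 y.2) μ) ≤
      NT T (tens κ (tens κ' μ)) := by
    refine NT_equiv T (Equiv.prodAssoc _ _ _) (Equiv.prodAssoc _ _ _) _ _ ?_
    intro x y
    simp only [tens, Equiv.prodAssoc_apply]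
    ring
  refine h2.trans ((NT_tens_le hG hβ κ _).trans ?_)
  rw [mul_assoc]
  exact mul_le_mul_of_nonneg_left (trip_tens_le hG hβ κ' μ) (nu_nonneg hG hβ κ)

theorem nu_one (hG : HasGamma T G) (hβ : (Real.sqrt 2)⁻¹ ≤ β) :
    nu T β (fun (_ _ : Unit) => (1 : ℝ)) ≤ 1 := by
  refine nu_le zero_le_one ?_
  intro C F _ _ μ
  rw [one_mul]
  refine le_trans ?_ (NT_le_trip hG hβ μ)
  refine NT_equiv T (Equiv.punitProd C) (Equiv.punitProd F) _ _ ?_
  intro x y
  simp [tens, Equiv.punitProd]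

theorem nu_V (hG : HasGamma T G) (hβ : (Real.sqrt 2)⁻¹ ≤ β) (j : ℕ) :
    nu T β (V j) ≤ β ^ j := by
  have hβ0 : 0 < β := lt_of_lt_of_le (by positivity) hβ
  exact nu_le (pow_nonneg hβ0.le j) fun C F _ _ μ => NT_V_le_trip hG hβ j μ

theorem nu_walsh (hG : HasGamma T G) (hβ : (Real.sqrt 2)⁻¹ ≤ β) :
    nu T β (fun x y : ZMod 2 => χ x y) ≤ β := by
  have h := nu_V hG hβ 1
  rw [pow_one] at h
  refine le_trans ?_ h
  have h2 := nu_pull hG hβ (MP.equiv (Equiv.funUnique (Fin 1) (ZMod 2)).symm)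
    (MP.equiv (Equiv.funUnique (Fin 1) (ZMod 2)).symm) (V 1)
  refine le_trans (le_of_eq ?_) h2
  congr 1
  funext x y
  simp [V, χ_pi]

/-- cotype inequality at the level of `NT` -/
def NTCot (T : X →L[ℝ] Y) (L : ℕ) (a : ℝ) : Prop :=
  ∀ {A B B' : Type} [Fintype A] [Fintype B] [Fintype B'] (ψ : Fin L → B' → B),
    (∀ j, MP (ψ j)) → ∀ κ : A → B → ℝ,
    a * NT T κ ≤ NT T (fun x (y : B' × (Fin L → ZMod 2)) => ∑ j, sg (y.2 j) * κ x (ψ j y.1))

/-- lifting inequality at the level of `NT` -/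
def NTLift (T : X →L[ℝ] Y) (M : ℕ) (as : ℝ) : Prop :=
  ∀ {A A' B : Type} [Fintype A] [Fintype A'] [Fintype B] (φ : Fin M → A' → A),
    (∀ l, MP (φ l)) → ∀ κ : A → B → ℝ,
    as * NT T κ ≤ NT T (fun (x : A' × (Fin M → ZMod 2)) y => ∑ l, sg (x.2 l) * κ (φ l x.1) y)

theorem nu_cot (hG : HasGamma T G) (hβ : (Real.sqrt 2)⁻¹ ≤ β) {L : ℕ} {a : ℝ} (ha : 0 < a)
    (hc : NTCot T L a) (ψ : Fin L → B' → B) (hψ : ∀ j, MP (ψ j)) (κ : A → B → ℝ) :
    a * nu T β κ ≤
      nu T β (fun x (y : B' × (Fin L → ZMod 2)) => ∑ j, sg (y.2 j) * κ x (ψ j y.1)) := by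
  set κ6 : A → B' × (Fin L → ZMod 2) → ℝ := fun x y => ∑ j, sg (y.2 j) * κ x (ψ j y.1) with hκ6
  have h6 := nu_nonneg hG hβ κ6
  have key : nu T β κ ≤ nu T β κ6 / a := by
    refine nu_le (by positivity) ?_
    intro C F _ _ μ
    have h1 := hc (fun j (y : B' × F) => (ψ j y.1, y.2)) (fun j => (hψ j).prodMap MP.id)
      (tens κ μ)
    have h2 : NT T (fun x (y : (B' × F) × (Fin L → ZMod 2)) =>
        ∑ j, sg (y.2 j) * tens κ μ x (ψ j y.1.1, y.1.2)) ≤ NT T (tens κ6 μ) := by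
      refine NT_equiv T (Equiv.refl _)
        ((Equiv.prodAssoc _ _ _).trans ((Equiv.prodCongr (Equiv.refl _)
          (Equiv.prodComm _ _)).trans (Equiv.prodAssoc _ _ _).symm)) _ _ ?_
      intro x y
      simp only [tens, κ6, Equiv.refl_apply, Equiv.trans_apply, Equiv.prodAssoc_apply,
        Equiv.prodCongr_apply, Prod.map, Equiv.prodComm_apply, Prod.swap,
        Equiv.prodAssoc_symm_apply, Finset.sum_mul]
      refine Finset.sum_congr rfl fun j _ => ?_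
      ring
    have h3 := NT_tens_le hG hβ κ6 μ
    have h4 : a * NT T (tens κ μ) ≤ nu T β κ6 * trip T β μ := h1.trans (h2.trans h3)
    rw [div_mul_eq_mul_div, le_div_iff₀ ha, mul_comm]
    exact h4
  rw [le_div_iff₀ ha] at key
  rw [mul_comm]
  exact key

theorem nu_lift (hG : HasGamma T G) (hβ : (Real.sqrt 2)⁻¹ ≤ β) {M : ℕ} {as : ℝ} (has : 0 < as)
    (hl : NTLift T M as) (φ : Fin M → A' → A) (hφ : ∀ l, MP (φ l)) (κ : A → B → ℝ) :
    as * nu T β κ ≤
      nu T β (fun (x : A' × (Fin M → ZMod 2)) y => ∑ l, sg (x.2 l) * κ (φ l x.1) y) := by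
  set κ7 : A' × (Fin M → ZMod 2) → B → ℝ := fun x y => ∑ l, sg (x.2 l) * κ (φ l x.1) y with hκ7
  have h7 := nu_nonneg hG hβ κ7
  have key : nu T β κ ≤ nu T β κ7 / as := by
    refine nu_le (by positivity) ?_
    intro C F _ _ μ
    have h1 := hl (fun l (x : A' × C) => (φ l x.1, x.2)) (fun l => (hφ l).prodMap MP.id)
      (tens κ μ)
    have h2 : NT T (fun (x : (A' × C) × (Fin M → ZMod 2)) y =>
        ∑ l, sg (x.2 l) * tens κ μ (φ l x.1.1, x.1.2) y) ≤ NT T (tens κ7 μ) := by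
      refine NT_equiv T
        ((Equiv.prodAssoc _ _ _).trans ((Equiv.prodCongr (Equiv.refl _)
          (Equiv.prodComm _ _)).trans (Equiv.prodAssoc _ _ _).symm)) (Equiv.refl _) _ _ ?_
      intro x y
      simp only [tens, κ7, Equiv.refl_apply, Equiv.trans_apply, Equiv.prodAssoc_apply,
        Equiv.prodCongr_apply, Prod.map, Equiv.prodComm_apply, Prod.swap,
        Equiv.prodAssoc_symm_apply, Finset.sum_mul]
      refine Finset.sum_congr rfl fun l _ => ?_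
      ring
    have h3 := NT_tens_le hG hβ κ7 μ
    have h4 : as * NT T (tens κ μ) ≤ nu T β κ7 * trip T β μ := h1.trans (h2.trans h3)
    rw [div_mul_eq_mul_div, le_div_iff₀ has, mul_comm]
    exact h4
  rw [le_div_iff₀ has] at key
  rw [mul_comm]
  exact key

/-- **The class norm as a `KNorm`.** -/
noncomputable def clsNorm (T : X →L[ℝ] Y) (β G a as : ℝ) (L M : ℕ) (hG : HasGamma T G)
    (hβ : (Real.sqrt 2)⁻¹ ≤ β) (ha : 0 < a) (has : 0 < as) (hc : NTCot T L a)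
    (hl : NTLift T M as) : KNorm β a as L M where
  ν := fun κ => nu T β κ
  nonneg := fun κ => nu_nonneg hG hβ κ
  add_le := fun κ κ' => nu_add_le hG hβ κ κ'
  smul_le := fun c κ => nu_smul_le hG hβ c κ
  pull := fun hφ hψ κ => nu_pull hG hβ hφ hψ κ
  unim := fun u w hu hw κ => nu_unim hG hβ u w hu hw κ
  schur := fun w hw hw1 hw2 κ c hc h => nu_schur hG hβ w hw hw1 hw2 κ c hc h
  tensor := fun κ κ' => nu_tensor hG hβ κ κ'
  one := nu_one hG hβ
  walsh := nu_walsh hG hβ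
  cot := fun ψ hψ κ => nu_cot hG hβ ha hc ψ hψ κ
  lift := fun φ hφ κ => nu_lift hG hβ has hl φ hφ κ

/-- **Corollary.** -/
theorem NT_V_le (hG : HasGamma T G) (hβ : (Real.sqrt 2)⁻¹ ≤ β) (hβ1 : β ≤ 1) (n0 : ℕ)
    (h0 : nu T β (V n0) ≤ 1 / 2 * β ^ n0) (j : ℕ) :
    NT T (V j) ≤ ((β ^ n0)⁻¹ * ‖T‖) * β ^ j := by
  have hβ0 : 0 < β := lt_of_lt_of_le (by positivity) hβ
  set one : Unit → Unit → ℝ := fun _ _ => 1 with hone
  set S : ℝ := trip T β one with hS
  have hS0 : 0 ≤ S := trip_nonneg hG hβ one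
  have hhs : hs one = 1 := by
    unfold hs one
    simp [avg_const]
  -- every term of the supremum is bounded
  have hterm : ∀ i : ℕ, NT T (tens (V i) one) ≤ max (1 / 2 * S) ((β ^ n0)⁻¹ * ‖T‖) * β ^ i := by
    intro i
    rcases lt_or_ge i n0 with hi | hi
    · have h1 : NT T (tens (V i) one) ≤ ‖T‖ := by
        have := NT_le_hs T (tens (V i) one)
        rwa [hs_tens, hs_V, hhs, mul_one, mul_one] at this
      have h2 : β ^ n0 ≤ β ^ i := pow_le_pow_of_le_one hβ0.le hβ1 hi.le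
      have h3 : ‖T‖ ≤ ((β ^ n0)⁻¹ * ‖T‖) * β ^ i := by
        have hp : 0 < β ^ n0 := pow_pos hβ0 n0
        have : ‖T‖ = ((β ^ n0)⁻¹ * ‖T‖) * β ^ n0 := by field_simp
        calc ‖T‖ = ((β ^ n0)⁻¹ * ‖T‖) * β ^ n0 := this
          _ ≤ _ := mul_le_mul_of_nonneg_left h2 (by positivity)
      exact h1.trans (h3.trans (mul_le_mul_of_nonneg_right (le_max_right _ _) (by positivity)))
    · obtain ⟨k, rfl⟩ := Nat.exists_eq_add_of_le hi
      have h1 : NT T (tens (V (n0 + k)) one) ≤ NT T (tens (V n0) (tens (V k) one)) := by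
        refine NT_equiv T
          ((Equiv.prodCongr (Fin.appendEquiv n0 k).symm (Equiv.refl _)).trans
            (Equiv.prodAssoc _ _ _))
          ((Equiv.prodCongr (Fin.appendEquiv n0 k).symm (Equiv.refl _)).trans
            (Equiv.prodAssoc _ _ _)) _ _ ?_
        intro x y
        obtain ⟨x1, hx1⟩ := (Fin.appendEquiv n0 k).surjective x.1
        obtain ⟨y1, hy1⟩ := (Fin.appendEquiv n0 k).surjective y.1
        have := V_append n0 k x1 y1
        simp only [tens, Equiv.trans_apply, Equiv.prodAssoc_apply, Equiv.prodCongr_apply,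
          Prod.map, Equiv.refl_apply, ← hx1, ← hy1, Equiv.symm_apply_apply]
        erw [this]
        simp only [one]
        ring
      have h2 := NT_tens_le hG hβ (V n0) (tens (V k) one)
      have h3 := trip_V hG hβ k one
      have h4 : NT T (tens (V (n0 + k)) one) ≤ (1 / 2 * S) * β ^ (n0 + k) := by
        calc NT T (tens (V (n0 + k)) one) ≤ _ := h1
          _ ≤ _ := h2
          _ ≤ (1 / 2 * β ^ n0) * (β ^ k * S) := by
              apply mul_le_mul h0 h3 (trip_nonneg hG hβ _) (by positivity)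
          _ = _ := by rw [pow_add]; ring
      exact h4.trans (mul_le_mul_of_nonneg_right (le_max_left _ _) (by positivity))
  have hSle : S ≤ max (1 / 2 * S) ((β ^ n0)⁻¹ * ‖T‖) := trip_le hβ0 hterm
  have hS2 : S ≤ (β ^ n0)⁻¹ * ‖T‖ := by
    have hnn : 0 ≤ (β ^ n0)⁻¹ * ‖T‖ := by positivity
    rcases le_max_iff.mp hSle with h | h
    · linarith
    · exact h
  have h5 := NT_V_le_trip hG hβ j one
  have h6 : NT T (V j) ≤ NT T (tens (V j) one) := by
    refine NT_equiv T (Equiv.prodPUnit _).symm (Equiv.prodPUnit _).symm _ _ ?_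
    intro x y
    simp [tens, one]
  calc NT T (V j) ≤ β ^ j * S := h6.trans h5
    _ ≤ β ^ j * ((β ^ n0)⁻¹ * ‖T‖) := mul_le_mul_of_nonneg_left hS2 (by positivity)
    _ = _ := by ring

end nu

end Crest.Agent.R118.LayerNu408
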