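import Mathlib
import Crest.Agent.R118.LayerNu_408
import Crest.Agent.R118.Layer2_130
import Crest.Agent.R118.Glue_324

/-!
Row 118 (S0158). Analytic layer, final statement in the shape `hLayer` of `Glue_324`.
-/

set_option autoImplicit false
set_option linter.unusedVariables false

namespace Crest.Agent.R118.LayerFinal408

open Finset Base324 KNorm324 Lift361 Glue324 Layer408 LayerNu408

universe u

theorem hLayer (β a as : ℝ) (L M n0 : ℕ) (hβ0 : 0 < β) (hβ1 : β < 1) (hβ2 : 1 / 2 ≤ β ^ 2)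
    (ha : 0 < a) (has : 0 < as) (hL : 0 < L) (hM : 0 < M)
    (hn0 : ∀ K : KNorm β a as L M,
      K.ν (fun x y : Fin n0 → ZMod 2 => χ x y) ≤ 1 / 2 * β ^ n0)
    (Z : Type u) (X : Type u) [NormedAddCommGroup Z] [NormedSpace ℝ Z] [NormedAddCommGroup X]
    [NormedSpace ℝ X] (T : Z →L[ℝ] X)
    (hT : FiniteDimensional ℝ (LinearMap.range (T : Z →ₗ[ℝ] X)))
    (hLift : HasLift Z M (M / as)) (hCot : HasCot X L a) :
    WalshZ (T : Z →ₗ[ℝ] X) ((β ^ n0)⁻¹ * ‖T‖) β := by
  have hβ : (Real.sqrt 2)⁻¹ ≤ β := by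
    rw [inv_le_comm₀ (by positivity) hβ0]
    apply Real.le_sqrt_of_sq_le
    rw [inv_pow, inv_le_comm₀ (by positivity) (by norm_num)]
    norm_num at hβ2 ⊢
    exact hβ2
  obtain ⟨G, hG0, hG⟩ := Layer2x130.NT_V_tens_le T hT
  have hG' : HasGamma T G := fun j A B _ _ κ => hG j A B κ
  have hM' : (0 : ℝ) < M := by exact_mod_cast hM
  have hc : NTCot T L a := fun {A B B'} _ _ _ ψ hψ κ =>
    Layer2x130.NT_cot ha.le hL T hCot ψ hψ κ
  have hl : NTLift T M as := fun {A A' B} _ _ _ φ hφ κ => by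
    have h := Layer2x130.NT_lift (b := M / as) (by positivity) hM T hLift φ hφ κ
    have e : (M : ℝ) / (M / as) = as := by field_simp
    rwa [e] at h
  have h0 := hn0 (clsNorm T β G a as L M hG' hβ ha has hc hl)
  have h1 : nu T β (V n0) ≤ 1 / 2 * β ^ n0 := h0
  intro j f
  have h2 := NT_V_le hG' hβ hβ1.le n0 h1 j
  have h3 := (NB_NT T (V j)).mono (NT_nonneg _ _) h2 f
  exact h3

end Crest.Agent.R118.LayerFinal408
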