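import Crest.Agent.R118.Glue_324
import Crest.Agent.R118.A5_862
import Crest.Agent.R118.LayerFinal_408
import Crest.Agent.R118.EndAdapt_827
set_option autoImplicit false
set_option linter.unusedVariables false
open Crest.AnalysisR
namespace Crest.Agent.R118.Near316
open Base324 KNorm324 Lift361
universe u

theorem near
    (hRed : ∀ (X : Type u) [NormedAddCommGroup X] [NormedSpace ℝ X] [CompleteSpace X]
      (hAP : HasApproximationProperty X) (M : ℕ) (B B' : ℝ) (hM : 0 < M) (hB : 0 ≤ B)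
      (hBB : B < B') (hL : HasLift X M B) (k : ℝ)
      (hMain : ∀ (Z : Type u) [NormedAddCommGroup Z] [NormedSpace ℝ Z] (T : Z →L[ℝ] X),
        FiniteDimensional ℝ (LinearMap.range (T : Z →ₗ[ℝ] X)) → ‖T‖ ≤ 1 →
        HasLift Z M (2 * B') → ∀ (s : ℕ) (g : (Fin s → Bool) → Z),
          signAverage (fun ε : Fin s → Bool =>
            ‖∑ i : Fin s, signVal (ε i) •
              (((2 : ℝ) ^ s)⁻¹ • ∑ η : Fin s → Bool, signVal (η i) • T (g η))‖ ^ 2)
            ≤ k ^ 2 * signAverage fun ε => ‖g ε‖ ^ 2), IsKConvex X)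
    (X : Type u) [NormedAddCommGroup X] [NormedSpace ℝ X] [CompleteSpace X] [Nontrivial X]
    (hAP : HasApproximationProperty X) (q r C D : ℝ) (hq : 2 ≤ q) (hr : 2 ≤ r)
    (hX : HasRademacherCotype X q C)
    (hX' : HasRademacherCotype (StrongDual ℝ X) r D) :
    IsKConvex X :=
  Glue324.glue (fun β a as L M hβ0 hβ1 hL hM ha has hML =>
      A5_862.thmA_uniform β a as L M hβ0 hβ1 hL hM ha has hML)
    (fun β a as L M n0 hβ0 hβ1 hβ2 ha has hL hM hn0 Z X _ _ _ _ T hT hLift hCot =>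
      LayerFinal408.hLayer β a as L M n0 hβ0 hβ1 hβ2 ha has hL hM hn0 Z X T hT hLift hCot)
    Endgame827.hEnd hRed X hAP q r C D hq hr hX hX'

end Crest.Agent.R118.Near316
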