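import Crest.Prelude.Def_Rademacher
import Crest.Agent.R118.Lift_361

/-!
Parameter selection for the final assembly of S0158.
-/

namespace Crest.Agent.R118.Params316

open Crest.AnalysisR Crest.Agent.R118.Lift361

/-- cotype constants may be increased -/
theorem cotype_mono {Y : Type*} [NormedAddCommGroup Y] [NormedSpace ℝ Y] {q C C' : ℝ}
    (h : HasRademacherCotype Y q C) (hC : C ≤ C') : HasRademacherCotype Y q C' := by
  intro s y
  refine (h s y).trans (mul_le_mul_of_nonneg_right hC ?_)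
  apply Real.rpow_nonneg
  unfold signAverage
  apply mul_nonneg (by positivity)
  exact Finset.sum_nonneg fun ε _ => by positivity

/-- The choice of the sizes `L`, `M` and of the lifting constant `B`. -/
theorem exists_params {q r C D : ℝ} (hq : 2 ≤ q) (hr : 2 ≤ r) (hC : 1 ≤ C) (hD : 1 ≤ D)
    (a₀ c : ℝ) (ha : 0 < a₀) (hc : 1 ≤ c) :
    ∃ (L M : ℕ) (B : ℝ), 0 < L ∧ 0 < M ∧ 0 < B ∧ a₀ ≤ (L : ℝ) ^ (1 / q) / C ∧
      D * (M : ℝ) ^ (1 - 1 / r) < B ∧ (2 : ℝ) ^ (L + 1) * (c * B) ≤ M := by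
  have hq0 : 0 < q := by linarith
  have hr0 : 0 < r := by linarith
  obtain ⟨L, hL⟩ := exists_nat_ge (max 1 ((a₀ * C) ^ q))
  have hL1 : (1 : ℝ) ≤ L := (le_max_left _ _).trans hL
  have hL2 : (a₀ * C) ^ q ≤ L := (le_max_right _ _).trans hL
  set W : ℝ := (2 : ℝ) ^ (L + 1) * (c * (2 * D)) with hW
  have hWpos : 0 < W := by positivity
  obtain ⟨M, hM⟩ := exists_nat_ge (max 1 (W ^ r))
  have hM1 : (1 : ℝ) ≤ M := (le_max_left _ _).trans hM
  have hM2 : W ^ r ≤ M := (le_max_right _ _).trans hM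
  have hM0 : (0 : ℝ) < M := by linarith
  have hpow : 0 < (M : ℝ) ^ (1 - 1 / r) := Real.rpow_pos_of_pos hM0 _
  refine ⟨L, M, 2 * D * (M : ℝ) ^ (1 - 1 / r), ?_, ?_, by positivity, ?_, ?_, ?_⟩
  · exact_mod_cast (by linarith : (0 : ℝ) < L)
  · exact_mod_cast hM0
  · rw [le_div_iff₀ (by linarith)]
    have := Real.rpow_le_rpow (by positivity) hL2 (show 0 ≤ 1 / q by positivity)
    rwa [← Real.rpow_mul (by positivity), mul_one_div_cancel hq0.ne', Real.rpow_one] at this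
  · nlinarith
  · have h1 : W ≤ (M : ℝ) ^ (1 / r) := by
      have := Real.rpow_le_rpow (by positivity) hM2 (show 0 ≤ 1 / r by positivity)
      rwa [← Real.rpow_mul (by positivity), mul_one_div_cancel hr0.ne', Real.rpow_one] at this
    have h2 : (M : ℝ) ^ (1 - 1 / r) * (M : ℝ) ^ (1 / r) = M := by
      rw [← Real.rpow_add hM0]; simp
    calc (2 : ℝ) ^ (L + 1) * (c * (2 * D * (M : ℝ) ^ (1 - 1 / r)))
        = (M : ℝ) ^ (1 - 1 / r) * W := by rw [hW]; ring
      _ ≤ (M : ℝ) ^ (1 - 1 / r) * (M : ℝ) ^ (1 / r) := by gcongr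
      _ = M := h2

/-- The choice of `β`. -/
theorem exists_beta (N : ℕ) (hN : 2 ≤ N) :
    ∃ β : ℝ, 0 < β ∧ β < 1 ∧ 1 / Real.sqrt 2 ≤ β ∧ (1 : ℝ) / 2 ≤ β ^ N := by
  have hN0 : (0 : ℝ) < N := by exact_mod_cast (by omega : 0 < N)
  have hN2 : (2 : ℝ) ≤ N := by exact_mod_cast hN
  refine ⟨(1 / 2 : ℝ) ^ (1 / (N : ℝ)), by positivity, ?_, ?_, ?_⟩
  · exact Real.rpow_lt_one (by norm_num) (by norm_num) (by positivity)
  · have h1 : (1 : ℝ) / Real.sqrt 2 = (1 / 2 : ℝ) ^ (1 / 2 : ℝ) := by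
      rw [Real.sqrt_eq_rpow, Real.div_rpow (by norm_num) (by norm_num), Real.one_rpow]
    rw [h1]
    apply Real.rpow_le_rpow_of_exponent_ge (by norm_num) (by norm_num)
    exact one_div_le_one_div_of_le (by norm_num) hN2
  · rw [← Real.rpow_natCast, ← Real.rpow_mul (by norm_num)]
    rw [one_div_mul_cancel hN0.ne']
    norm_num

end Crest.Agent.R118.Params316
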