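import Mathlib

set_option autoImplicit false

/-! Row 118 (S0158), analytic input for the Pisier step:
`x^2 e^{-x} = (4/π) ∫_0^∞ (1 - cos (x u)) (3u^2 - 1)/(1+u^2)^3 du` for `x ≥ 0`. -/

namespace Crest.Agent.R118.PisierInt362

open MeasureTheory Set Filter Topology Real
open scoped FourierTransform

/-- `x^2 e^{-a x}` is integrable on the half line. -/
lemma integrableOn_sq_exp (a : ℂ) (ha : 0 < a.re) :
    IntegrableOn (fun x : ℝ => (x : ℂ) ^ 2 * Complex.exp (-(a * x))) (Ioi 0) := by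
  have h := integrableOn_rpow_mul_exp_neg_mul_rpow (p := 1) (s := 2) (b := a.re) (by norm_num)
    one_pos ha
  refine Integrable.mono' (g := fun x : ℝ => x ^ (2 : ℝ) * Real.exp (-a.re * x ^ (1 : ℝ))) h
    (Continuous.aestronglyMeasurable (by fun_prop)) ?_
  refine (ae_restrict_iff' measurableSet_Ioi).2 (Eventually.of_forall fun x hx => ?_)
  have hx' : (0 : ℝ) < x := hx
  rw [norm_mul, norm_pow, Complex.norm_real, Real.norm_of_nonneg hx'.le, Complex.norm_exp]
  simp

lemma tendsto_pow_mul_cexp (a : ℂ) (ha : 0 < a.re) (n : ℕ) :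
    Tendsto (fun x : ℝ => (x : ℂ) ^ n * Complex.exp (-(a * x))) atTop (𝓝 0) := by
  rw [tendsto_zero_iff_norm_tendsto_zero]
  have h := (Real.tendsto_pow_mul_exp_neg_atTop_nhds_zero n).comp
    (tendsto_id.const_mul_atTop ha : Tendsto (fun x : ℝ => a.re * x) atTop atTop)
  have h2 := h.const_mul ((a.re ^ n)⁻¹)
  rw [mul_zero] at h2
  refine h2.congr' ?_
  filter_upwards [eventually_gt_atTop 0] with x hx
  rw [norm_mul, norm_pow, Complex.norm_real, Real.norm_of_nonneg hx.le, Complex.norm_exp]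
  simp only [Function.comp, mul_pow, Complex.neg_re, Complex.mul_re, Complex.ofReal_re,
    Complex.ofReal_im, mul_zero, sub_zero]
  have : a.re ^ n ≠ 0 := (pow_pos ha n).ne'
  field_simp

/-- `∫_0^∞ x^2 e^{-a x} dx = 2/a^3`. -/
lemma integral_sq_exp (a : ℂ) (ha : 0 < a.re) :
    ∫ x in Ioi (0:ℝ), (x : ℂ) ^ 2 * Complex.exp (-(a * x)) = 2 / a ^ 3 := by
  have ha0 : a ≠ 0 := by rintro rfl; simp at ha
  have h := integral_Ioi_of_hasDerivAt_of_tendsto'
    (f := fun x : ℝ => -((x : ℂ) ^ 2 * Complex.exp (-(a * x)) / a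
      + 2 * ((x : ℂ) ^ 1 * Complex.exp (-(a * x))) / a ^ 2
      + 2 * ((x : ℂ) ^ 0 * Complex.exp (-(a * x))) / a ^ 3))
    (f' := fun x : ℝ => (x : ℂ) ^ 2 * Complex.exp (-(a * x)))
    (a := 0) (m := 0) ?_ (integrableOn_sq_exp a ha) ?_
  · rw [h]
    simp
  · intro x _
    have h1 : HasDerivAt (fun x : ℝ => (x : ℂ)) 1 x := Complex.ofRealCLM.hasDerivAt
    have h2 : HasDerivAt (fun x : ℝ => Complex.exp (-(a * x)))
        (Complex.exp (-(a * x)) * (-(a * 1))) x := ((h1.const_mul a).neg).cexp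
    have h3 : ∀ n : ℕ, HasDerivAt (fun x : ℝ => (x : ℂ) ^ n * Complex.exp (-(a * x)))
        ((n * (x : ℂ) ^ (n - 1) * 1) * Complex.exp (-(a * x))
          + (x : ℂ) ^ n * (Complex.exp (-(a * x)) * (-(a * 1)))) x := fun n => (h1.pow n).mul h2
    have h4 := ((((h3 2).div_const a).add (((h3 1).const_mul 2).div_const (a ^ 2))).add
      (((h3 0).const_mul 2).div_const (a ^ 3))).neg
    refine h4.congr_deriv ?_
    simp
    field_simp
    ring
  · have e2 := tendsto_pow_mul_cexp a ha 2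
    have e1 := tendsto_pow_mul_cexp a ha 1
    have e0 := tendsto_pow_mul_cexp a ha 0
    have := (((e2.div_const a).add ((e1.const_mul 2).div_const (a ^ 2))).add
      ((e0.const_mul 2).div_const (a ^ 3))).neg
    simpa using this


/-- the test function -/
noncomputable def fE (x : ℝ) : ℂ := ((x ^ 2 * Real.exp (-|x|) : ℝ) : ℂ)

lemma continuous_fE : Continuous fE := by unfold fE; fun_prop

/-- its Fourier transform -/
noncomputable def gE (w : ℝ) : ℝ := 4 * (1 - 3 * (2 * π * w) ^ 2) / (1 + (2 * π * w) ^ 2) ^ 3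

lemma integrableOn_fE_exp (w : ℝ) :
    IntegrableOn (fun x : ℝ => Complex.exp (↑(-2 * π * x * w) * Complex.I) • fE x) (Ioi 0) := by
  have ha : 0 < (1 + (2 * π * w : ℝ) * Complex.I : ℂ).re := by simp
  refine (integrableOn_sq_exp _ ha).congr_fun ?_ measurableSet_Ioi
  intro x hx
  have hx' : (0 : ℝ) < x := hx
  simp only [fE, abs_of_pos hx', smul_eq_mul]
  push_cast
  rw [mul_left_comm, ← Complex.exp_add]
  congr 2
  ring

lemma integral_fE_exp (w : ℝ) :
    ∫ x in Ioi (0:ℝ), Complex.exp (↑(-2 * π * x * w) * Complex.I) • fE x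
      = 2 / (1 + (2 * π * w : ℝ) * Complex.I : ℂ) ^ 3 := by
  have ha : 0 < (1 + (2 * π * w : ℝ) * Complex.I : ℂ).re := by simp
  rw [← integral_sq_exp _ ha]
  refine setIntegral_congr_fun measurableSet_Ioi ?_
  intro x hx
  have hx' : (0 : ℝ) < x := hx
  simp only [fE, abs_of_pos hx', smul_eq_mul]
  push_cast
  rw [mul_left_comm, ← Complex.exp_add]
  congr 2
  ring

lemma integrable_fE_exp (w : ℝ) :
    Integrable (fun x : ℝ => Complex.exp (↑(-2 * π * x * w) * Complex.I) • fE x) := by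
  rw [← integrableOn_univ, ← Iic_union_Ioi (a := (0:ℝ))]
  refine IntegrableOn.union ?_ (integrableOn_fE_exp w)
  have h := (integrableOn_fE_exp (-w))
  rw [← integrableOn_Ici_iff_integrableOn_Ioi] at h
  have h2 := (integrableOn_Ici_iff_integrableOn_Ioi (f := fun x : ℝ =>
    Complex.exp (↑(-2 * π * x * (-w)) * Complex.I) • fE x) (b := 0)).2 (integrableOn_fE_exp (-w))
  have h3 := (integrable_indicator_iff (measurableSet_Ici (a := (0:ℝ)))).2 h2
  have h4 := h3.comp_neg
  refine ((integrable_indicator_iff (measurableSet_Iic (a := (0:ℝ)))).1 (h4.congr ?_))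
  refine Eventually.of_forall fun x => ?_
  simp only [indicator, mem_Ici, mem_Iic, fE, abs_neg, Left.nonneg_neg_iff]
  split_ifs <;> simp

lemma fourier_fE (w : ℝ) : 𝓕 fE w = (gE w : ℂ) := by
  rw [Real.fourier_real_eq_integral_exp_smul]
  have hi := integrable_fE_exp w
  rw [← intervalIntegral.integral_Iic_add_Ioi (b := (0:ℝ)) hi.integrableOn hi.integrableOn,
    integral_fE_exp]
  have h1 : ∫ x in Iic (0:ℝ), Complex.exp (↑(-2 * π * x * w) * Complex.I) • fE x
      = 2 / (1 + (2 * π * (-w) : ℝ) * Complex.I : ℂ) ^ 3 := by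
    rw [← integral_fE_exp (-w)]
    have hc := integral_comp_neg_Iic (0:ℝ) (fun x : ℝ =>
      Complex.exp (↑(-2 * π * x * (-w)) * Complex.I) • fE x)
    rw [neg_zero] at hc
    rw [← hc]
    refine setIntegral_congr_fun measurableSet_Iic ?_
    intro x hx
    simp [fE]
  rw [h1, gE]
  have hI : (Complex.I) ^ 2 = -1 := Complex.I_sq
  have hp : (1 + (2 * π * w : ℝ) * Complex.I : ℂ) ≠ 0 := by
    intro h
    have := congrArg Complex.re h
    simp at this
  have hm : (1 + (2 * π * (-w) : ℝ) * Complex.I : ℂ) ≠ 0 := by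
    intro h
    have := congrArg Complex.re h
    simp at this
  have hq : ((1 + (2 * π * w) ^ 2 : ℝ) : ℂ) ≠ 0 := by
    have : (1 + (2 * π * w) ^ 2 : ℝ) ≠ 0 := by positivity
    exact_mod_cast this
  have hprod : (1 + (2 * π * w : ℝ) * Complex.I : ℂ) * (1 + (2 * π * (-w) : ℝ) * Complex.I : ℂ)
      = ((1 + (2 * π * w) ^ 2 : ℝ) : ℂ) := by
    push_cast
    ring_nf
    rw [hI]; ring
  rw [div_add_div _ _ (pow_ne_zero _ hm) (pow_ne_zero _ hp), mul_comm ((1 + (2 * π * (-w) : ℝ) * Complex.I : ℂ) ^ 3) ((1 + (2 * π * w : ℝ) * Complex.I : ℂ) ^ 3), ← mul_pow, hprod]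
  push_cast
  congr 1
  have hI3 : Complex.I ^ 3 = - Complex.I := by rw [pow_succ, hI]; ring
  ring_nf
  rw [hI]
  ring


lemma continuous_gE : Continuous gE := by
  unfold gE
  refine Continuous.div (by fun_prop) (by fun_prop) ?_
  intro w
  positivity

lemma abs_gE_le (w : ℝ) : |gE w| ≤ 12 * (1 + (2 * π * w) ^ 2)⁻¹ := by
  unfold gE
  set u := (2 * π * w) ^ 2 with hu
  have hu0 : 0 ≤ u := sq_nonneg _
  have h1 : |4 * (1 - 3 * u)| ≤ 12 * (1 + u) := by
    rw [abs_le]; constructor <;> nlinarith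
  rw [abs_div, abs_of_nonneg (by positivity : 0 ≤ (1 + u) ^ 3), div_le_iff₀ (by positivity)]
  have h2 : 12 * (1 + u)⁻¹ * (1 + u) ^ 3 = 12 * (1 + u) ^ 2 := by
    field_simp
  rw [h2]
  nlinarith

lemma integrable_gE : Integrable gE := by
  have h1 : Integrable (fun w : ℝ => 12 * (1 + (2 * π * w) ^ 2)⁻¹) :=
    (integrable_inv_one_add_sq.comp_mul_left' (by positivity : (2 * π) ≠ 0)).const_mul 12
  exact h1.mono' continuous_gE.aestronglyMeasurable (Eventually.of_forall fun w => abs_gE_le w)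

lemma integrable_fE : Integrable fE := by
  have h := integrable_fE_exp 0
  simpa using h

lemma inversion (x : ℝ) :
    x ^ 2 * Real.exp (-|x|) = ∫ w : ℝ, Real.cos (2 * π * x * w) * gE w := by
  have hF : 𝓕 fE = fun w => (gE w : ℂ) := funext fourier_fE
  have hint : Integrable (𝓕 fE) := by rw [hF]; exact integrable_gE.ofReal
  have h := congrFun (continuous_fE.fourierInv_fourier_eq integrable_fE hint) x
  rw [hF, Real.fourierInv_eq'] at h
  have h2 := congrArg Complex.re h
  have h3 : (fE x).re = x ^ 2 * Real.exp (-|x|) := Complex.ofReal_re _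
  rw [h3] at h2
  rw [← h2]
  have hi : Integrable (fun v : ℝ => Complex.exp (↑(2 * π * inner ℝ v x) * Complex.I) • (gE v : ℂ)) := by
    have hg : Integrable (fun v : ℝ => (gE v : ℂ)) := integrable_gE.ofReal
    refine hg.mono ?_ ?_
    · refine Continuous.aestronglyMeasurable ?_
      have := continuous_gE
      fun_prop
    · refine Eventually.of_forall fun v => ?_
      rw [norm_smul, Complex.norm_exp_ofReal_mul_I, one_mul]
  have h4 : (∫ v : ℝ, Complex.exp (↑(2 * π * inner ℝ v x) * Complex.I) • (gE v : ℂ)).re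
      = ∫ v : ℝ, (Complex.exp (↑(2 * π * inner ℝ v x) * Complex.I) • (gE v : ℂ)).re :=
    (integral_re hi).symm
  rw [h4]
  refine integral_congr_ae (Eventually.of_forall fun v => ?_)
  simp only [smul_eq_mul, Complex.re_mul_ofReal, Complex.exp_ofReal_mul_I_re]
  congr 2
  simp
  ring

lemma inversion_Ioi (x : ℝ) (hx : 0 ≤ x) :
    x ^ 2 * Real.exp (-x) = 2 * ∫ w in Ioi (0:ℝ), (1 - Real.cos (2 * π * x * w)) * (- gE w) := by
  have h1 := inversion x
  have h0 := inversion 0
  rw [abs_of_nonneg hx] at h1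
  have hi1 : Integrable (fun w : ℝ => Real.cos (2 * π * x * w) * gE w) := by
    refine integrable_gE.mono (Continuous.aestronglyMeasurable ?_) (Eventually.of_forall fun w => ?_)
    · have := continuous_gE
      fun_prop
    · rw [norm_mul]
      exact mul_le_of_le_one_left (norm_nonneg _) (Real.abs_cos_le_one _)
  have h2 : x ^ 2 * Real.exp (-x) = ∫ w : ℝ, (1 - Real.cos (2 * π * x * w)) * (- gE w) := by
    have h3 : ∫ w : ℝ, gE w = 0 := by simpa using h0.symm
    rw [h1, ← sub_zero (∫ w : ℝ, Real.cos (2 * π * x * w) * gE w), ← h3,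
      ← integral_sub hi1 integrable_gE]
    refine integral_congr_ae (Eventually.of_forall fun v => ?_)
    simp only
    ring
  rw [h2, ← integral_comp_abs (f := fun w => (1 - Real.cos (2 * π * x * w)) * (- gE w))]
  refine integral_congr_ae (Eventually.of_forall fun v => ?_)
  rcases abs_choice v with h | h
  · simp only [h]
  · simp only [h, gE]
    have e1 : 2 * π * x * -v = -(2 * π * x * v) := by ring
    have e2 : (2 * π * -v) ^ 2 = (2 * π * v) ^ 2 := by ring
    rw [e1, Real.cos_neg, e2]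

/-- The representation of `t k e^{-t k}` used in the Pisier step. -/
lemma key_identity (t : ℝ) (ht : 0 < t) (k : ℝ) (hk : 0 ≤ k) :
    ∫ y in Ioi (0:ℝ), (4 / π) * ((1 - Real.cos (t * y)) / t) *
      (k ^ 2 * (3 * y ^ 2 - k ^ 2) / (k ^ 2 + y ^ 2) ^ 3) = t * k * Real.exp (-(t * k)) := by
  rcases hk.eq_or_lt with rfl | hk
  · simp
  have h := inversion_Ioi (t * k) (by positivity)
  have hb : 0 < 1 / (2 * π * k) := by positivity
  have hs := integral_comp_mul_left_Ioi (fun w => (1 - Real.cos (2 * π * (t * k) * w)) * (- gE w))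
    0 hb
  rw [mul_zero, smul_eq_mul] at hs
  have hs2 : ∫ w in Ioi (0:ℝ), (1 - Real.cos (2 * π * (t * k) * w)) * (- gE w)
      = 1 / (2 * π * k) * ∫ y in Ioi (0:ℝ), (1 - Real.cos (2 * π * (t * k) * (1 / (2 * π * k) * y))) *
        (- gE (1 / (2 * π * k) * y)) := by
    rw [hs]; field_simp
  rw [hs2] at h
  have h3 : t * k * Real.exp (-(t * k)) = (2 * (1 / (2 * π * k)) * (1 / (t * k))) *
      ∫ y in Ioi (0:ℝ), (1 - Real.cos (2 * π * (t * k) * (1 / (2 * π * k) * y))) *
        (- gE (1 / (2 * π * k) * y)) := by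
    have : t * k * Real.exp (-(t * k)) = (1 / (t * k)) * ((t * k) ^ 2 * Real.exp (-(t * k))) := by
      field_simp
    rw [this, h]; ring
  rw [h3, ← integral_const_mul]
  refine setIntegral_congr_fun measurableSet_Ioi ?_
  intro y hy
  have hy' : (0 : ℝ) < y := hy
  simp only [gE]
  have e1 : 2 * π * (t * k) * (1 / (2 * π * k) * y) = t * y := by field_simp
  have e2 : 2 * π * (1 / (2 * π * k) * y) = y / k := by field_simp
  rw [e1, e2]
  have h4 : (1 + (y / k) ^ 2) ≠ 0 := by positivity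
  have h5 : k ^ 2 + y ^ 2 ≠ 0 := by positivity
  field_simp
  ring

end Crest.Agent.R118.PisierInt362
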