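import Mathlib
import Crest.Agent.R118.PisierInt_362

set_option autoImplicit false

/-! Row 118 (S0158): abstract Kato-Beurling-Pisier step for a finite family of orthogonal
idempotents `P k` (`k = 0..n`) in a real Banach algebra. -/

namespace Crest.Agent.R118.PisierAbs362

open MeasureTheory Set Filter Topology Real
open Crest.Agent.R118.PisierInt362

variable {A : Type*} [NormedRing A] [NormedAlgebra ℝ A]

/-- the multiplier with symbol `m` -/
noncomputable def op (n : ℕ) (P : ℕ → A) (m : ℕ → ℝ) : A := ∑ k ∈ Finset.range (n + 1), m k • P k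

/-- a resolution of the identity by orthogonal idempotents -/
structure Fam (n : ℕ) (P : ℕ → A) : Prop where
  idem : ∀ i, P i * P i = P i
  orth : ∀ i j, i ≠ j → P i * P j = 0
  one : ∑ k ∈ Finset.range (n + 1), P k = 1

section basic
variable {n : ℕ} {P : ℕ → A}

lemma op_congr {m m' : ℕ → ℝ} (h : ∀ k, m k = m' k) : op n P m = op n P m' := by
  unfold op; simp [h]

lemma op_add (m m' : ℕ → ℝ) : op n P (fun k => m k + m' k) = op n P m + op n P m' := by
  simp [op, add_smul, Finset.sum_add_distrib]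

lemma op_sub (m m' : ℕ → ℝ) : op n P (fun k => m k - m' k) = op n P m - op n P m' := by
  simp [op, sub_smul, Finset.sum_sub_distrib]

lemma op_smul (c : ℝ) (m : ℕ → ℝ) : op n P (fun k => c * m k) = c • op n P m := by
  simp [op, mul_smul, Finset.smul_sum]

lemma op_one (hP : Fam n P) : op n P (fun _ => 1) = 1 := by
  simp [op, hP.one]

lemma op_mul (hP : Fam n P) (m m' : ℕ → ℝ) :
    op n P (fun k => m k * m' k) = op n P m * op n P m' := by
  unfold op
  rw [Finset.sum_mul_sum]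
  refine Finset.sum_congr rfl fun i hi => ?_
  rw [Finset.sum_eq_single i]
  · rw [smul_mul_smul_comm, hP.idem]
  · intro j _ hj
    rw [smul_mul_smul_comm, hP.orth i j (Ne.symm hj), smul_zero]
  · intro h; exact absurd hi h

lemma op_pow (hP : Fam n P) (m : ℕ → ℝ) (N : ℕ) :
    op n P (fun k => m k ^ N) = op n P m ^ N := by
  induction N with
  | zero => simp [op_one hP]
  | succ N ih => rw [pow_succ, ← ih, ← op_mul hP]; simp [pow_succ]

end basic

/-- Norm of an integral of multipliers. -/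
lemma norm_op_integral_le [CompleteSpace A] {n : ℕ} {P : ℕ → A} (μ : Measure ℝ) (F : ℝ → ℕ → ℝ)
    (hF : ∀ k, Integrable (fun s => F s k) μ) (B : ℝ → ℝ) (hB : Integrable B μ)
    (h : ∀ᵐ s ∂μ, ‖op n P (F s)‖ ≤ B s) :
    ‖op n P (fun k => ∫ s, F s k ∂μ)‖ ≤ ∫ s, B s ∂μ := by
  have e : op n P (fun k => ∫ s, F s k ∂μ) = ∫ s, op n P (F s) ∂μ := by
    unfold op
    rw [integral_finsetSum]
    · exact Finset.sum_congr rfl fun k _ => (integral_smul_const _ _).symm
    · intro k _
      exact (hF k).smul_const _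
  rw [e]
  exact norm_integral_le_of_norm_le hB h

/-! ### integrals -/

lemma intervalIntegral_exp_sin (k y t : ℝ) (hy : 0 < y) (ht : y * t = π) :
    ∫ s in (0:ℝ)..t, Real.exp (-(s * k)) * Real.sin (y * s)
      = y * (1 + Real.exp (-(t * k))) / (k ^ 2 + y ^ 2) := by
  have hne : k ^ 2 + y ^ 2 ≠ 0 := by positivity
  have hd : ∀ s : ℝ, HasDerivAt (fun s => -(Real.exp (-(s * k)) * (y * Real.cos (y * s)
      + k * Real.sin (y * s)) / (k ^ 2 + y ^ 2))) (Real.exp (-(s * k)) * Real.sin (y * s)) s := by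
    intro s
    have h1 : HasDerivAt (fun s : ℝ => Real.exp (-(s * k))) (Real.exp (-(s * k)) * (-(1 * k))) s :=
      (((hasDerivAt_id s).mul_const k).neg).exp
    have h2 : HasDerivAt (fun s : ℝ => y * s) (y * 1) s := (hasDerivAt_id s).const_mul y
    have h3 := ((h1.mul ((h2.cos.const_mul y).add (h2.sin.const_mul k))).div_const
      (k ^ 2 + y ^ 2)).neg
    refine h3.congr_deriv ?_
    simp only [Pi.add_apply]
    field_simp
    ring
  rw [intervalIntegral.integral_eq_sub_of_hasDerivAt (fun s _ => hd s)]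
  · rw [ht]
    simp
    field_simp
    ring
  · apply Continuous.intervalIntegrable
    fun_prop

lemma intervalIntegral_exp_cos (k y t : ℝ) (hy : 0 < y) (ht : y * t = π) :
    ∫ s in (0:ℝ)..t, Real.exp (-(s * k)) * Real.cos (y * s)
      = k * (1 + Real.exp (-(t * k))) / (k ^ 2 + y ^ 2) := by
  have hne : k ^ 2 + y ^ 2 ≠ 0 := by positivity
  have hd : ∀ s : ℝ, HasDerivAt (fun s => (Real.exp (-(s * k)) * (y * Real.sin (y * s)
      - k * Real.cos (y * s)) / (k ^ 2 + y ^ 2))) (Real.exp (-(s * k)) * Real.cos (y * s)) s := by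
    intro s
    have h1 : HasDerivAt (fun s : ℝ => Real.exp (-(s * k))) (Real.exp (-(s * k)) * (-(1 * k))) s :=
      (((hasDerivAt_id s).mul_const k).neg).exp
    have h2 : HasDerivAt (fun s : ℝ => y * s) (y * 1) s := (hasDerivAt_id s).const_mul y
    have h3 := ((h1.mul ((h2.sin.const_mul y).sub (h2.cos.const_mul k))).div_const
      (k ^ 2 + y ^ 2))
    refine h3.congr_deriv ?_
    simp only [Pi.sub_apply]
    field_simp
    ring
  rw [intervalIntegral.integral_eq_sub_of_hasDerivAt (fun s _ => hd s)]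
  · rw [ht]
    simp
    field_simp
    ring
  · apply Continuous.intervalIntegrable
    fun_prop

lemma one_sub_cos_div_sq_le (v : ℝ) (hv : 0 < v) :
    (1 - Real.cos v) / v ^ 2 ≤ 3 * (1 + v ^ 2)⁻¹ := by
  have h1 : 1 - Real.cos v ≤ v ^ 2 / 2 := by
    have := Real.one_sub_sq_div_two_le_cos (x := v); linarith
  have h2 : 1 - Real.cos v ≤ 2 := by have := Real.neg_one_le_cos v; linarith
  have h3 : 0 ≤ 1 - Real.cos v := by have := Real.cos_le_one v; linarith
  rw [← div_eq_mul_inv, div_le_div_iff₀ (by positivity) (by positivity)]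
  nlinarith [mul_le_mul_of_nonneg_right h2 (sq_nonneg v)]

lemma integrableOn_one_sub_cos : IntegrableOn (fun v : ℝ => (1 - Real.cos v) / v ^ 2) (Ioi 0) := by
  have h := (integrable_inv_one_add_sq.const_mul 3).integrableOn (s := Ioi (0:ℝ))
  refine Integrable.mono' h ?_ ?_
  · refine (ContinuousOn.aestronglyMeasurable ?_ measurableSet_Ioi)
    refine ContinuousOn.div (by fun_prop) (by fun_prop) ?_
    intro x hx
    have : (0:ℝ) < x := hx
    positivity
  · refine (ae_restrict_iff' measurableSet_Ioi).2 (Eventually.of_forall fun v hv => ?_)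
    have hv' : (0:ℝ) < v := hv
    have h3 : 0 ≤ 1 - Real.cos v := by have := Real.cos_le_one v; linarith
    rw [Real.norm_of_nonneg (by positivity)]
    exact one_sub_cos_div_sq_le v hv'

/-- the constant `I0 = ∫_0^∞ (1 - cos v)/v^2 dv` (`= π/2`) -/
noncomputable def I0 : ℝ := ∫ v in Ioi (0:ℝ), (1 - Real.cos v) / v ^ 2

lemma scaled_integrable (t : ℝ) (ht : 0 < t) :
    IntegrableOn (fun y : ℝ => (1 - Real.cos (t * y)) / t * (1 / y ^ 2)) (Ioi 0) := by
  have h := (integrableOn_Ioi_comp_mul_left_iff (fun v : ℝ => (1 - Real.cos v) / v ^ 2) 0 ht).2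
    (by simpa using integrableOn_one_sub_cos)
  refine IntegrableOn.congr_fun (f := fun y => t * ((1 - Real.cos (t * y)) / (t * y) ^ 2))
    (Integrable.const_mul h t) ?_ measurableSet_Ioi
  intro y hy
  have hy' : (0:ℝ) < y := hy
  simp only
  field_simp

lemma scaled_integral (t : ℝ) (ht : 0 < t) :
    ∫ y in Ioi (0:ℝ), (1 - Real.cos (t * y)) / t * (1 / y ^ 2) = I0 := by
  have h := integral_comp_mul_left_Ioi (fun v : ℝ => (1 - Real.cos v) / v ^ 2) 0 ht
  rw [mul_zero, smul_eq_mul] at h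
  rw [I0]
  have h2 : (∫ v in Ioi (0:ℝ), (1 - Real.cos v) / v ^ 2)
      = t * ∫ x in Ioi (0:ℝ), (1 - Real.cos (t * x)) / (t * x) ^ 2 := by
    rw [h]; field_simp
  rw [h2, ← integral_const_mul]
  refine setIntegral_congr_fun measurableSet_Ioi ?_
  intro y hy
  have hy' : (0:ℝ) < y := hy
  simp only
  field_simp


/-- contractive semigroup `e^{-tN}` whose `(1 + e^{-tN})⁻¹` is bounded by `K` -/
structure Good (n : ℕ) (P : ℕ → A) (K : ℝ) : Prop where
  fam : Fam n P
  contr : ∀ t : ℝ, 0 ≤ t → ‖op n P (fun k => Real.exp (-(t * k)))‖ ≤ 1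
  inv : ∀ t : ℝ, 0 ≤ t → ‖op n P (fun k => (1 + Real.exp (-(t * k)))⁻¹)‖ ≤ K

section main
variable [CompleteSpace A] {n : ℕ} {P : ℕ → A} {K : ℝ}

omit [CompleteSpace A] in
lemma Good.norm_one_le (h : Good n P K) : ‖(1 : A)‖ ≤ 1 := by
  have := h.contr 0 le_rfl
  simpa [op_one h.fam] using this

omit [CompleteSpace A] in
lemma Good.K_nonneg (h : Good n P K) : 0 ≤ K := (norm_nonneg _).trans (h.inv 0 le_rfl)

lemma Good.res_aux (h : Good n P K) (y : ℝ) (hy : 0 < y) (g : ℝ → ℝ) (hg : Continuous g)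
    (hg1 : ∀ s, |g s| ≤ 1) (m : ℕ → ℝ)
    (hm : ∀ k : ℕ, ∫ s in (0:ℝ)..(π / y), Real.exp (-(s * k)) * g s
      = m k * (1 + Real.exp (-((π / y) * k)))) :
    ‖op n P m‖ ≤ K * (π / y) := by
  set t := π / y with ht
  have ht0 : 0 < t := by positivity
  have e : op n P m = op n P (fun k => (1 + Real.exp (-(t * k)))⁻¹) *
      op n P (fun k => ∫ s in Ioc 0 t, g s * Real.exp (-(s * k))) := by
    rw [← op_mul h.fam]
    refine op_congr fun k => ?_
    have h1 := hm k
    rw [intervalIntegral.integral_of_le ht0.le] at h1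
    have h2 : ∫ s in Ioc 0 t, g s * Real.exp (-(s * k)) = m k * (1 + Real.exp (-(t * k))) := by
      rw [← h1]
      refine setIntegral_congr_fun measurableSet_Ioc fun s _ => ?_
      ring
    rw [h2]
    have : (1 + Real.exp (-(t * k))) ≠ 0 := by positivity
    field_simp
  rw [e]
  refine (norm_mul_le _ _).trans ?_
  refine mul_le_mul (h.inv t ht0.le) ?_ (norm_nonneg _) h.K_nonneg
  have h3 := norm_op_integral_le (n := n) (P := P) (volume.restrict (Ioc 0 t))
    (fun s k => g s * Real.exp (-(s * k))) ?_ (fun _ => (1 : ℝ)) ?_ ?_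
  · refine h3.trans ?_
    simp [ht0.le]
  · intro k
    have : IntervalIntegrable (fun s : ℝ => g s * Real.exp (-(s * k))) volume 0 t := by
      apply Continuous.intervalIntegrable; fun_prop
    exact (intervalIntegrable_iff_integrableOn_Ioc_of_le ht0.le).1 this
  · exact integrable_const _
  · refine (ae_restrict_iff' measurableSet_Ioc).2 (Eventually.of_forall fun s hs => ?_)
    rw [op_smul, norm_smul]
    exact mul_le_one₀ (hg1 s) (norm_nonneg _) (h.contr s hs.1.le)

lemma Good.res_sin (h : Good n P K) (y : ℝ) (hy : 0 < y) :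
    ‖op n P (fun k => y / ((k:ℝ) ^ 2 + y ^ 2))‖ ≤ K * (π / y) := by
  refine h.res_aux y hy (fun s => Real.sin (y * s)) (by fun_prop)
    (fun s => Real.abs_sin_le_one _) _ fun k => ?_
  rw [intervalIntegral_exp_sin _ y _ hy (by field_simp)]
  ring

lemma Good.res_cos (h : Good n P K) (y : ℝ) (hy : 0 < y) :
    ‖op n P (fun k => (k:ℝ) / ((k:ℝ) ^ 2 + y ^ 2))‖ ≤ K * (π / y) := by
  refine h.res_aux y hy (fun s => Real.cos (y * s)) (by fun_prop)
    (fun s => Real.abs_cos_le_one _) _ fun k => ?_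
  rw [intervalIntegral_exp_cos _ y _ hy (by field_simp)]
  ring

lemma Good.kern (h : Good n P K) (y : ℝ) (hy : 0 < y) :
    ‖op n P (fun k => (k:ℝ) ^ 2 * (3 * y ^ 2 - (k:ℝ) ^ 2) / ((k:ℝ) ^ 2 + y ^ 2) ^ 3)‖
      ≤ (K * π) ^ 2 * (4 * (K * π) + 1) * (1 / y ^ 2) := by
  have e : op n P (fun k => (k:ℝ) ^ 2 * (3 * y ^ 2 - (k:ℝ) ^ 2) / ((k:ℝ) ^ 2 + y ^ 2) ^ 3)
      = op n P (fun k => (k:ℝ) / ((k:ℝ) ^ 2 + y ^ 2)) * op n P (fun k => (k:ℝ) / ((k:ℝ) ^ 2 + y ^ 2))
        * ((4 * y) • op n P (fun k => y / ((k:ℝ) ^ 2 + y ^ 2)) - 1) := by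
    rw [← op_mul h.fam, ← op_smul, ← op_one h.fam, ← op_sub, ← op_mul h.fam]
    refine op_congr fun k => ?_
    have : (k:ℝ) ^ 2 + y ^ 2 ≠ 0 := by positivity
    field_simp
    ring
  rw [e]
  have h1 := h.res_cos y hy
  have h2 := h.res_sin y hy
  have h3 : ‖(4 * y) • op n P (fun k => y / ((k:ℝ) ^ 2 + y ^ 2)) - 1‖ ≤ 4 * (K * π) + 1 := by
    refine (norm_sub_le _ _).trans (add_le_add ?_ h.norm_one_le)
    rw [norm_smul, Real.norm_of_nonneg (by positivity)]
    calc 4 * y * ‖op n P (fun k => y / ((k:ℝ) ^ 2 + y ^ 2))‖ ≤ 4 * y * (K * (π / y)) := by gcongr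
      _ = 4 * (K * π) := by field_simp
  have hK := h.K_nonneg
  calc _ ≤ ‖op n P (fun k => (k:ℝ) / ((k:ℝ) ^ 2 + y ^ 2))‖ *
        ‖op n P (fun k => (k:ℝ) / ((k:ℝ) ^ 2 + y ^ 2))‖ *
        ‖(4 * y) • op n P (fun k => y / ((k:ℝ) ^ 2 + y ^ 2)) - 1‖ :=
        (norm_mul_le _ _).trans (mul_le_mul_of_nonneg_right (norm_mul_le _ _) (norm_nonneg _))
    _ ≤ (K * (π / y)) * (K * (π / y)) * (4 * (K * π) + 1) := by gcongr
    _ = (K * π) ^ 2 * (4 * (K * π) + 1) * (1 / y ^ 2) := by field_simp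

/-- the analyticity constant -/
noncomputable def G (K : ℝ) : ℝ := 4 / π * (I0 * ((K * π) ^ 2 * (4 * (K * π) + 1)))

omit [CompleteSpace A] in
lemma kern_abs_le (k y : ℝ) (hy : 0 < y) :
    |k ^ 2 * (3 * y ^ 2 - k ^ 2) / (k ^ 2 + y ^ 2) ^ 3| ≤ 3 * (1 / y ^ 2) := by
  rw [abs_div, abs_of_pos (by positivity : 0 < (k ^ 2 + y ^ 2) ^ 3), mul_one_div,
    div_le_div_iff₀ (by positivity) (by positivity), abs_mul, abs_of_nonneg (sq_nonneg k)]
  have h1 : |3 * y ^ 2 - k ^ 2| ≤ 3 * (k ^ 2 + y ^ 2) := by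
    rw [abs_le]; constructor <;> nlinarith [sq_nonneg k, sq_nonneg y]
  calc k ^ 2 * |3 * y ^ 2 - k ^ 2| * y ^ 2 ≤ k ^ 2 * (3 * (k ^ 2 + y ^ 2)) * y ^ 2 := by gcongr
    _ ≤ 3 * (k ^ 2 + y ^ 2) ^ 3 := by
      have : k ^ 2 * y ^ 2 ≤ (k ^ 2 + y ^ 2) ^ 2 := by nlinarith [sq_nonneg k, sq_nonneg y]
      nlinarith [mul_le_mul_of_nonneg_right this (by positivity : 0 ≤ 3 * (k ^ 2 + y ^ 2))]

/-- Analyticity: `‖t N e^{-tN}‖ ≤ G(K)`. -/
lemma Good.gen (h : Good n P K) (t : ℝ) (ht : 0 < t) :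
    ‖op n P (fun k => t * k * Real.exp (-(t * k)))‖ ≤ G K := by
  have e : op n P (fun k => t * k * Real.exp (-(t * k))) = op n P (fun k =>
      ∫ y in Ioi (0:ℝ), (4 / π) * ((1 - Real.cos (t * y)) / t) *
      ((k:ℝ) ^ 2 * (3 * y ^ 2 - (k:ℝ) ^ 2) / ((k:ℝ) ^ 2 + y ^ 2) ^ 3)) :=
    op_congr fun k => (key_identity t ht k (Nat.cast_nonneg k)).symm
  rw [e]
  set C : ℝ := (K * π) ^ 2 * (4 * (K * π) + 1) with hC
  have hcos : ∀ y, 0 ≤ (1 - Real.cos (t * y)) / t := fun y =>
    div_nonneg (by have := Real.cos_le_one (t * y); linarith) ht.le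
  have h3 := norm_op_integral_le (n := n) (P := P) (volume.restrict (Ioi 0))
    (fun y k => (4 / π) * ((1 - Real.cos (t * y)) / t) *
      ((k:ℝ) ^ 2 * (3 * y ^ 2 - (k:ℝ) ^ 2) / ((k:ℝ) ^ 2 + y ^ 2) ^ 3)) ?_
      (fun y => (4 / π * C) * ((1 - Real.cos (t * y)) / t * (1 / y ^ 2))) ?_ ?_
  · refine h3.trans (le_of_eq ?_)
    rw [integral_const_mul, scaled_integral t ht, G]
    ring
  · intro k
    have hi := (scaled_integrable t ht).const_mul (4 / π * 3)
    refine Integrable.mono' hi ?_ ?_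
    · refine ContinuousOn.aestronglyMeasurable ?_ measurableSet_Ioi
      refine ContinuousOn.mul (by fun_prop) (ContinuousOn.div (by fun_prop) (by fun_prop) ?_)
      intro x hx
      have : (0:ℝ) < x := hx
      positivity
    · refine (ae_restrict_iff' measurableSet_Ioi).2 (Eventually.of_forall fun y hy => ?_)
      have hy' : (0:ℝ) < y := hy
      rw [norm_mul, norm_mul, Real.norm_of_nonneg (hcos y),
        Real.norm_of_nonneg (by positivity : 0 ≤ 4 / π), Real.norm_eq_abs]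
      calc 4 / π * ((1 - Real.cos (t * y)) / t) *
            |(k:ℝ) ^ 2 * (3 * y ^ 2 - (k:ℝ) ^ 2) / ((k:ℝ) ^ 2 + y ^ 2) ^ 3|
          ≤ 4 / π * ((1 - Real.cos (t * y)) / t) * (3 * (1 / y ^ 2)) :=
            mul_le_mul_of_nonneg_left (kern_abs_le k y hy') (mul_nonneg (by positivity) (hcos y))
        _ = 4 / π * 3 * ((1 - Real.cos (t * y)) / t * (1 / y ^ 2)) := by ring
  · exact (scaled_integrable t ht).const_mul _
  · refine (ae_restrict_iff' measurableSet_Ioi).2 (Eventually.of_forall fun y hy => ?_)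
    have hy' : (0:ℝ) < y := hy
    have e2 : op n P (fun k => (4 / π) * ((1 - Real.cos (t * y)) / t) *
      ((k:ℝ) ^ 2 * (3 * y ^ 2 - (k:ℝ) ^ 2) / ((k:ℝ) ^ 2 + y ^ 2) ^ 3))
      = ((4 / π) * ((1 - Real.cos (t * y)) / t)) • op n P (fun k =>
      (k:ℝ) ^ 2 * (3 * y ^ 2 - (k:ℝ) ^ 2) / ((k:ℝ) ^ 2 + y ^ 2) ^ 3) := op_smul _ _
    rw [e2, norm_smul, Real.norm_of_nonneg (mul_nonneg (by positivity) (hcos y))]
    calc _ ≤ ((4 / π) * ((1 - Real.cos (t * y)) / t)) * (C * (1 / y ^ 2)) :=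
          mul_le_mul_of_nonneg_left (h.kern y hy') (mul_nonneg (by positivity) (hcos y))
      _ = _ := by ring

lemma I0_nonneg : 0 ≤ I0 := by
  refine setIntegral_nonneg measurableSet_Ioi fun v hv => ?_
  have hv' : (0:ℝ) < v := hv
  exact div_nonneg (by have := Real.cos_le_one v; linarith) (by positivity)

lemma Good.G_nonneg (h : Good n P K) : 0 ≤ G K := (norm_nonneg _).trans (h.gen 1 one_pos)

lemma Good.shift (h : Good n P K) (t : ℝ) (ht : 0 < t) :
    ‖op n P (fun k => ((k:ℝ) - 1) * Real.exp (-(t * k)))‖ ≤ G K / t + 1 := by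
  have e : op n P (fun k => ((k:ℝ) - 1) * Real.exp (-(t * k)))
      = t⁻¹ • op n P (fun k => t * k * Real.exp (-(t * k))) - op n P (fun k => Real.exp (-(t * k))) := by
    rw [← op_smul, ← op_sub]
    refine op_congr fun k => ?_
    field_simp
  rw [e]
  refine (norm_sub_le _ _).trans (add_le_add ?_ (h.contr t ht.le))
  rw [norm_smul, Real.norm_of_nonneg (by positivity), inv_mul_eq_div]
  gcongr
  exact h.gen t ht

lemma Good.shift_pow (h : Good n P K) (a : ℝ) (ha : 0 < a) (j : ℕ) :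
    ‖op n P (fun k => ((k:ℝ) - 1) ^ j * Real.exp (-(a * k)))‖ ≤ (G K * j / a + 1) ^ j := by
  rcases Nat.eq_zero_or_pos j with rfl | hj
  · simpa using h.contr a ha.le
  have e : op n P (fun k => ((k:ℝ) - 1) ^ j * Real.exp (-(a * k)))
      = op n P (fun k => ((k:ℝ) - 1) * Real.exp (-((a / j) * k))) ^ j := by
    rw [← op_pow h.fam]
    refine op_congr fun k => ?_
    rw [mul_pow, ← Real.exp_nat_mul]
    congr 2
    field_simp
  rw [e]
  refine (norm_pow_le' _ hj).trans ?_
  have := h.shift (a / j) (by positivity)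
  refine (pow_le_pow_left₀ (norm_nonneg _) this j).trans (le_of_eq ?_)
  congr 2
  field_simp

/-- `sinc` at integers. -/
lemma hasSum_sinc (k : ℕ) :
    HasSum (fun j : ℕ => (-1 : ℝ) ^ j * (π ^ (2 * j) / (2 * j + 1).factorial) * ((k:ℝ) - 1) ^ (2 * j))
      (if k = 1 then 1 else 0) := by
  rcases eq_or_ne k 1 with rfl | hk
  · simp only [Nat.cast_one, sub_self, if_true]
    have h := hasSum_single (f := fun j : ℕ => (-1 : ℝ) ^ j * (π ^ (2 * j) / (2 * j + 1).factorial)
      * (0:ℝ) ^ (2 * j)) 0 ?_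
    · simpa using h
    · intro j hj
      simp [hj]
  · simp only [hk, if_false]
    have hx : π * ((k:ℝ) - 1) ≠ 0 := by
      refine mul_ne_zero Real.pi_ne_zero (sub_ne_zero.2 ?_)
      exact_mod_cast hk
    have h := Real.hasSum_sin (π * ((k:ℝ) - 1))
    have h0 : Real.sin (π * ((k:ℝ) - 1)) = 0 := by
      have := Real.sin_int_mul_pi ((k:ℤ) - 1)
      push_cast at this
      rw [mul_comm]; exact this
    rw [h0] at h
    have h2 := h.mul_left (π * ((k:ℝ) - 1))⁻¹
    rw [mul_zero] at h2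
    have e : (fun j : ℕ => (-1 : ℝ) ^ j * (π ^ (2 * j) / (2 * j + 1).factorial) *
        ((k:ℝ) - 1) ^ (2 * j)) = fun i => (π * ((k:ℝ) - 1))⁻¹ *
        ((-1) ^ i * (π * ((k:ℝ) - 1)) ^ (2 * i + 1) / (2 * i + 1).factorial) := by
      funext j
      have hf : ((2 * j + 1).factorial : ℝ) ≠ 0 := by positivity
      have hk1 : (k:ℝ) - 1 ≠ 0 := right_ne_zero_of_mul hx
      rw [pow_succ, mul_pow]
      field_simp
    rw [e]
    exact h2

/-- the final constant -/
noncomputable def CC (K : ℝ) : ℝ :=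
  Real.exp (2 * Real.exp 1 * π * (G K + 1)) * (Real.exp (Real.exp 1 * π) * (1 - Real.exp (-1))⁻¹)

/-- **Abstract Pisier step**: the level-one projection is bounded by a constant depending only
on `K`. -/
theorem Good.level_one (h : Good n P K) :
    ‖op n P (fun k => if k = 1 then 1 else 0)‖ ≤ CC K := by
  have hG := h.G_nonneg
  set a : ℝ := 2 * Real.exp 1 * π * (G K + 1) with ha
  have ha0 : 0 < a := by positivity
  set F : ℕ → ℕ → ℝ := fun j k => (Real.exp a * ((-1 : ℝ) ^ j * (π ^ (2 * j) / (2 * j + 1).factorial)))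
    * (((k:ℝ) - 1) ^ (2 * j) * Real.exp (-(a * k))) with hFdef
  have hs : ∀ k : ℕ, HasSum (fun j => F j k) (if k = 1 then 1 else 0) := by
    intro k
    have h1 := (hasSum_sinc k).mul_left (Real.exp a * Real.exp (-(a * k)))
    have e : Real.exp a * Real.exp (-(a * k)) * (if k = 1 then 1 else 0) = if k = 1 then 1 else 0 := by
      split_ifs with hk
      · rw [hk, ← Real.exp_add]; simp
      · simp
    rw [e] at h1
    have e2 : (fun j => F j k) = fun i => Real.exp a * Real.exp (-(a * k)) *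
        ((-1) ^ i * (π ^ (2 * i) / (2 * i + 1).factorial) * ((k:ℝ) - 1) ^ (2 * i)) := by
      funext j
      simp only [hFdef]
      ring
    rw [e2]
    exact h1
  have hop : HasSum (fun j => op n P (F j)) (op n P (fun k => if k = 1 then 1 else 0)) := by
    unfold op
    exact hasSum_sum fun k _ => (hs k).smul_const _
  have hr : HasSum (fun j : ℕ => Real.exp a * (Real.exp (Real.exp 1 * π) * Real.exp (-1) ^ j)) (CC K) := by
    unfold CC
    exact ((hasSum_geometric_of_lt_one (Real.exp_pos _).le (Real.exp_lt_one_iff.2 (by norm_num))).mul_left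
      _).mul_left _
  refine HasSum.norm_le_of_bounded hop hr fun j => ?_
  have e1 : op n P (F j) = (Real.exp a * ((-1 : ℝ) ^ j * (π ^ (2 * j) / (2 * j + 1).factorial))) •
      op n P (fun k => ((k:ℝ) - 1) ^ (2 * j) * Real.exp (-(a * k))) := op_smul _ _
  rw [e1, norm_smul, norm_mul, norm_mul, norm_pow, norm_neg, norm_one, one_pow, one_mul,
    Real.norm_of_nonneg (Real.exp_pos _).le, Real.norm_of_nonneg (by positivity), mul_assoc]
  refine mul_le_mul_of_nonneg_left ?_ (Real.exp_pos _).le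
  have h2 := h.shift_pow a ha0 (2 * j)
  calc π ^ (2 * j) / (2 * j + 1).factorial *
        ‖op n P (fun k => ((k:ℝ) - 1) ^ (2 * j) * Real.exp (-(a * k)))‖
      ≤ π ^ (2 * j) / (2 * j).factorial * (G K * (2 * j : ℕ) / a + 1) ^ (2 * j) := by
        gcongr
        omega
    _ = (π * (G K * (2 * j : ℕ) / a + 1)) ^ (2 * j) / (2 * j).factorial := by
        rw [mul_pow]; ring
    _ ≤ Real.exp (Real.exp 1 * π) * Real.exp (-1) ^ j := by
        set x := π * (G K * (2 * j : ℕ) / a + 1) with hx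
        have hx0 : 0 ≤ x := by positivity
        have h3 := Real.pow_div_factorial_le_exp (Real.exp 1 * x) (by positivity) (2 * j)
        have h4 : Real.exp 1 * x ≤ Real.exp 1 * π + j := by
          rw [hx, ha]
          push_cast
          have hG1 : 0 < G K + 1 := by linarith
          have he : (0:ℝ) < Real.exp 1 := Real.exp_pos _
          have : Real.exp 1 * (π * (G K * (2 * j) / (2 * Real.exp 1 * π * (G K + 1)) + 1))
              = Real.exp 1 * π + (G K / (G K + 1)) * j := by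
            field_simp
            ring
          rw [this]
          have : G K / (G K + 1) ≤ 1 := by rw [div_le_one hG1]; linarith
          nlinarith [(Nat.cast_nonneg j : (0:ℝ) ≤ j)]
        rw [mul_pow, ← Real.exp_nat_mul] at h3
        have h5 : x ^ (2 * j) / (2 * j).factorial ≤
            Real.exp (-((2 * j : ℕ) * 1)) * Real.exp (Real.exp 1 * x) := by
          have h6 : x ^ (2 * j) / (2 * j).factorial = Real.exp (-((2 * j : ℕ) * 1)) *
              (Real.exp ((2 * j : ℕ) * 1) * x ^ (2 * j) / (2 * j).factorial) := by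
            rw [mul_div_assoc, ← mul_assoc, ← Real.exp_add]; simp
          rw [h6]
          exact mul_le_mul_of_nonneg_left h3 (Real.exp_pos _).le
        refine h5.trans ?_
        rw [← Real.exp_nat_mul, ← Real.exp_add, ← Real.exp_add]
        refine Real.exp_le_exp.2 ?_
        push_cast
        linarith

end main

end Crest.Agent.R118.PisierAbs362
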