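import Mathlib
import Crest.Prelude.Def_Rademacher
import Crest.Agent.R118.PisierAbs_362

set_option autoImplicit false

/-! Row 118 (S0158): Walsh multipliers on `L_2({±1}^s; X)` and the Pisier theorem:
if some sign matrix has a gain on `X` then `X` is K-convex. -/

namespace Crest.Agent.R118.PisierCube362

open Finset
open Crest.AnalysisR
open Crest.Agent.R118.PisierAbs362

/-! ### Walsh functions -/

lemma signVal_mul_self (b : Bool) : signVal b * signVal b = 1 := by
  cases b <;> simp [signVal]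

lemma signVal_abs (b : Bool) : |signVal b| = 1 := by
  cases b <;> simp [signVal]

variable {s : ℕ}

/-- Walsh function -/
noncomputable def w (B : Finset (Fin s)) (ε : Fin s → Bool) : ℝ := ∏ i ∈ B, signVal (ε i)

lemma sum_prod_signVal (g : Fin s → Bool → ℝ) :
    ∑ ε : Fin s → Bool, ∏ i, g i (ε i) = ∏ i, (g i true + g i false) := by
  rw [← Fintype.piFinset_univ, ← Finset.prod_univ_sum]
  simp

lemma sum_finset_prod (a b : Fin s → ℝ) :
    ∑ B : Finset (Fin s), (∏ i ∈ B, a i) * ∏ i ∈ univ \ B, b i = ∏ i, (a i + b i) := by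
  rw [Finset.prod_add, ← Finset.powerset_univ]

lemma sum_w_mul_w (B C : Finset (Fin s)) :
    ∑ ε : Fin s → Bool, w B ε * w C ε = if B = C then (2 : ℝ) ^ s else 0 := by
  have h : ∀ ε : Fin s → Bool, w B ε * w C ε = ∏ i, ((if i ∈ B then signVal (ε i) else 1) *
      (if i ∈ C then signVal (ε i) else 1)) := by
    intro ε
    rw [Finset.prod_mul_distrib, Finset.prod_ite_mem, Finset.prod_ite_mem, univ_inter, univ_inter]
    rfl
  simp_rw [h]
  rw [sum_prod_signVal (fun i b => (if i ∈ B then signVal b else 1) *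
      (if i ∈ C then signVal b else 1))]
  split_ifs with hBC
  · subst hBC
    have : ∀ i : Fin s, (((if i ∈ B then signVal true else 1) * (if i ∈ B then signVal true else 1) : ℝ)
      + (if i ∈ B then signVal false else 1) * (if i ∈ B then signVal false else 1)) = 2 := by
      intro i
      split_ifs <;> norm_num [signVal]
    rw [Finset.prod_congr rfl fun i _ => this i]
    simp
  · have : ∃ i, ¬ (i ∈ B ↔ i ∈ C) := by
      by_contra hcon
      push Not at hcon
      exact hBC (Finset.ext hcon)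
    obtain ⟨i, hi⟩ := this
    refine Finset.prod_eq_zero (mem_univ i) ?_
    by_cases h1 : i ∈ B <;> by_cases h2 : i ∈ C <;> simp_all [signVal]

lemma sum_w_w (ε η : Fin s → Bool) :
    ∑ B : Finset (Fin s), w B ε * w B η = if ε = η then (2 : ℝ) ^ s else 0 := by
  have h : ∀ B : Finset (Fin s), w B ε * w B η =
      (∏ i ∈ B, signVal (ε i) * signVal (η i)) * ∏ i ∈ univ \ B, (1 : ℝ) := by
    intro B
    simp [w, Finset.prod_mul_distrib]
  simp_rw [h]
  rw [sum_finset_prod]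
  split_ifs with he
  · subst he
    simp_rw [signVal_mul_self]
    norm_num
  · have : ∃ i, ε i ≠ η i := by
      by_contra hcon
      push Not at hcon
      exact he (funext hcon)
    obtain ⟨i, hi⟩ := this
    refine Finset.prod_eq_zero (mem_univ i) ?_
    cases h1 : ε i <;> cases h2 : η i <;> simp_all [signVal]

/-! ### kernel operators -/

variable {X : Type*} [NormedAddCommGroup X] [NormedSpace ℝ X]

/-- `L_2` of the cube (unnormalised) -/
abbrev Z (s : ℕ) (X : Type*) [NormedAddCommGroup X] := PiLp 2 (fun _ : Fin s → Bool => X)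

/-- operator with kernel `k` -/
noncomputable def opK (k : (Fin s → Bool) → (Fin s → Bool) → ℝ) : Z s X →L[ℝ] Z s X :=
  (PiLp.continuousLinearEquiv 2 ℝ (fun _ : Fin s → Bool => X)).symm.toContinuousLinearMap ∘L
    (ContinuousLinearMap.pi fun ε => ∑ η, k ε η •
      (ContinuousLinearMap.proj η : ((Fin s → Bool) → X) →L[ℝ] X)) ∘L
    (PiLp.continuousLinearEquiv 2 ℝ (fun _ : Fin s → Bool => X)).toContinuousLinearMap

lemma opK_apply (k : (Fin s → Bool) → (Fin s → Bool) → ℝ) (f : Z s X) (ε : Fin s → Bool) :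
    (opK k f) ε = ∑ η, k ε η • f η := by
  simp [opK]

omit [NormedSpace ℝ X] in
lemma norm_sq_Z (f : Z s X) : ‖f‖ ^ 2 = ∑ ε, ‖f ε‖ ^ 2 := PiLp.norm_sq_eq_of_L2 _ _

/-- Schur test with constant 1 -/
lemma norm_opK_le_one (k : (Fin s → Bool) → (Fin s → Bool) → ℝ) (h0 : ∀ ε η, 0 ≤ k ε η)
    (h1 : ∀ ε, ∑ η, k ε η ≤ 1) (h2 : ∀ η, ∑ ε, k ε η ≤ 1) :
    ‖(opK k : Z s X →L[ℝ] Z s X)‖ ≤ 1 := by
  refine ContinuousLinearMap.opNorm_le_bound _ zero_le_one fun f => ?_
  rw [one_mul]
  refine (pow_le_pow_iff_left₀ (norm_nonneg _) (norm_nonneg _) two_ne_zero).1 ?_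
  rw [norm_sq_Z, norm_sq_Z]
  have hrow : ∀ ε, ‖(opK k f) ε‖ ^ 2 ≤ ∑ η, k ε η * ‖f η‖ ^ 2 := by
    intro ε
    rw [opK_apply]
    have a1 : ‖∑ η, k ε η • f η‖ ≤ ∑ η, k ε η * ‖f η‖ := by
      refine (norm_sum_le _ _).trans (le_of_eq ?_)
      refine Finset.sum_congr rfl fun η _ => ?_
      rw [norm_smul, Real.norm_of_nonneg (h0 ε η)]
    have a2 : (∑ η, k ε η * ‖f η‖) ^ 2 ≤ (∑ η, k ε η) * ∑ η, k ε η * ‖f η‖ ^ 2 := by
      refine Finset.sum_sq_le_sum_mul_sum_of_sq_le_mul _ (fun η _ => h0 ε η)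
        (fun η _ => mul_nonneg (h0 ε η) (sq_nonneg _)) (fun η _ => le_of_eq ?_)
      ring
    calc ‖∑ η, k ε η • f η‖ ^ 2 ≤ (∑ η, k ε η * ‖f η‖) ^ 2 :=
          pow_le_pow_left₀ (norm_nonneg _) a1 2
      _ ≤ (∑ η, k ε η) * ∑ η, k ε η * ‖f η‖ ^ 2 := a2
      _ ≤ 1 * ∑ η, k ε η * ‖f η‖ ^ 2 := by
          refine mul_le_mul_of_nonneg_right (h1 ε) ?_
          exact Finset.sum_nonneg fun η _ => mul_nonneg (h0 ε η) (sq_nonneg _)
      _ = _ := one_mul _
  calc ∑ ε, ‖(opK k f) ε‖ ^ 2 ≤ ∑ ε, ∑ η, k ε η * ‖f η‖ ^ 2 := Finset.sum_le_sum fun ε _ => hrow ε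
    _ = ∑ η, (∑ ε, k ε η) * ‖f η‖ ^ 2 := by
        rw [Finset.sum_comm]
        exact Finset.sum_congr rfl fun η _ => (Finset.sum_mul _ _ _).symm
    _ ≤ ∑ η, ‖f η‖ ^ 2 := by
        refine Finset.sum_le_sum fun η _ => ?_
        exact mul_le_of_le_one_left (sq_nonneg _) (h2 η)

/-! ### Walsh multipliers -/

/-- Walsh multiplier with symbol `m` -/
noncomputable def M (m : Finset (Fin s) → ℝ) : Z s X →L[ℝ] Z s X :=
  opK fun ε η => ((2 : ℝ) ^ s)⁻¹ * ∑ B : Finset (Fin s), m B * (w B ε * w B η)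

lemma opK_ext {k k' : (Fin s → Bool) → (Fin s → Bool) → ℝ} (h : ∀ ε η, k ε η = k' ε η) :
    (opK k : Z s X →L[ℝ] Z s X) = opK k' := by
  have : k = k' := by funext ε η; exact h ε η
  rw [this]

omit [NormedSpace ℝ X] in
lemma Z_ext {f g : Z s X} (h : ∀ ε, f ε = g ε) : f = g := by
  ext ε; exact h ε

lemma opK_add (k k' : (Fin s → Bool) → (Fin s → Bool) → ℝ) :
    (opK (fun ε η => k ε η + k' ε η) : Z s X →L[ℝ] Z s X) = opK k + opK k' := by
  ext1 f
  refine Z_ext fun ε => ?_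
  rw [add_apply, PiLp.add_apply, opK_apply, opK_apply, opK_apply,
    ← Finset.sum_add_distrib]
  simp_rw [add_smul]

lemma opK_smul (c : ℝ) (k : (Fin s → Bool) → (Fin s → Bool) → ℝ) :
    (opK (fun ε η => c * k ε η) : Z s X →L[ℝ] Z s X) = c • opK k := by
  ext1 f
  refine Z_ext fun ε => ?_
  rw [smul_apply, PiLp.smul_apply, opK_apply, opK_apply, Finset.smul_sum]
  simp_rw [mul_smul]

lemma opK_mul (k k' : (Fin s → Bool) → (Fin s → Bool) → ℝ) :
    (opK (fun ε η => ∑ ζ, k ε ζ * k' ζ η) : Z s X →L[ℝ] Z s X) = opK k * opK k' := by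
  ext1 f
  refine Z_ext fun ε => ?_
  rw [mul_apply_eq_comp, opK_apply, opK_apply]
  simp_rw [opK_apply, Finset.smul_sum, Finset.sum_smul, mul_smul]
  rw [Finset.sum_comm]

lemma M_add (m m' : Finset (Fin s) → ℝ) :
    (M (fun B => m B + m' B) : Z s X →L[ℝ] Z s X) = M m + M m' := by
  unfold M
  rw [← opK_add]
  refine opK_ext fun ε η => ?_
  rw [← mul_add, ← Finset.sum_add_distrib]
  simp_rw [add_mul]

lemma M_smul (c : ℝ) (m : Finset (Fin s) → ℝ) :
    (M (fun B => c * m B) : Z s X →L[ℝ] Z s X) = c • M m := by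
  unfold M
  rw [← opK_smul]
  refine opK_ext fun ε η => ?_
  have e : ∑ B : Finset (Fin s), (c * m B) * (w B ε * w B η)
      = c * ∑ B : Finset (Fin s), m B * (w B ε * w B η) := by
    rw [Finset.mul_sum]
    exact Finset.sum_congr rfl fun B _ => mul_assoc _ _ _
  rw [e]
  ring

lemma M_congr {m m' : Finset (Fin s) → ℝ} (h : ∀ B, m B = m' B) :
    (M m : Z s X →L[ℝ] Z s X) = M m' := by
  have : m = m' := funext h
  rw [this]

lemma M_zero : (M (fun _ => 0) : Z s X →L[ℝ] Z s X) = 0 := by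
  ext1 f
  refine Z_ext fun ε => ?_
  rw [M, opK_apply]
  simp

lemma M_sum {ι : Type*} (t : Finset ι) (c : ι → ℝ) (m : ι → Finset (Fin s) → ℝ) :
    (M (fun B => ∑ i ∈ t, c i * m i B) : Z s X →L[ℝ] Z s X) = ∑ i ∈ t, c i • M (m i) := by
  classical
  induction t using Finset.induction_on with
  | empty => simpa using M_zero
  | insert i t hi ih =>
    rw [Finset.sum_insert hi, ← ih, ← M_smul, ← M_add]
    refine M_congr fun B => ?_
    rw [Finset.sum_insert hi]

lemma M_one : (M (fun _ => 1) : Z s X →L[ℝ] Z s X) = 1 := by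
  ext1 f
  refine Z_ext fun ε => ?_
  rw [M, opK_apply]
  simp_rw [one_mul, sum_w_w]
  rw [Finset.sum_eq_single ε]
  · simp
  · intro η _ hη
    rw [if_neg (Ne.symm hη)]; simp
  · intro h; exact absurd (mem_univ _) h

lemma M_mul (m m' : Finset (Fin s) → ℝ) :
    (M (fun B => m B * m' B) : Z s X →L[ℝ] Z s X) = M m * M m' := by
  unfold M
  rw [← opK_mul]
  refine opK_ext fun ε η => ?_
  have e : ∀ ζ : Fin s → Bool, (((2 : ℝ) ^ s)⁻¹ * ∑ B : Finset (Fin s), m B * (w B ε * w B ζ)) *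
      (((2 : ℝ) ^ s)⁻¹ * ∑ C : Finset (Fin s), m' C * (w C ζ * w C η)) =
      (((2 : ℝ) ^ s)⁻¹) ^ 2 * ∑ B : Finset (Fin s), ∑ C : Finset (Fin s),
        (m B * m' C * w B ε * w C η) * (w B ζ * w C ζ) := by
    intro ζ
    rw [mul_mul_mul_comm, ← pow_two, Finset.sum_mul_sum]
    congr 1
    refine Finset.sum_congr rfl fun B _ => Finset.sum_congr rfl fun C _ => ?_
    ring
  simp_rw [e]
  rw [← Finset.mul_sum, Finset.sum_comm]
  have e2 : ∀ B : Finset (Fin s), ∑ ζ : Fin s → Bool, ∑ C : Finset (Fin s),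
        (m B * m' C * w B ε * w C η) * (w B ζ * w C ζ) = 2 ^ s * (m B * m' B * (w B ε * w B η)) := by
    intro B
    rw [Finset.sum_comm]
    simp_rw [← Finset.mul_sum, sum_w_mul_w]
    rw [Finset.sum_eq_single B]
    · rw [if_pos rfl]; ring
    · intro C _ hC
      rw [if_neg (Ne.symm hC), mul_zero]
    · intro h; exact absurd (mem_univ _) h
  simp_rw [e2]
  rw [← Finset.mul_sum, ← mul_assoc]
  congr 1
  have : (2 : ℝ) ^ s ≠ 0 := by positivity
  field_simp

/-- product symbols with factors in `[-1, 1]` are contractions -/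
lemma norm_M_prod_le_one (θ : Fin s → ℝ) (h : ∀ i, |θ i| ≤ 1) :
    ‖(M (fun B => ∏ i ∈ B, θ i) : Z s X →L[ℝ] Z s X)‖ ≤ 1 := by
  have e : ∀ ε η : Fin s → Bool, ((2 : ℝ) ^ s)⁻¹ * ∑ B : Finset (Fin s), (∏ i ∈ B, θ i) *
      (w B ε * w B η) = ∏ i, ((1 + θ i * signVal (ε i) * signVal (η i)) / 2) := by
    intro ε η
    have e1 : ∀ B : Finset (Fin s), (∏ i ∈ B, θ i) * (w B ε * w B η) =
        (∏ i ∈ B, θ i * signVal (ε i) * signVal (η i)) * ∏ i ∈ univ \ B, (1 : ℝ) := by
      intro B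
      simp [w, Finset.prod_mul_distrib, mul_assoc]
    simp_rw [e1]
    rw [sum_finset_prod, Finset.prod_div_distrib]
    simp only [prod_const, card_univ, Fintype.card_fin]
    rw [div_eq_inv_mul]
    congr 1
    exact Finset.prod_congr rfl fun i _ => add_comm _ _
  have hb : ∀ (i : Fin s) (a b : Bool), |θ i * signVal a * signVal b| ≤ 1 := by
    intro i a b
    rw [abs_mul, abs_mul, signVal_abs, signVal_abs, mul_one, mul_one]
    exact h i
  refine norm_opK_le_one _ ?_ ?_ ?_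
  · intro ε η
    rw [e]
    refine Finset.prod_nonneg fun i _ => ?_
    have := (abs_le.1 (hb i (ε i) (η i))).1
    linarith
  · intro ε
    simp_rw [e]
    rw [sum_prod_signVal (fun i b => (1 + θ i * signVal (ε i) * signVal b) / 2)]
    refine (Finset.prod_eq_one fun i _ => ?_).le
    simp [signVal]
    ring
  · intro η
    simp_rw [e]
    rw [sum_prod_signVal (fun i b => (1 + θ i * signVal b * signVal (η i)) / 2)]
    refine (Finset.prod_eq_one fun i _ => ?_).le
    have h1 : signVal true = 1 := rfl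
    have h2 : signVal false = -1 := rfl
    rw [h1, h2]
    ring

/-! ### levels -/

/-- level projections -/
noncomputable def P (s : ℕ) (X : Type*) [NormedAddCommGroup X] [NormedSpace ℝ X] (k : ℕ) :
    Z s X →L[ℝ] Z s X := M (fun B => if B.card = k then 1 else 0)

lemma op_P (m : ℕ → ℝ) : op s (P s X) m = M (fun B => m B.card) := by
  unfold op P
  rw [← M_sum (Finset.range (s + 1)) m (fun k B => if B.card = k then 1 else 0)]
  refine M_congr fun B => ?_
  have hB : B.card ∈ Finset.range (s + 1) := by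
    rw [Finset.mem_range]
    have := Finset.card_le_univ B
    rw [Fintype.card_fin] at this
    omega
  simp only [mul_ite, mul_one, mul_zero]
  rw [Finset.sum_ite_eq, if_pos hB]

lemma P_fam : Fam s (P s X) where
  idem i := by
    unfold P
    rw [← M_mul]
    refine M_congr fun B => ?_
    split_ifs <;> simp
  orth i j hij := by
    unfold P
    rw [← M_mul, ← M_zero]
    refine M_congr fun B => ?_
    split_ifs with h1 h2
    · exact absurd (h1.symm.trans h2) hij
    all_goals simp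
  one := by
    have h := op_P (s := s) (X := X) (fun _ => 1)
    rw [M_one] at h
    simpa [op] using h

lemma contr (t : ℝ) (ht : 0 ≤ t) : ‖op s (P s X) (fun k => Real.exp (-(t * k)))‖ ≤ 1 := by
  rw [op_P]
  have e : (M (fun B => Real.exp (-(t * (B.card : ℕ)))) : Z s X →L[ℝ] Z s X)
      = M (fun B => ∏ i ∈ B, (fun _ : Fin s => Real.exp (-t)) i) := by
    refine M_congr fun B => ?_
    rw [Finset.prod_const, ← Real.exp_nat_mul]
    congr 1
    ring
  rw [e]
  refine norm_M_prod_le_one _ fun i => ?_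
  rw [abs_of_pos (Real.exp_pos _)]
  exact Real.exp_le_one_iff.2 (by linarith)

/-! ### sign matrices with a gain -/

/-- the sign matrix `u` has gain `c` on `X` -/
def SignGain (X : Type*) [NormedAddCommGroup X] [NormedSpace ℝ X] {I I' : Type*} [Fintype I]
    [Fintype I'] (u : I → I' → ℝ) (c : ℝ) : Prop :=
  ∀ f : I → X, ∑ ξ, ‖∑ x, u x ξ • f x‖ ^ 2 ≤
    c ^ 2 * Fintype.card I * Fintype.card I' * ∑ x, ‖f x‖ ^ 2

variable {I I' : Type*} [Fintype I] [Fintype I']

lemma gain_Z {u : I → I' → ℝ} {c : ℝ} (h : SignGain X u c) : SignGain (Z s X) u c := by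
  intro f
  simp_rw [norm_sq_Z]
  rw [Finset.sum_comm, Finset.sum_comm (s := (univ : Finset I)), Finset.mul_sum]
  refine Finset.sum_le_sum fun ε _ => ?_
  have e : ∀ ξ, (∑ x, u x ξ • f x) ε = ∑ x, u x ξ • (f x ε) := by
    intro ξ
    simp
  simp_rw [e]
  exact h fun x => f x ε

/-- indicator symbol of a conditional expectation -/
noncomputable def eA (A B : Finset (Fin s)) : ℝ := ∏ i ∈ B, if i ∈ A then 0 else 1

lemma eA_eq (A B : Finset (Fin s)) : eA A B = 0 ∨ eA A B = 1 := by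
  unfold eA
  by_cases h : ∃ i ∈ B, i ∈ A
  · obtain ⟨i, hi, hA⟩ := h
    left
    exact Finset.prod_eq_zero hi (if_pos hA)
  · right
    push Not at h
    exact Finset.prod_eq_one fun i hi => if_neg (h i hi)

lemma eA_mul_self (A B : Finset (Fin s)) : eA A B * eA A B = eA A B := by
  rcases eA_eq A B with h | h <;> simp [h]

section key
variable {J : Type*} [DecidableEq J] (α : J → Finset (Fin s))

/-- symbol of a product of conditional expectations -/
noncomputable def mS (S : Finset J) (B : Finset (Fin s)) : ℝ := ∏ j ∈ S, eA (α j) B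

lemma mS_mul (S T : Finset J) (B : Finset (Fin s)) : mS α S B * mS α T B = mS α (S ∪ T) B := by
  unfold mS
  have h1 : ∏ j ∈ S ∪ T, eA (α j) B = (∏ j ∈ S, eA (α j) B) * ∏ j ∈ T \ S, eA (α j) B := by
    rw [← Finset.prod_union Finset.disjoint_sdiff, Finset.union_sdiff_self_eq_union]
  rw [h1, ← Finset.prod_sdiff (Finset.inter_subset_left (s₁ := T) (s₂ := S)),
    Finset.sdiff_inter_self_left]
  have h2 : (∏ j ∈ S, eA (α j) B) * ∏ j ∈ T ∩ S, eA (α j) B = ∏ j ∈ S, eA (α j) B := by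
    rw [Finset.inter_comm, ← Finset.prod_sdiff (Finset.inter_subset_left (s₁ := S) (s₂ := T)), mul_assoc,
      ← Finset.prod_mul_distrib]
    congr 1
    exact Finset.prod_congr rfl fun j _ => eA_mul_self _ _
  calc _ = ((∏ j ∈ S, eA (α j) B) * ∏ j ∈ T ∩ S, eA (α j) B) * ∏ j ∈ T \ S, eA (α j) B := by ring
    _ = _ := by rw [h2]

omit [DecidableEq J] in
lemma norm_mS_le (S : Finset J) : ‖(M (mS α S) : Z s X →L[ℝ] Z s X)‖ ≤ 1 := by
  have e : (M (mS α S) : Z s X →L[ℝ] Z s X) =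
      M (fun B => ∏ i ∈ B, (fun i => ∏ j ∈ S, if i ∈ α j then (0:ℝ) else 1) i) := by
    refine M_congr fun B => ?_
    unfold mS eA
    exact Finset.prod_comm
  rw [e]
  refine norm_M_prod_le_one _ fun i => ?_
  rw [Finset.abs_prod]
  refine Finset.prod_le_one (fun j _ => abs_nonneg _) fun j _ => ?_
  split_ifs <;> simp

omit [DecidableEq J] in
lemma M_prod_one_sub [Fintype J] :
    (M (fun B => ∏ j, (1 - eA (α j) B)) : Z s X →L[ℝ] Z s X) =
      ∑ S : Finset J, ((-1 : ℝ) ^ S.card) • M (mS α S) := by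
  rw [← M_sum]
  refine M_congr fun B => ?_
  simp_rw [sub_eq_add_neg]
  rw [Finset.prod_one_add, ← Finset.powerset_univ]
  refine Finset.sum_congr rfl fun S _ => ?_
  rw [Finset.prod_neg]
  rfl

end key

/-- **Pisier's lemma**: products of `I - P_j` have norm at most `2^N - δ`. -/
lemma norm_prod_le [DecidableEq I] [Nonempty I'] {u : I → I' → ℝ}
    (hu : ∀ x ξ, u x ξ = 1 ∨ u x ξ = -1) {c : ℝ} (hc : 0 ≤ c) (h : SignGain X u c)
    (α : I × Bool → Finset (Fin s)) :
    ‖(M (fun B => ∏ j, (1 - eA (α j) B)) : Z s X →L[ℝ] Z s X)‖ ≤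
      2 ^ (2 * Fintype.card I) - (1 - c) * Fintype.card I := by
  classical
  set n := Fintype.card I with hn
  have hcard : (Finset.univ : Finset (Finset (I × Bool))).card = 2 ^ (2 * n) := by
    rw [Finset.card_univ, Fintype.card_finset, Fintype.card_prod, Fintype.card_bool, mul_comm]
  have h2n : (n : ℝ) ≤ 2 ^ (2 * n) := by
    have h3 : n < 2 ^ n := Nat.lt_two_pow_self
    have h4 : 2 ^ n ≤ 2 ^ (2 * n) := Nat.pow_le_pow_right (by norm_num) (by omega)
    exact_mod_cast (h3.le.trans h4)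
  refine ContinuousLinearMap.opNorm_le_bound _ ?_ fun f => ?_
  · have : (0:ℝ) ≤ c * n := by positivity
    nlinarith
  set F : Finset (I × Bool) → Z s X := fun S => M (mS α S) f with hF
  have hFn : ∀ S, ‖F S‖ ≤ ‖f‖ := fun S => by
    have := ContinuousLinearMap.le_of_opNorm_le _ (norm_mS_le (X := X) α S) f
    simpa using this
  set g : Z s X := M (fun B => ∏ j, (1 - eA (α j) B)) f with hg
  have hgsum : g = ∑ S : Finset (I × Bool), ((-1 : ℝ) ^ S.card) • F S := by
    rw [hg, M_prod_one_sub]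
    simp [hF]
  -- the sets
  set Sx : I → Finset (I × Bool) := fun x => univ \ {(x, false), (x, true)} with hSx
  set Bx : I' → Finset (I × Bool) := fun ξ => univ.filter fun p => p.2 = false ∧ u p.1 ξ = -1 with hBx
  have hU : ∀ ξ x p, p ∈ Bx ξ ∪ Sx x ↔ (p.1 ≠ x ∨ (p.2 = false ∧ u x ξ = -1)) := by
    intro ξ x p
    obtain ⟨y, b⟩ := p
    simp only [hBx, hSx, mem_union, mem_filter, mem_univ, true_and, mem_sdiff, mem_insert,
      mem_singleton, Prod.mk.injEq, not_or, not_and]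
    by_cases hy : y = x
    · subst hy
      cases b <;> simp
    · simp [hy]
  have hinj : ∀ ξ, Function.Injective fun x => Bx ξ ∪ Sx x := by
    intro ξ x y hxy
    by_contra hne
    have h1 : ((x, true) : I × Bool) ∈ Bx ξ ∪ Sx y := (hU ξ y _).2 (Or.inl hne)
    have h2 : ((x, true) : I × Bool) ∉ Bx ξ ∪ Sx x := by
      rw [hU]; simp
    simp only at hxy
    rw [hxy] at h2
    exact h2 h1
  have hsign : ∀ ξ x, (-1 : ℝ) ^ (Bx ξ ∪ Sx x).card = u x ξ := by
    intro ξ x
    have hc1 : (Bx ξ ∪ Sx x).card + (univ \ (Bx ξ ∪ Sx x)).card = 2 * n := by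
      rw [add_comm, Finset.card_sdiff_add_card_eq_card (subset_univ _), Finset.card_univ,
        Fintype.card_prod, Fintype.card_bool, mul_comm]
    rcases hu x ξ with h1 | h1
    · have h2 : univ \ (Bx ξ ∪ Sx x) = {(x, false), (x, true)} := by
        ext ⟨y, b⟩
        rw [mem_sdiff, hU]
        simp only [mem_univ, true_and, not_or, not_not, not_and, mem_insert, mem_singleton,
          Prod.mk.injEq, h1]
        cases b <;> norm_num
      rw [h2, Finset.card_pair (by simp)] at hc1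
      have h3 : Even (Bx ξ ∪ Sx x).card := ⟨n - 1, by omega⟩
      rw [h3.neg_one_pow, h1]
    · have h2 : univ \ (Bx ξ ∪ Sx x) = {(x, true)} := by
        ext ⟨y, b⟩
        rw [mem_sdiff, hU]
        simp only [mem_univ, true_and, not_or, not_not, not_and, mem_singleton,
          Prod.mk.injEq, h1]
        cases b <;> simp
      rw [h2, Finset.card_singleton] at hc1
      have h3 : Odd (Bx ξ ∪ Sx x).card := ⟨n - 1, by omega⟩
      rw [h3.neg_one_pow, h1]
  -- lower bound for each ξ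
  have hlow : ∀ ξ, ‖g‖ - (2 ^ (2 * n) - n) * ‖f‖ ≤ ‖∑ x, u x ξ • F (Sx x)‖ := by
    intro ξ
    have e1 : M (mS α (Bx ξ)) (∑ x, u x ξ • F (Sx x)) = ∑ x, u x ξ • F (Bx ξ ∪ Sx x) := by
      rw [map_sum]
      refine Finset.sum_congr rfl fun x _ => ?_
      rw [map_smul, hF]
      simp only
      rw [← mul_apply_eq_comp, ← M_mul]
      congr 3
      funext B
      exact mS_mul α _ _ B
    have e2 : ‖M (mS α (Bx ξ)) (∑ x, u x ξ • F (Sx x))‖ ≤ ‖∑ x, u x ξ • F (Sx x)‖ := by
      have := ContinuousLinearMap.le_of_opNorm_le _ (norm_mS_le (X := X) α (Bx ξ))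
        (∑ x, u x ξ • F (Sx x))
      simpa using this
    have e3 : g = ∑ x, u x ξ • F (Bx ξ ∪ Sx x) +
        ∑ S ∈ univ \ (univ.image fun x => Bx ξ ∪ Sx x), ((-1 : ℝ) ^ S.card) • F S := by
      rw [hgsum, ← Finset.sum_sdiff (Finset.subset_univ (univ.image fun x => Bx ξ ∪ Sx x)), add_comm]
      congr 1
      rw [Finset.sum_image fun x _ y _ hxy => hinj ξ hxy]
      refine Finset.sum_congr rfl fun x _ => ?_
      rw [hsign]
    have e4 : ‖∑ S ∈ univ \ (univ.image fun x => Bx ξ ∪ Sx x), ((-1 : ℝ) ^ S.card) • F S‖ ≤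
        (2 ^ (2 * n) - n) * ‖f‖ := by
      refine (norm_sum_le _ _).trans ?_
      have e5 : ∀ S ∈ univ \ (univ.image fun x => Bx ξ ∪ Sx x), ‖((-1 : ℝ) ^ S.card) • F S‖ ≤ ‖f‖ := by
        intro S _
        rw [norm_smul, norm_pow, norm_neg, norm_one, one_pow, one_mul]
        exact hFn S
      refine (Finset.sum_le_sum e5).trans (le_of_eq ?_)
      rw [Finset.sum_const, nsmul_eq_mul]
      congr 1
      have h5 : (univ \ (univ.image fun x => Bx ξ ∪ Sx x)).card +
          (univ.image fun x => Bx ξ ∪ Sx x).card = 2 ^ (2 * n) := by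
        rw [Finset.card_sdiff_add_card_eq_card (subset_univ _), hcard]
      rw [Finset.card_image_of_injective _ (hinj ξ), Finset.card_univ, ← hn] at h5
      have h6 : ((univ \ (univ.image fun x => Bx ξ ∪ Sx x)).card : ℝ) + n = 2 ^ (2 * n) := by
        exact_mod_cast h5
      linarith
    have e6 : ‖g‖ ≤ ‖∑ x, u x ξ • F (Bx ξ ∪ Sx x)‖ + (2 ^ (2 * n) - n) * ‖f‖ := by
      have e7 := norm_add_le (∑ x, u x ξ • F (Bx ξ ∪ Sx x))
        (∑ S ∈ univ \ (univ.image fun x => Bx ξ ∪ Sx x), ((-1 : ℝ) ^ S.card) • F S)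
      rw [← e3] at e7
      linarith
    rw [← e1] at e6
    linarith
  -- conclusion
  have hup := gain_Z (s := s) h (fun x => F (Sx x))
  have hup2 : ∑ ξ, ‖∑ x, u x ξ • F (Sx x)‖ ^ 2 ≤ Fintype.card I' * (c * n * ‖f‖) ^ 2 := by
    refine hup.trans ?_
    have h7 : ∑ x, ‖F (Sx x)‖ ^ 2 ≤ n * ‖f‖ ^ 2 := by
      calc ∑ x, ‖F (Sx x)‖ ^ 2 ≤ ∑ _x : I, ‖f‖ ^ 2 :=
            Finset.sum_le_sum fun x _ => pow_le_pow_left₀ (norm_nonneg _) (hFn _) 2
        _ = n * ‖f‖ ^ 2 := by simp [hn]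
    calc c ^ 2 * n * Fintype.card I' * ∑ x, ‖F (Sx x)‖ ^ 2 ≤ c ^ 2 * n * Fintype.card I' * (n * ‖f‖ ^ 2) := by
          gcongr
      _ = _ := by ring
  have hfin : ‖g‖ - (2 ^ (2 * n) - n) * ‖f‖ ≤ c * n * ‖f‖ := by
    by_contra hcon
    push Not at hcon
    have hpos : 0 ≤ c * n * ‖f‖ := by positivity
    have h8 : ∀ ξ, (c * n * ‖f‖) ^ 2 < ‖∑ x, u x ξ • F (Sx x)‖ ^ 2 := fun ξ =>
      pow_lt_pow_left₀ (hcon.trans_le (hlow ξ)) hpos two_ne_zero
    have h9 : ∑ _ξ : I', (c * n * ‖f‖) ^ 2 < ∑ ξ, ‖∑ x, u x ξ • F (Sx x)‖ ^ 2 :=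
      Finset.sum_lt_sum_of_nonempty univ_nonempty fun ξ _ => h8 ξ
    rw [Finset.sum_const, nsmul_eq_mul, Finset.card_univ] at h9
    exact absurd hup2 (not_le.2 h9)
  linarith

/-! ### averaging over conditional expectations -/

/-- the probability of the random set `A` -/
noncomputable def pA (ρ : ℝ) (A : Finset (Fin s)) : ℝ := (∏ _i ∈ A, (1 - ρ)) * ∏ _i ∈ univ \ A, ρ

lemma pA_nonneg {ρ : ℝ} (h0 : 0 ≤ ρ) (h1 : ρ ≤ 1) (A : Finset (Fin s)) : 0 ≤ pA ρ A :=
  mul_nonneg (Finset.prod_nonneg fun _ _ => by linarith) (Finset.prod_nonneg fun _ _ => h0)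

lemma sum_pA (ρ : ℝ) : ∑ A : Finset (Fin s), pA ρ A = 1 := by
  unfold pA
  rw [sum_finset_prod]
  simp

lemma sum_pA_eA (ρ : ℝ) (B : Finset (Fin s)) : ∑ A : Finset (Fin s), pA ρ A * eA A B = ρ ^ B.card := by
  have h1 : ∀ A : Finset (Fin s), pA ρ A * eA A B =
      (∏ i ∈ A, ((1 - ρ) * if i ∈ B then 0 else 1)) * ∏ _i ∈ univ \ A, ρ := by
    intro A
    have h2 : eA A B = ∏ i ∈ A, (if i ∈ B then (0:ℝ) else 1) := by
      by_cases h : ∃ i ∈ B, i ∈ A
      · obtain ⟨i, hi, hA⟩ := h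
        have z1 : eA A B = 0 := Finset.prod_eq_zero hi (if_pos hA)
        have z2 : ∏ i ∈ A, (if i ∈ B then (0:ℝ) else 1) = 0 := Finset.prod_eq_zero hA (if_pos hi)
        rw [z1, z2]
      · push Not at h
        have z1 : eA A B = 1 := Finset.prod_eq_one fun i hi => if_neg (h i hi)
        have z2 : ∏ i ∈ A, (if i ∈ B then (0:ℝ) else 1) = 1 :=
          Finset.prod_eq_one fun i hi => if_neg fun hB => h i hB hi
        rw [z1, z2]
    rw [h2, pA, Finset.prod_mul_distrib]
    ring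
  simp_rw [h1]
  rw [sum_finset_prod, ← Finset.prod_const, ← Finset.prod_subset (Finset.subset_univ B)]
  · exact Finset.prod_congr rfl fun i hi => by rw [if_pos hi]; ring
  · intro i _ hi
    rw [if_neg hi]; ring

lemma norm_pow_le [DecidableEq I] [Nonempty I'] {u : I → I' → ℝ}
    (hu : ∀ x ξ, u x ξ = 1 ∨ u x ξ = -1) {c : ℝ} (hc : 0 ≤ c) (h : SignGain X u c)
    (ρ : ℝ) (h0 : 0 ≤ ρ) (h1 : ρ ≤ 1) :
    ‖(M (fun B => (1 - ρ ^ B.card) ^ (2 * Fintype.card I)) : Z s X →L[ℝ] Z s X)‖ ≤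
      2 ^ (2 * Fintype.card I) - (1 - c) * Fintype.card I := by
  classical
  have hcardJ : Fintype.card (I × Bool) = 2 * Fintype.card I := by
    rw [Fintype.card_prod, Fintype.card_bool, mul_comm]
  have e1 : ∀ B : Finset (Fin s), (1 - ρ ^ B.card) ^ (2 * Fintype.card I) =
      ∑ α : I × Bool → Finset (Fin s), (∏ j, pA ρ (α j)) * ∏ j, (1 - eA (α j) B) := by
    intro B
    have e2 : 1 - ρ ^ B.card = ∑ A : Finset (Fin s), pA ρ A * (1 - eA A B) := by
      simp_rw [mul_sub, mul_one]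
      rw [Finset.sum_sub_distrib, sum_pA, sum_pA_eA]
    rw [e2, ← hcardJ, ← Finset.card_univ, ← Finset.prod_const, Finset.prod_univ_sum,
      Fintype.piFinset_univ]
    simp_rw [Finset.prod_mul_distrib]
  have e3 : (M (fun B => (1 - ρ ^ B.card) ^ (2 * Fintype.card I)) : Z s X →L[ℝ] Z s X) =
      ∑ α : I × Bool → Finset (Fin s), (∏ j, pA ρ (α j)) • M (fun B => ∏ j, (1 - eA (α j) B)) := by
    rw [← M_sum]
    exact M_congr e1
  rw [e3]
  have e4 : ∑ α : I × Bool → Finset (Fin s), ∏ j, pA ρ (α j) = 1 := by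
    have := Finset.prod_univ_sum (fun _ : I × Bool => (univ : Finset (Finset (Fin s))))
      (fun _ A => pA ρ A)
    rw [Fintype.piFinset_univ] at this
    rw [← this]
    simp [sum_pA]
  set D : ℝ := 2 ^ (2 * Fintype.card I) - (1 - c) * Fintype.card I
  calc ‖∑ α : I × Bool → Finset (Fin s), (∏ j, pA ρ (α j)) •
        (M (fun B => ∏ j, (1 - eA (α j) B)) : Z s X →L[ℝ] Z s X)‖
      ≤ ∑ α : I × Bool → Finset (Fin s), (∏ j, pA ρ (α j)) * D := by
        refine (norm_sum_le _ _).trans (Finset.sum_le_sum fun α _ => ?_)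
        have hp : 0 ≤ ∏ j, pA ρ (α j) := Finset.prod_nonneg fun j _ => pA_nonneg h0 h1 _
        rw [norm_smul, Real.norm_of_nonneg hp]
        exact mul_le_mul_of_nonneg_left (norm_prod_le hu hc h α) hp
    _ = D := by rw [← Finset.sum_mul, e4, one_mul]

/-! ### inverse bound -/

section inv
variable {A : Type*} [NormedRing A] [NormedAlgebra ℝ A] {n : ℕ} {Q : ℕ → A}

lemma inv_bound (hQ : Fam n Q) (N : ℕ) (δ : ℝ) (hδ : 0 < δ)
    (hc : ∀ t : ℝ, 0 ≤ t → ‖op n Q (fun k => Real.exp (-(t * k)))‖ ≤ 1)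
    (hN : ∀ t : ℝ, 0 ≤ t → ‖op n Q (fun k => (1 - Real.exp (-(t * k))) ^ N)‖ ≤ 2 ^ N - δ) :
    Good n Q (N * 2 ^ N / δ) where
  fam := hQ
  contr := hc
  inv := by
    intro t ht
    have h1A : ‖(1 : A)‖ ≤ 1 := by
      have := hc 0 le_rfl
      simpa [op_one hQ] using this
    set b : A := op n Q (fun k => 2⁻¹ * (1 - Real.exp (-(t * k)))) with hb
    set g : A := op n Q (fun k => (1 + Real.exp (-(t * k)))⁻¹) with hg
    have hbn : ‖b‖ ≤ 1 := by
      rw [hb, op_smul, norm_smul]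
      have h2 : op n Q (fun k => 1 - Real.exp (-(t * k))) = 1 - op n Q (fun k => Real.exp (-(t * k))) := by
        rw [← op_one hQ, ← op_sub]
      rw [h2]
      have h3 : ‖1 - op n Q (fun k => Real.exp (-(t * k)))‖ ≤ 2 := by
        refine (norm_sub_le _ _).trans ?_
        linarith [hc t ht]
      rw [Real.norm_of_nonneg (by norm_num)]
      linarith
    have hbN : ‖b ^ N‖ ≤ 1 - δ / 2 ^ N := by
      rw [hb, ← op_pow hQ]
      have h2 : op n Q (fun k => (2⁻¹ * (1 - Real.exp (-(t * k)))) ^ N) =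
          (2⁻¹ ^ N : ℝ) • op n Q (fun k => (1 - Real.exp (-(t * k))) ^ N) := by
        rw [← op_smul]
        exact op_congr fun k => mul_pow _ _ _
      rw [h2, norm_smul, Real.norm_of_nonneg (by positivity)]
      calc (2⁻¹ : ℝ) ^ N * ‖op n Q (fun k => (1 - Real.exp (-(t * k))) ^ N)‖
          ≤ (2⁻¹ : ℝ) ^ N * (2 ^ N - δ) := mul_le_mul_of_nonneg_left (hN t ht) (by positivity)
        _ = 1 - δ / 2 ^ N := by
            rw [inv_pow]
            have : (2 : ℝ) ^ N ≠ 0 := by positivity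
            field_simp
    have hbpow : ∀ i : ℕ, ‖b ^ i‖ ≤ 1 := by
      intro i
      induction i with
      | zero => simpa using h1A
      | succ i ih =>
        rw [pow_succ]
        exact (norm_mul_le _ _).trans (mul_le_one₀ ih (norm_nonneg _) hbn)
    have hid : g = (2⁻¹ : ℝ) • (∑ i ∈ Finset.range N, b ^ i) + b ^ N * g := by
      have h4 : ∑ i ∈ Finset.range N, b ^ i = op n Q (fun k =>
          ∑ i ∈ Finset.range N, (2⁻¹ * (1 - Real.exp (-(t * k)))) ^ i) := by
        have h5 : ∀ T : Finset ℕ, ∑ i ∈ T, b ^ i = op n Q (fun k =>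
          ∑ i ∈ T, (2⁻¹ * (1 - Real.exp (-(t * k)))) ^ i) := by
          intro T
          induction T using Finset.induction_on with
          | empty => simp [op]
          | insert i T hi ih =>
            rw [Finset.sum_insert hi, ih, hb, ← op_pow hQ, ← op_add]
            exact op_congr fun k => (Finset.sum_insert hi).symm
        exact h5 _
      rw [h4, hb, ← op_pow hQ, hg, ← op_mul hQ, ← op_smul, ← op_add]
      refine op_congr fun k => ?_
      set x := Real.exp (-(t * k)) with hx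
      have hx0 : 0 < x := Real.exp_pos _
      set β := 2⁻¹ * (1 - x) with hβ
      have h6 := mul_neg_geom_sum β N
      have h7 : 1 - β = 2⁻¹ * (1 + x) := by rw [hβ]; ring
      rw [h7] at h6
      have h8 : 1 + x ≠ 0 := by positivity
      field_simp
      linarith
    have hgn : ‖g‖ ≤ N + (1 - δ / 2 ^ N) * ‖g‖ := by
      calc ‖g‖ ≤ ‖(2⁻¹ : ℝ) • (∑ i ∈ Finset.range N, b ^ i)‖ + ‖b ^ N * g‖ := by
            conv_lhs => rw [hid]
            exact norm_add_le _ _
        _ ≤ N + (1 - δ / 2 ^ N) * ‖g‖ := by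
            refine add_le_add ?_ ?_
            · rw [norm_smul, Real.norm_of_nonneg (by norm_num)]
              have h9 : ‖∑ i ∈ Finset.range N, b ^ i‖ ≤ N := by
                refine (norm_sum_le _ _).trans ?_
                calc ∑ i ∈ Finset.range N, ‖b ^ i‖ ≤ ∑ _i ∈ Finset.range N, (1:ℝ) :=
                      Finset.sum_le_sum fun i _ => hbpow i
                  _ = N := by simp
              have h10 : (0:ℝ) ≤ N := Nat.cast_nonneg N
              linarith [norm_nonneg (∑ i ∈ Finset.range N, b ^ i)]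
            · exact (norm_mul_le _ _).trans (mul_le_mul_of_nonneg_right hbN (norm_nonneg _))
    rw [le_div_iff₀ hδ]
    have h2N : (0:ℝ) < 2 ^ N := by positivity
    have h11 : δ / 2 ^ N * ‖g‖ ≤ N := by linarith
    calc ‖g‖ * δ = (δ / 2 ^ N * ‖g‖) * 2 ^ N := by field_simp
      _ ≤ N * 2 ^ N := mul_le_mul_of_nonneg_right h11 h2N.le

end inv

end Crest.Agent.R118.PisierCube362
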