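import Mathlib
import Crest.Prelude.Def_Rademacher
import Crest.Agent.R118.PisierCube_362

set_option autoImplicit false

/-! Row 118 (S0158): **Pisier's theorem**. If some sign matrix `u : I → I' → {±1}` has a gain
`c < 1` on the real Banach space `X` (i.e. `X` does not contain the corresponding `ℓ_1` almost
isometrically along this matrix), then `X` is K-convex. -/

namespace Crest.Agent.R118.Pisier362

open Finset
open Crest.AnalysisR
open Crest.Agent.R118.PisierAbs362 Crest.Agent.R118.PisierCube362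

variable {X : Type*} [NormedAddCommGroup X] [NormedSpace ℝ X]

lemma level_one_apply {s : ℕ} (f : Z s X) (ε : Fin s → Bool) :
    (M (fun B => if B.card = 1 then 1 else 0) f : Z s X) ε =
      ∑ i : Fin s, signVal (ε i) • (((2 : ℝ) ^ s)⁻¹ • ∑ η : Fin s → Bool, signVal (η i) • f η) := by
  rw [M, opK_apply]
  have e : ∀ η : Fin s → Bool, ((2 : ℝ) ^ s)⁻¹ * ∑ B : Finset (Fin s),
      (if B.card = 1 then (1:ℝ) else 0) * (w B ε * w B η) =
      ∑ i : Fin s, ((2 : ℝ) ^ s)⁻¹ * (signVal (ε i) * signVal (η i)) := by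
    intro η
    rw [← Finset.mul_sum]
    congr 1
    simp_rw [ite_mul, one_mul, zero_mul]
    rw [← Finset.sum_filter]
    have h1 : (univ.filter fun B : Finset (Fin s) => B.card = 1) =
        univ.image fun i : Fin s => ({i} : Finset (Fin s)) := by
      ext B
      simp only [mem_filter, mem_univ, true_and, mem_image, Finset.card_eq_one]
      exact ⟨fun ⟨a, ha⟩ => ⟨a, ha.symm⟩, fun ⟨a, ha⟩ => ⟨a, ha.symm⟩⟩
    rw [h1, Finset.sum_image fun x _ y _ hxy => Finset.singleton_injective hxy]
    simp [w]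
  simp_rw [e, Finset.sum_smul]
  rw [Finset.sum_comm]
  refine Finset.sum_congr rfl fun i _ => ?_
  rw [Finset.smul_sum, Finset.smul_sum]
  refine Finset.sum_congr rfl fun η _ => ?_
  rw [smul_smul, smul_smul]
  congr 1
  ring

/-- **Pisier's theorem** for a sign matrix with a gain. -/
theorem isKConvex_of_signGain [CompleteSpace X] {I I' : Type*} [Fintype I] [Fintype I']
    [Nonempty I] [Nonempty I'] {u : I → I' → ℝ} (hu : ∀ x ξ, u x ξ = 1 ∨ u x ξ = -1) {c : ℝ}
    (hc0 : 0 ≤ c) (hc : c < 1) (h : SignGain X u c) : IsKConvex X := by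
  classical
  set N : ℕ := 2 * Fintype.card I with hN
  set δ : ℝ := (1 - c) * Fintype.card I with hδ
  have hδ0 : 0 < δ := mul_pos (by linarith) (by exact_mod_cast Fintype.card_pos)
  set K : ℝ := N * 2 ^ N / δ with hK
  have hgood : ∀ s : ℕ, Good s (P s X) K := by
    intro s
    refine inv_bound P_fam N δ hδ0 contr fun t ht => ?_
    rw [op_P]
    have h1 := norm_pow_le (s := s) hu hc0 h (Real.exp (-t)) (Real.exp_pos _).le
      (Real.exp_le_one_iff.2 (by linarith))
    have h2 : (M (fun B => (1 - Real.exp (-(t * (B.card : ℕ)))) ^ N) : Z s X →L[ℝ] Z s X) =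
        M (fun B => (1 - Real.exp (-t) ^ B.card) ^ (2 * Fintype.card I)) := by
      refine M_congr fun B => ?_
      rw [← Real.exp_nat_mul, hN]
      congr 3
      ring
    rw [h2]
    exact h1
  refine ⟨CC K, fun s f => ?_⟩
  have hl := (hgood s).level_one
  rw [op_P] at hl
  have hcc : 0 ≤ CC K := (norm_nonneg _).trans hl
  set f' : Z s X := WithLp.toLp 2 f with hf'
  have hb := ContinuousLinearMap.le_of_opNorm_le _ hl f'
  have hb2 : ‖M (fun B => if B.card = 1 then 1 else 0) f'‖ ^ 2 ≤ (CC K) ^ 2 * ‖f'‖ ^ 2 := by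
    rw [← mul_pow]
    exact pow_le_pow_left₀ (norm_nonneg _) hb 2
  rw [norm_sq_Z, norm_sq_Z] at hb2
  simp_rw [level_one_apply] at hb2
  unfold signAverage
  simp_rw [Real.rpow_two]
  rw [mul_left_comm]
  refine mul_le_mul_of_nonneg_left ?_ (by positivity)
  simpa [hf'] using hb2

end Crest.Agent.R118.Pisier362

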