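import Crest.Agent.R118.APRed_485

/-!
Row 118 (S0158): `ap_reduction` in the exact shape of the hypothesis `hRed` of `Glue_324.glue`.
-/

set_option autoImplicit false
open Crest.AnalysisR

namespace Crest.Agent.R118.APRed485

open Lift361

universe u

theorem hRed : ∀ (X : Type u) [NormedAddCommGroup X] [NormedSpace ℝ X] [CompleteSpace X]
      (hAP : HasApproximationProperty X) (M : ℕ) (B B' : ℝ) (hM : 0 < M) (hB : 0 ≤ B)
      (hBB : B < B') (hL : HasLift X M B) (k : ℝ)
      (hMain : ∀ (Z : Type u) [NormedAddCommGroup Z] [NormedSpace ℝ Z] (T : Z →L[ℝ] X),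
        FiniteDimensional ℝ (LinearMap.range (T : Z →ₗ[ℝ] X)) → ‖T‖ ≤ 1 →
        HasLift Z M (2 * B') → ∀ (s : ℕ) (g : (Fin s → Bool) → Z),
          signAverage (fun ε : Fin s → Bool =>
            ‖∑ i : Fin s, signVal (ε i) •
              (((2 : ℝ) ^ s)⁻¹ • ∑ η : Fin s → Bool, signVal (η i) • T (g η))‖ ^ 2)
            ≤ k ^ 2 * signAverage fun ε => ‖g ε‖ ^ 2), IsKConvex X := by
  intro X _ _ _ hAP M B B' _ hB hBB hL k hMain
  refine ap_reduction hAP hB hBB hL (k := k) fun Z _ _ T h1 h2 h3 s g => ?_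
  have h := hMain Z T h1 h2 h3 s g
  unfold Phi
  simp only [Real.rpow_two]
  exact h

end Crest.Agent.R118.APRed485
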